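import Mathlib

/-!
# Row 94 (S0124): Arzela-Ascoli for asymptotically equicontinuous sequences

(helper997)
-/

set_option autoImplicit false

namespace Crest.Agent.R094.Cpt

open Filter Topology Set Metric

/-- An eventually bounded real sequence is bounded. -/
theorem exists_bound_of_eventually {a : ℕ → ℝ} {M : ℝ} (h : ∀ᶠ k in atTop, |a k| ≤ M) :
    ∃ M', ∀ k, |a k| ≤ M' := by
  obtain ⟨k0, hk0⟩ := eventually_atTop.1 h
  refine ⟨max M (∑ k ∈ Finset.range k0, |a k|), fun k => ?_⟩
  rcases lt_or_ge k k0 with hk | hk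
  · refine le_trans ?_ (le_max_right _ _)
    exact Finset.single_le_sum (f := fun k => |a k|) (fun i _ => abs_nonneg _)
      (Finset.mem_range.2 hk)
  · exact le_trans (hk0 k hk) (le_max_left _ _)

/-- **Arzelà–Ascoli for asymptotically equicontinuous sequences** of real functions (not
necessarily continuous) on a proper metric space. -/
theorem exists_subseq_tendstoUniformlyOn {X : Type*} [PseudoMetricSpace X] [ProperSpace X]
    (F : ℕ → X → ℝ)
    (hbd : ∀ x, ∃ M, ∀ᶠ k in atTop, |F k x| ≤ M)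
    (heq : ∀ K : Set X, IsCompact K → ∀ ε > 0, ∃ η > 0, ∀ᶠ k in atTop, ∀ x ∈ K, ∀ y ∈ K,
      dist x y ≤ η → |F k x - F k y| ≤ ε) :
    ∃ (φ : ℕ → ℕ) (G : X → ℝ), StrictMono φ ∧ Continuous G ∧
      ∀ K : Set X, IsCompact K → TendstoUniformlyOn (fun k => F (φ k)) G atTop K := by
  classical
  rcases isEmpty_or_nonempty X with hX | hX
  · refine ⟨id, fun _ => 0, strictMono_id, continuous_const, ?_⟩
    intro K hK
    have : K = ∅ := Set.eq_empty_of_isEmpty K
    subst this
    exact tendstoUniformlyOn_empty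
  -- dense sequence
  set D : ℕ → X := TopologicalSpace.denseSeq X with hD
  have hdense : DenseRange D := TopologicalSpace.denseRange_denseSeq X
  have hM : ∀ n, ∃ M, ∀ k, |F k (D n)| ≤ M := fun n => by
    obtain ⟨M, hM⟩ := hbd (D n)
    exact exists_bound_of_eventually hM
  choose M hM using hM
  have hcpt : IsCompact (Set.pi Set.univ (fun n : ℕ => Set.Icc (-(M n)) (M n))) :=
    isCompact_univ_pi fun n => isCompact_Icc
  obtain ⟨a, -, φ, hφ, hlim⟩ := hcpt.tendsto_subseq (x := fun k n => F k (D n))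
    (fun k n _ => abs_le.1 (hM n k))
  have hlimn : ∀ n, Tendsto (fun k => F (φ k) (D n)) atTop (𝓝 (a n)) := by
    intro n
    exact (tendsto_pi_nhds.1 hlim) n
  -- asymptotic equicontinuity along the subsequence
  have heq' : ∀ K : Set X, IsCompact K → ∀ ε > 0, ∃ η > 0, ∀ᶠ k in atTop, ∀ x ∈ K, ∀ y ∈ K,
      dist x y ≤ η → |F (φ k) x - F (φ k) y| ≤ ε := by
    intro K hK ε hε
    obtain ⟨η, hη, h⟩ := heq K hK ε hε
    exact ⟨η, hη, hφ.tendsto_atTop.eventually h⟩
  -- pointwise limit
  have hcauchy : ∀ x, CauchySeq (fun k => F (φ k) x) := by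
    intro x
    rw [Metric.cauchySeq_iff']
    intro ε hε
    obtain ⟨η, hη, h⟩ := heq' (closedBall x 1) (isCompact_closedBall x 1) (ε / 8) (by positivity)
    obtain ⟨n, hy⟩ := hdense.exists_dist_lt x (lt_min hη one_pos)
    have hy' : dist x (D n) ≤ min η 1 := hy.le
    have hmem : D n ∈ closedBall x 1 := by
      rw [mem_closedBall, dist_comm]; exact hy'.trans (min_le_right _ _)
    have hc := Metric.cauchySeq_iff'.1 (hlimn n).cauchySeq (ε / 4) (by positivity)
    obtain ⟨N1, hN1⟩ := hc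
    obtain ⟨N2, hN2⟩ := eventually_atTop.1 h
    refine ⟨max N1 N2, fun k hk => ?_⟩
    have e1 := hN2 k ((le_max_right _ _).trans hk) x (mem_closedBall_self zero_le_one) (D n) hmem
      (hy'.trans (min_le_left _ _))
    have e2 := hN2 (max N1 N2) (le_max_right _ _) x (mem_closedBall_self zero_le_one) (D n) hmem
      (hy'.trans (min_le_left _ _))
    have e3 := hN1 k ((le_max_left _ _).trans hk)
    have e4 := hN1 (max N1 N2) (le_max_left _ _)
    rw [Real.dist_eq] at e3 e4 ⊢
    rw [abs_le] at e1 e2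
    rw [abs_lt] at e3 e4 ⊢
    constructor <;> linarith [e1.1, e1.2, e2.1, e2.2, e3.1, e3.2, e4.1, e4.2]
  choose G hG using fun x => cauchySeq_tendsto_of_complete (hcauchy x)
  have hGeq : ∀ K : Set X, IsCompact K → ∀ ε > 0, ∃ η > 0, ∀ x ∈ K, ∀ y ∈ K,
      dist x y ≤ η → |G x - G y| ≤ ε := by
    intro K hK ε hε
    obtain ⟨η, hη, h⟩ := heq' K hK ε hε
    refine ⟨η, hη, fun x hx y hy hxy => ?_⟩
    have ht : Tendsto (fun k => |F (φ k) x - F (φ k) y|) atTop (𝓝 |G x - G y|) :=
      ((hG x).sub (hG y)).abs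
    exact le_of_tendsto ht (h.mono fun k hk => hk x hx y hy hxy)
  refine ⟨φ, G, hφ, ?_, ?_⟩
  · rw [Metric.continuous_iff]
    intro x ε hε
    obtain ⟨η, hη, h⟩ := hGeq (closedBall x 1) (isCompact_closedBall x 1) (ε / 2) (by positivity)
    refine ⟨min η 1, lt_min hη one_pos, fun y hy => ?_⟩
    rw [Real.dist_eq]
    refine lt_of_le_of_lt (h y ?_ x (mem_closedBall_self zero_le_one) ?_) (by linarith)
    · exact mem_closedBall.2 (hy.le.trans (min_le_right _ _))
    · exact hy.le.trans (min_le_left _ _)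
  · intro K hK
    rw [Metric.tendstoUniformlyOn_iff]
    intro ε hε
    obtain ⟨η, hη, h⟩ := heq' K hK (ε / 4) (by positivity)
    obtain ⟨η', hη', h'⟩ := hGeq K hK (ε / 4) (by positivity)
    obtain ⟨t, htK, htf, hcov⟩ := hK.finite_cover_balls (lt_min hη hη')
    have hfin : ∀ᶠ k in atTop, ∀ c ∈ t, dist (F (φ k) c) (G c) < ε / 4 := by
      rw [Filter.eventually_all_finite htf]
      intro c _
      exact Metric.tendsto_nhds.1 (hG c) (ε / 4) (by positivity)
    filter_upwards [h, hfin] with k hk hkf x hx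
    have hx' := hcov hx
    simp only [mem_iUnion, mem_ball, exists_prop] at hx'
    obtain ⟨c, hct, hxc⟩ := hx'
    have e1 := hk x hx c (htK hct) (hxc.le.trans (min_le_left _ _))
    have e2 := h' x hx c (htK hct) (hxc.le.trans (min_le_right _ _))
    have e3 := hkf c hct
    rw [Real.dist_eq] at e3 ⊢
    rw [abs_le] at e1 e2
    rw [abs_lt] at e3 ⊢
    constructor <;> linarith [e1.1, e1.2, e2.1, e2.2, e3.1, e3.2]

end Crest.Agent.R094.Cpt
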