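import Mathlib

/-!
Row 94 (S0124), route 7921.  Definitions of the abstract theory (helper452).

`V` a finite dimensional real inner product space, `w : V → ℝ → ℝ` (space, time).
-/

set_option autoImplicit false

namespace Crest.Agent.R094.Sol

variable {V : Type*} [NormedAddCommGroup V] [InnerProductSpace ℝ V]

/-- sup-convolution of a function on `V` -/
noncomputable def supc (s : ℝ) (f : V → ℝ) (x : V) : ℝ := ⨆ y, (f y - ‖x - y‖ ^ 2 / (2 * s))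

/-- inf-convolution of a function on `V` -/
noncomputable def infc (s : ℝ) (f : V → ℝ) (x : V) : ℝ := ⨅ y, (f y + ‖x - y‖ ^ 2 / (2 * s))

/-- forward operator `T_s w (x,t) = sup_y [w(y,t+s) - |x-y|²/2s]` -/
noncomputable def T (s : ℝ) (w : V → ℝ → ℝ) (x : V) (t : ℝ) : ℝ :=
  ⨆ y, (w y (t + s) - ‖x - y‖ ^ 2 / (2 * s))

/-- backward operator `B_s w (x,t) = inf_z [w(z,t-s) + |x-z|²/2s]` -/
noncomputable def B (s : ℝ) (w : V → ℝ → ℝ) (x : V) (t : ℝ) : ℝ :=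
  ⨅ z, (w z (t - s) + ‖x - z‖ ^ 2 / (2 * s))

/-- time reversal `w^R(x,t) = -w(x,-t)` -/
def rev (w : V → ℝ → ℝ) (x : V) (t : ℝ) : ℝ := - w x (-t)

/-- upper subquadratic growth of one slice -/
def QUp (f : V → ℝ) : Prop := ∀ ε : ℝ, 0 < ε → ∃ C : ℝ, ∀ y, f y ≤ ε * ‖y‖ ^ 2 + C

/-- locally uniform (in time) subquadratic growth -/
def Grow (w : V → ℝ → ℝ) : Prop :=
  ∀ R : ℝ, ∀ ε : ℝ, 0 < ε → ∃ C : ℝ, ∀ y t, |t| ≤ R → |w y t| ≤ ε * ‖y‖ ^ 2 + C

/-- (Sub): `T_s w ≤ (1-s/s') w + (s/s') T_{s'} w` -/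
def IsSub (w : V → ℝ → ℝ) : Prop :=
  ∀ (x : V) (t s s' : ℝ), 0 < s → s ≤ s' →
    T s w x t ≤ (1 - s / s') * w x t + s / s' * T s' w x t

/-- (Sup): `B_s w ≥ (1-s/s') w + (s/s') B_{s'} w` -/
def IsSup (w : V → ℝ → ℝ) : Prop :=
  ∀ (x : V) (t s s' : ℝ), 0 < s → s ≤ s' →
    (1 - s / s') * w x t + s / s' * B s' w x t ≤ B s w x t

/-- entire solutions of the model -/
structure IsSol (w : V → ℝ → ℝ) : Prop where
  cont : Continuous (fun p : V × ℝ => w p.1 p.2)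
  grow : Grow w
  sub : IsSub w
  sup : IsSup w

/-- forward slope -/
noncomputable def hp (s : ℝ) (w : V → ℝ → ℝ) (x : V) (t : ℝ) : ℝ := (T s w x t - w x t) / s

/-- backward slope -/
noncomputable def hm (s : ℝ) (w : V → ℝ → ℝ) (x : V) (t : ℝ) : ℝ := (w x t - B s w x t) / s

end Crest.Agent.R094.Sol
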