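import Mathlib
import Crest.Agent.R094.SolBasic
import Crest.Agent.R094.Env

/-!
Row 94 (S0124), route 7921.  Continuity and localisation for `T`, `B` (helper452).
-/

set_option autoImplicit false
set_option linter.unusedSectionVars false

namespace Crest.Agent.R094.Sol

open Metric Set Filter Topology
open scoped InnerProductSpace
open Crest.Agent.R094.Env (Qs Qi SubQ Conv tendsto_Qs)

variable {V : Type*} [NormedAddCommGroup V] [InnerProductSpace ℝ V]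
variable {w : V → ℝ → ℝ}

theorem T_eq_Qs (s : ℝ) (w : V → ℝ → ℝ) (x : V) (t : ℝ) :
    T s w x t = Qs s (fun y => w y (t + s)) x := by
  unfold T Qs
  congr 1
  funext y
  rw [norm_sub_rev]

theorem B_eq_Qi (s : ℝ) (w : V → ℝ → ℝ) (x : V) (t : ℝ) :
    B s w x t = Qi s (fun y => w y (t - s)) x := by
  unfold B Qi
  congr 1
  funext y
  rw [norm_sub_rev]

theorem Grow.subQ (h : Grow w) (t : ℝ) : SubQ fun y => w y t := by
  intro ε hε
  obtain ⟨C, hC⟩ := h |t| ε hε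
  exact ⟨C, fun y => hC y t le_rfl⟩

theorem cont_slice (hc : Continuous (fun p : V × ℝ => w p.1 p.2)) (t : ℝ) :
    Continuous fun y => w y t := hc.comp (continuous_id.prodMk continuous_const)

/-- slices converge -/
theorem conv_slice [FiniteDimensional ℝ V] (hc : Continuous (fun p : V × ℝ => w p.1 p.2))
    (h : Grow w) {α : Type*} {l : Filter α} {τ : α → ℝ} {t : ℝ} (hτ : Tendsto τ l (𝓝 t)) :
    Conv l (fun j y => w y (τ j)) (fun y => w y t) where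
  unif := by
    intro R ε hε
    have hK : IsCompact (closedBall (0 : V) R ×ˢ closedBall t 1) :=
      (isCompact_closedBall _ _).prod (isCompact_closedBall _ _)
    have hu := hK.uniformContinuousOn_of_continuous hc.continuousOn
    rw [Metric.uniformContinuousOn_iff] at hu
    obtain ⟨δ, hδ, hu⟩ := hu ε hε
    filter_upwards [Metric.tendsto_nhds.1 hτ (min δ 1) (by positivity)] with j hj a ha
    have h1 : dist (τ j) t < δ := lt_of_lt_of_le hj (min_le_left _ _)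
    have h2 : dist (τ j) t < 1 := lt_of_lt_of_le hj (min_le_right _ _)
    have := hu (a, τ j) ⟨by simpa using ha, h2.le⟩ (a, t) ⟨by simpa using ha, by simp⟩
      (by simpa [Prod.dist_eq] using h1)
    simpa [Real.dist_eq] using this
  subq := Eventually.of_forall fun _ => h.subQ _
  grow := by
    intro ε hε
    obtain ⟨C, hC⟩ := h (|t| + 1) ε hε
    refine ⟨C, ?_⟩
    filter_upwards [Metric.tendsto_nhds.1 hτ 1 one_pos] with j hj a
    apply hC
    rw [Real.dist_eq] at hj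
    have := abs_sub_abs_le_abs_sub (τ j) t
    linarith
  cont := cont_slice hc t
  lim := h.subQ t

theorem tendsto_T [FiniteDimensional ℝ V] (hc : Continuous (fun p : V × ℝ => w p.1 p.2))
    (h : Grow w) {α : Type*} {l : Filter α} {σ τ : α → ℝ} {ξ : α → V} {s t : ℝ} {x : V}
    (hs : 0 < s) (hσ : Tendsto σ l (𝓝 s)) (hξ : Tendsto ξ l (𝓝 x)) (hτ : Tendsto τ l (𝓝 t)) :
    Tendsto (fun j => T (σ j) w (ξ j) (τ j)) l (𝓝 (T s w x t)) := by
  simp only [T_eq_Qs]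
  exact tendsto_Qs (conv_slice hc h (hτ.add hσ)) hs hσ hξ

theorem cont_rev (hc : Continuous (fun p : V × ℝ => w p.1 p.2)) :
    Continuous (fun p : V × ℝ => rev w p.1 p.2) :=
  (hc.comp (continuous_fst.prodMk continuous_snd.neg)).neg

theorem tendsto_B [FiniteDimensional ℝ V] (hc : Continuous (fun p : V × ℝ => w p.1 p.2))
    (h : Grow w) {α : Type*} {l : Filter α} {σ τ : α → ℝ} {ξ : α → V} {s t : ℝ} {x : V}
    (hs : 0 < s) (hσ : Tendsto σ l (𝓝 s)) (hξ : Tendsto ξ l (𝓝 x)) (hτ : Tendsto τ l (𝓝 t)) :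
    Tendsto (fun j => B (σ j) w (ξ j) (τ j)) l (𝓝 (B s w x t)) := by
  simp only [B_eq_neg_T]
  exact (tendsto_T (cont_rev hc) h.rev hs hσ hξ hτ.neg).neg

theorem continuous_T [FiniteDimensional ℝ V] (hc : Continuous (fun p : V × ℝ => w p.1 p.2))
    (h : Grow w) {s : ℝ} (hs : 0 < s) : Continuous (fun p : V × ℝ => T s w p.1 p.2) :=
  continuous_iff_continuousAt.2 fun p =>
    tendsto_T hc h hs tendsto_const_nhds (continuous_fst.tendsto p) (continuous_snd.tendsto p)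

theorem continuous_B [FiniteDimensional ℝ V] (hc : Continuous (fun p : V × ℝ => w p.1 p.2))
    (h : Grow w) {s : ℝ} (hs : 0 < s) : Continuous (fun p : V × ℝ => B s w p.1 p.2) :=
  continuous_iff_continuousAt.2 fun p =>
    tendsto_B hc h hs tendsto_const_nhds (continuous_fst.tendsto p) (continuous_snd.tendsto p)

theorem tendsto_w (hc : Continuous (fun p : V × ℝ => w p.1 p.2)) {α : Type*} {l : Filter α}
    {τ : α → ℝ} {ξ : α → V} {t : ℝ} {x : V} (hξ : Tendsto ξ l (𝓝 x)) (hτ : Tendsto τ l (𝓝 t)) :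
    Tendsto (fun j => w (ξ j) (τ j)) l (𝓝 (w x t)) :=
  (hc.tendsto (x, t)).comp (hξ.prodMk_nhds hτ)

theorem tendsto_hp [FiniteDimensional ℝ V] (hc : Continuous (fun p : V × ℝ => w p.1 p.2))
    (h : Grow w) {α : Type*} {l : Filter α} {σ τ : α → ℝ} {ξ : α → V} {s t : ℝ} {x : V}
    (hs : 0 < s) (hσ : Tendsto σ l (𝓝 s)) (hξ : Tendsto ξ l (𝓝 x)) (hτ : Tendsto τ l (𝓝 t)) :
    Tendsto (fun j => hp (σ j) w (ξ j) (τ j)) l (𝓝 (hp s w x t)) :=
  ((tendsto_T hc h hs hσ hξ hτ).sub (tendsto_w hc hξ hτ)).div hσ hs.ne'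

theorem tendsto_hm [FiniteDimensional ℝ V] (hc : Continuous (fun p : V × ℝ => w p.1 p.2))
    (h : Grow w) {α : Type*} {l : Filter α} {σ τ : α → ℝ} {ξ : α → V} {s t : ℝ} {x : V}
    (hs : 0 < s) (hσ : Tendsto σ l (𝓝 s)) (hξ : Tendsto ξ l (𝓝 x)) (hτ : Tendsto τ l (𝓝 t)) :
    Tendsto (fun j => hm (σ j) w (ξ j) (τ j)) l (𝓝 (hm s w x t)) :=
  ((tendsto_w hc hξ hτ).sub (tendsto_B hc h hs hσ hξ hτ)).div hσ hs.ne'

theorem continuous_hp [FiniteDimensional ℝ V] (hc : Continuous (fun p : V × ℝ => w p.1 p.2))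
    (h : Grow w) {s : ℝ} (hs : 0 < s) : Continuous (fun p : V × ℝ => hp s w p.1 p.2) :=
  continuous_iff_continuousAt.2 fun p =>
    tendsto_hp hc h hs tendsto_const_nhds (continuous_fst.tendsto p) (continuous_snd.tendsto p)

theorem continuous_hm [FiniteDimensional ℝ V] (hc : Continuous (fun p : V × ℝ => w p.1 p.2))
    (h : Grow w) {s : ℝ} (hs : 0 < s) : Continuous (fun p : V × ℝ => hm s w p.1 p.2) :=
  continuous_iff_continuousAt.2 fun p =>
    tendsto_hm hc h hs tendsto_const_nhds (continuous_fst.tendsto p) (continuous_snd.tendsto p)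

/-- pointwise localisation of almost maximisers: growth constant `C0` for `ε = 1/(8S)` -/
theorem max_loc {f : V → ℝ} {s S C : ℝ} (hs : 0 < s) (hsS : s ≤ S)
    (hf : ∀ y, |f y| ≤ 1 / (8 * S) * ‖y‖ ^ 2 + C) {x y : V}
    (h : f x ≤ f y - ‖x - y‖ ^ 2 / (2 * s)) :
    ‖x - y‖ ^ 2 ≤ s * (3 / (2 * S) * ‖x‖ ^ 2 + 8 * C) := by
  have h1 := le_abs_self (f y)
  have h2 := neg_abs_le (f x)
  have h3 := hf x
  have h4 := hf y
  have h5 : ‖y‖ ^ 2 ≤ 2 * ‖x - y‖ ^ 2 + 2 * ‖x‖ ^ 2 := by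
    have := norm_sub_sq_lower x y
    linarith
  have hS : 0 < S := lt_of_lt_of_le hs hsS
  have h6 : 1 / (8 * S) * ‖y‖ ^ 2 ≤ 1 / (8 * S) * (2 * ‖x - y‖ ^ 2 + 2 * ‖x‖ ^ 2) :=
    mul_le_mul_of_nonneg_left h5 (by positivity)
  have h7 : 1 / (8 * S) * (2 * ‖x - y‖ ^ 2) ≤ ‖x - y‖ ^ 2 / (4 * s) := by
    have : 1 / (8 * S) * (2 * ‖x - y‖ ^ 2) = ‖x - y‖ ^ 2 / (4 * S) := by field_simp; ring
    rw [this]
    exact div_le_div_of_nonneg_left (by positivity) (by positivity) (by linarith)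
  have h8 : ‖x - y‖ ^ 2 / (2 * s) = ‖x - y‖ ^ 2 / (4 * s) + ‖x - y‖ ^ 2 / (4 * s) := by
    field_simp; ring
  have h9 : ‖x - y‖ ^ 2 / (4 * s) ≤ 3 / (8 * S) * ‖x‖ ^ 2 + 2 * C := by
    have e : 3 / (8 * S) * ‖x‖ ^ 2 = 1 / (8 * S) * (2 * ‖x‖ ^ 2) + 1 / (8 * S) * ‖x‖ ^ 2 := by
      ring
    nlinarith
  rw [div_le_iff₀ (by positivity)] at h9
  calc _ ≤ _ := h9
    _ = _ := by field_simp; ring

/-- localisation of forward maximisers -/
theorem max_bound (h : Grow w) (R S : ℝ) (hS : 0 < S) : ∃ C, 0 ≤ C ∧ ∀ (x y : V) (t s : ℝ),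
    ‖x‖ ≤ R → |t| ≤ R → 0 < s → s ≤ S → T s w x t = w y (t + s) - ‖x - y‖ ^ 2 / (2 * s) →
      ‖x - y‖ ^ 2 ≤ C * s := by
  obtain ⟨C, hC⟩ := h (R + S) (1 / (8 * S)) (by positivity)
  refine ⟨|3 / (2 * S) * R ^ 2 + 8 * C|, abs_nonneg _, fun x y t s hx ht hs hsS hy => ?_⟩
  have h1 := self_le_T h hs x t
  rw [hy] at h1
  have hts : |t + s| ≤ R + S := by
    have := abs_add_le t s
    rw [abs_of_pos hs] at this
    linarith
  have h2 := max_loc (f := fun y => w y (t + s)) hs hsS (fun y => hC y _ hts) h1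
  have h3 : 3 / (2 * S) * ‖x‖ ^ 2 ≤ 3 / (2 * S) * R ^ 2 :=
    mul_le_mul_of_nonneg_left (pow_le_pow_left₀ (norm_nonneg _) hx 2) (by positivity)
  calc _ ≤ _ := h2
    _ ≤ s * (3 / (2 * S) * R ^ 2 + 8 * C) := by gcongr
    _ ≤ s * |3 / (2 * S) * R ^ 2 + 8 * C| := by gcongr; exact le_abs_self _
    _ = _ := by ring

/-- localisation of backward minimisers -/
theorem min_bound (h : Grow w) (R S : ℝ) (hS : 0 < S) : ∃ C, 0 ≤ C ∧ ∀ (x z : V) (t s : ℝ),
    ‖x‖ ≤ R → |t| ≤ R → 0 < s → s ≤ S → B s w x t = w z (t - s) + ‖x - z‖ ^ 2 / (2 * s) →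
      ‖x - z‖ ^ 2 ≤ C * s := by
  obtain ⟨C, hC0, hC⟩ := max_bound h.rev R S hS
  refine ⟨C, hC0, fun x z t s hx ht hs hsS hz => ?_⟩
  refine hC x z (-t) s hx (by simpa using ht) hs hsS ?_
  rw [B_eq_neg_T] at hz
  have e : rev w z (-t + s) = - w z (t - s) := by simp only [rev]; congr 2; ring
  rw [e]
  linarith

/-- forward maximisers converge to the base point as `s → 0` -/
theorem tendsto_max (h : Grow w) {α : Type*} {l : Filter α} {σ τ : α → ℝ} {ξ η : α → V}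
    {t : ℝ} {x : V} (hσ : Tendsto σ l (𝓝 0)) (hσ0 : ∀ᶠ j in l, 0 < σ j)
    (hξ : Tendsto ξ l (𝓝 x)) (hτ : Tendsto τ l (𝓝 t))
    (hη : ∀ᶠ j in l, T (σ j) w (ξ j) (τ j)
      = w (η j) (τ j + σ j) - ‖ξ j - η j‖ ^ 2 / (2 * σ j)) : Tendsto η l (𝓝 x) := by
  obtain ⟨C, hC0, hC⟩ := max_bound h (max (‖x‖ + 1) (|t| + 1)) 1 one_pos
  have h1 : ∀ᶠ j in l, ‖ξ j‖ ≤ ‖x‖ + 1 := by
    filter_upwards [hξ.norm.eventually (gt_mem_nhds (lt_add_one _))] with j hj using hj.le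
  have h2 : ∀ᶠ j in l, |τ j| ≤ |t| + 1 := by
    filter_upwards [hτ.abs.eventually (gt_mem_nhds (lt_add_one _))] with j hj using hj.le
  have h3 : ∀ᶠ j in l, σ j ≤ 1 := by
    filter_upwards [hσ.eventually (gt_mem_nhds one_pos)] with j hj using hj.le
  have h4 : ∀ᶠ j in l, ‖ξ j - η j‖ ^ 2 ≤ C * σ j := by
    filter_upwards [h1, h2, h3, hη, hσ0] with j a b c d e
    exact hC _ _ _ _ (a.trans (le_max_left _ _)) (b.trans (le_max_right _ _)) e c d
  have h5 : Tendsto (fun j => ‖ξ j - η j‖ ^ 2) l (𝓝 0) := by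
    refine tendsto_of_tendsto_of_tendsto_of_le_of_le' tendsto_const_nhds
      (by simpa using hσ.const_mul C) (Eventually.of_forall fun j => sq_nonneg _) h4
  have h6 : Tendsto (fun j => ‖ξ j - η j‖) l (𝓝 0) := by
    have := h5.sqrt
    simpa [Real.sqrt_sq (norm_nonneg _)] using this
  have h7 : Tendsto (fun j => ξ j - η j) l (𝓝 0) := tendsto_zero_iff_norm_tendsto_zero.2 h6
  have h8 := hξ.sub h7
  simpa using h8

/-- `T s w → w` as `s → 0`, locally uniformly -/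
theorem tendsto_T_zero [FiniteDimensional ℝ V] (hc : Continuous (fun p : V × ℝ => w p.1 p.2))
    (h : Grow w) {α : Type*} {l : Filter α} {σ τ : α → ℝ} {ξ : α → V} {t : ℝ} {x : V}
    (hσ : Tendsto σ l (𝓝 0)) (hσ0 : ∀ᶠ j in l, 0 < σ j)
    (hξ : Tendsto ξ l (𝓝 x)) (hτ : Tendsto τ l (𝓝 t)) :
    Tendsto (fun j => T (σ j) w (ξ j) (τ j)) l (𝓝 (w x t)) := by
  have hex : ∀ j, ∃ y, 0 < σ j →
      T (σ j) w (ξ j) (τ j) = w y (τ j + σ j) - ‖ξ j - y‖ ^ 2 / (2 * σ j) := by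
    intro j
    by_cases hj : 0 < σ j
    · obtain ⟨y, hy⟩ := exists_T hc h hj (ξ j) (τ j)
      exact ⟨y, fun _ => hy⟩
    · exact ⟨0, fun h => absurd h hj⟩
  choose η hη using hex
  have hη' := tendsto_max h hσ hσ0 hξ hτ (hσ0.mono fun j hj => hη j hj)
  have hts : Tendsto (fun j => τ j + σ j) l (𝓝 t) := by simpa using hτ.add hσ
  refine tendsto_of_tendsto_of_tendsto_of_le_of_le' (tendsto_w hc hξ hts) (tendsto_w hc hη' hts)
    (hσ0.mono fun j hj => self_le_T h hj _ _) (hσ0.mono fun j hj => ?_)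
  rw [hη j hj]
  have : 0 ≤ ‖ξ j - η j‖ ^ 2 / (2 * σ j) := by positivity
  linarith

theorem tendsto_B_zero [FiniteDimensional ℝ V] (hc : Continuous (fun p : V × ℝ => w p.1 p.2))
    (h : Grow w) {α : Type*} {l : Filter α} {σ τ : α → ℝ} {ξ : α → V} {t : ℝ} {x : V}
    (hσ : Tendsto σ l (𝓝 0)) (hσ0 : ∀ᶠ j in l, 0 < σ j)
    (hξ : Tendsto ξ l (𝓝 x)) (hτ : Tendsto τ l (𝓝 t)) :
    Tendsto (fun j => B (σ j) w (ξ j) (τ j)) l (𝓝 (w x t)) := by
  simp only [B_eq_neg_T]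
  have := (tendsto_T_zero (cont_rev hc) h.rev hσ hσ0 hξ hτ.neg).neg
  simpa [rev] using this

/-- backward minimisers converge to the base point as `s → 0` -/
theorem tendsto_min (h : Grow w) {α : Type*} {l : Filter α} {σ τ : α → ℝ} {ξ η : α → V}
    {t : ℝ} {x : V} (hσ : Tendsto σ l (𝓝 0)) (hσ0 : ∀ᶠ j in l, 0 < σ j)
    (hξ : Tendsto ξ l (𝓝 x)) (hτ : Tendsto τ l (𝓝 t))
    (hη : ∀ᶠ j in l, B (σ j) w (ξ j) (τ j)
      = w (η j) (τ j - σ j) + ‖ξ j - η j‖ ^ 2 / (2 * σ j)) : Tendsto η l (𝓝 x) := by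
  refine tendsto_max h.rev hσ hσ0 hξ hτ.neg (hη.mono fun j hj => ?_)
  rw [B_eq_neg_T] at hj
  have e : rev w (η j) (-τ j + σ j) = - w (η j) (τ j - σ j) := by
    simp only [rev]; congr 2; ring
  rw [e]
  linarith

end Crest.Agent.R094.Sol
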