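import Mathlib
import Crest.Agent.R094.SolCont

/-!
Row 94 (S0124), route 7921.  Slopes: `h⁺ = h⁻`, increasing slope, convexity (helper452).
-/

set_option autoImplicit false
set_option linter.unusedSectionVars false

namespace Crest.Agent.R094.Sol

open Metric Set Filter Topology
open scoped InnerProductSpace

variable {V : Type*} [NormedAddCommGroup V] [InnerProductSpace ℝ V]
variable {w : V → ℝ → ℝ}

/-- `h⁺ ≥ c ⇒ h⁻ ≥ c` -/
theorem le_hm_of_le_hp [FiniteDimensional ℝ V] (hw : IsSol w) {x : V} {t c : ℝ}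
    (h : ∀ r, 0 < r → c ≤ hp r w x t) {r : ℝ} (hr : 0 < r) : c ≤ hm r w x t := by
  have hex : ∀ n : ℕ, ∃ y, T (1 / ((n : ℝ) + 1)) w x t
      = w y (t + 1 / ((n : ℝ) + 1)) - ‖x - y‖ ^ 2 / (2 * (1 / ((n : ℝ) + 1))) :=
    fun n => exists_T hw.cont hw.grow Nat.one_div_pos_of_nat x t
  choose η hη using hex
  have hσ : Tendsto (fun n : ℕ => 1 / ((n : ℝ) + 1)) atTop (𝓝 0) :=
    tendsto_one_div_add_atTop_nhds_zero_nat
  have h1 : Tendsto η atTop (𝓝 x) :=
    tendsto_max hw.grow (ξ := fun _ => x) (τ := fun _ => t) hσ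
      (Eventually.of_forall fun n => Nat.one_div_pos_of_nat)
      tendsto_const_nhds tendsto_const_nhds (Eventually.of_forall hη)
  have h2 : Tendsto (fun n : ℕ => hm r w (η n) (t + 1 / ((n : ℝ) + 1))) atTop
      (𝓝 (hm r w x t)) :=
    tendsto_hm hw.cont hw.grow hr tendsto_const_nhds h1 (by simpa using hσ.const_add t)
  refine ge_of_tendsto' h2 fun n => ?_
  exact (h _ Nat.one_div_pos_of_nat).trans
    (hm_ge_of_max hw.grow hw.sub hw.sup Nat.one_div_pos_of_nat (hη n) hr)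

/-- `h⁻ ≥ c ⇒ h⁺ ≥ c` -/
theorem le_hp_of_le_hm [FiniteDimensional ℝ V] (hw : IsSol w) {x : V} {t c : ℝ}
    (h : ∀ r, 0 < r → c ≤ hm r w x t) {r : ℝ} (hr : 0 < r) : c ≤ hp r w x t := by
  have h1 : ∀ r, 0 < r → c ≤ hp r (rev w) x (-t) := fun r hr => by
    rw [← hm_eq_hp_rev]; exact h r hr
  have h2 := le_hm_of_le_hp hw.rev h1 hr
  rwa [← hp_eq_hm_rev] at h2

/-- `h⁺ = h⁻` in the form of infima -/
theorem le_hp_iff_le_hm [FiniteDimensional ℝ V] (hw : IsSol w) {x : V} {t c : ℝ} :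
    (∀ r, 0 < r → c ≤ hp r w x t) ↔ (∀ r, 0 < r → c ≤ hm r w x t) :=
  ⟨fun h _ hr => le_hm_of_le_hp hw h hr, fun h _ hr => le_hp_of_le_hm hw h hr⟩

/-- increasing slope, forward form, at a forward maximiser -/
theorem hp_ge_of_max [FiniteDimensional ℝ V] (hw : IsSol w) {s : ℝ} (hs : 0 < s) {x y : V}
    {t : ℝ} (hy : T s w x t = w y (t + s) - ‖x - y‖ ^ 2 / (2 * s)) {r : ℝ} (hr : 0 < r) :
    hp s w x t ≤ hp r w y (t + s) :=
  le_hp_of_le_hm hw (fun _ hr => hm_ge_of_max hw.grow hw.sub hw.sup hs hy hr) hr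

/-- increasing slope at a backward minimiser, forward slope -/
theorem hp_ge_of_min (hG : Grow w) (hsub : IsSub w) (hsup : IsSup w) {s : ℝ} (hs : 0 < s)
    {x z : V} {t : ℝ} (hz : B s w x t = w z (t - s) + ‖x - z‖ ^ 2 / (2 * s)) {r : ℝ}
    (hr : 0 < r) : hm s w x t ≤ hp r w z (t - s) := by
  have hz' : T s (rev w) x (-t) = rev w z (-t + s) - ‖x - z‖ ^ 2 / (2 * s) := by
    rw [B_eq_neg_T] at hz
    have e : rev w z (-t + s) = - w z (t - s) := by simp only [rev]; congr 2; ring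
    rw [e]
    linarith
  have := hm_ge_of_max hG.rev hsup.rev hsub.rev hs hz' hr
  rw [← hm_eq_hp_rev, hm_eq_hp_rev r (rev w), rev_rev] at this
  have e : -(-t + s) = t - s := by ring
  rwa [e] at this

/-- increasing slope at a backward minimiser, backward slope -/
theorem hm_ge_of_min [FiniteDimensional ℝ V] (hw : IsSol w) {s : ℝ} (hs : 0 < s)
    {x z : V} {t : ℝ} (hz : B s w x t = w z (t - s) + ‖x - z‖ ^ 2 / (2 * s)) {r : ℝ}
    (hr : 0 < r) : hm s w x t ≤ hm r w z (t - s) :=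
  le_hm_of_le_hp hw (fun _ hr => hp_ge_of_min hw.grow hw.sub hw.sup hs hz hr) hr

/-- convexity of `s ↦ T_s w` : three point form -/
theorem IsSub.T_convex (hG : Grow w) (h : IsSub w)
    {s σ σ' : ℝ} (hs : 0 < s) (hσ : 0 < σ) (hσσ : σ ≤ σ') (x : V) (t : ℝ) :
    T (s + σ) w x t ≤ (1 - σ / σ') * T s w x t + σ / σ' * T (s + σ') w x t := by
  have hσ' : 0 < σ' := lt_of_lt_of_le hσ hσσ
  rw [← T_T hG hs hσ]
  apply T_le
  intro y
  have h1 := h y (t + s) σ σ' hσ hσσ
  have h2 := le_T hG hs x y t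
  have h3 := T_T_le hG hs hσ' x y t
  have e0 : 0 ≤ σ / σ' := by positivity
  have e1 : 0 ≤ 1 - σ / σ' := by
    rw [sub_nonneg, div_le_one hσ']; exact hσσ
  have h4 := mul_le_mul_of_nonneg_left h2 e1
  have h5 := mul_le_mul_of_nonneg_left h3 e0
  nlinarith

/-- convexity of `s ↦ T_s w (x,t)` on `(0,∞)` -/
theorem IsSub.convexOn_T (hG : Grow w) (h : IsSub w) (x : V) (t : ℝ) :
    ConvexOn ℝ (Ioi (0 : ℝ)) (fun s => T s w x t) := by
  apply convexOn_of_slope_mono_adjacent (convex_Ioi _)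
  intro a b c ha hc hab hbc
  have ha : 0 < a := ha
  have key := h.T_convex hG ha (sub_pos.2 hab)
    (by linarith : b - a ≤ c - a) x t
  rw [add_sub_cancel, add_sub_cancel] at key
  have hac : 0 < c - a := by linarith
  have hab' : 0 < b - a := by linarith
  have hbc' : 0 < c - b := by linarith
  rw [div_le_div_iff₀ hab' hbc']
  have e : (1 - (b - a) / (c - a)) * T a w x t + (b - a) / (c - a) * T c w x t
      = ((c - b) * T a w x t + (b - a) * T c w x t) / (c - a) := by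
    field_simp; ring
  rw [e, le_div_iff₀ hac] at key
  nlinarith

/-- concavity of `s ↦ B_s w (x,t)` on `(0,∞)` -/
theorem IsSup.concaveOn_B (hG : Grow w) (h : IsSup w) (x : V) (t : ℝ) :
    ConcaveOn ℝ (Ioi (0 : ℝ)) (fun s => B s w x t) := by
  have := (h.rev.convexOn_T hG.rev x (-t)).neg
  refine this.congr fun s _ => ?_
  simp only [Pi.neg_apply]
  rw [B_eq_neg_T]

end Crest.Agent.R094.Sol
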