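import Mathlib
import Crest.Agent.R094.SolSlope

/-!
Row 94 (S0124), route 7921.  Covariance of `T`, `B` under translation, boost, scaling and
addition of `c + b t` (helper452).
-/

set_option autoImplicit false
set_option linter.unusedSectionVars false

namespace Crest.Agent.R094.Sol

open Metric Set Filter Topology
open scoped InnerProductSpace

variable {V : Type*} [NormedAddCommGroup V] [InnerProductSpace ℝ V]
variable {w : V → ℝ → ℝ}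

/-- translated, boosted, rescaled function -/
noncomputable def cov (w : V → ℝ → ℝ) (x0 : V) (t0 : ℝ) (p : V) (σ τ η c0 b : ℝ) (x : V)
    (t : ℝ) : ℝ :=
  (w (x0 + σ • x + (τ * t) • p) (t0 + τ * t) - c0 - σ * ⟪p, x⟫_ℝ - b * t) / η

theorem cov_key (w : V → ℝ → ℝ) (x0 : V) (t0 : ℝ) (p : V) {σ τ η : ℝ} (c0 b : ℝ) (hτ : 0 < τ)
    (hη : 0 < η) (hσ : σ ^ 2 = η * τ) (x y : V) (t : ℝ) {s : ℝ} (hs : 0 < s) :
    cov w x0 t0 p σ τ η c0 b y (t + s) - ‖x - y‖ ^ 2 / (2 * s)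
      = (w (x0 + σ • y + (τ * (t + s)) • p) (t0 + τ * t + τ * s)
          - ‖(x0 + σ • x + (τ * t) • p) - (x0 + σ • y + (τ * (t + s)) • p)‖ ^ 2 / (2 * (τ * s))
          - c0 - σ * ⟪p, x⟫_ℝ - b * (t + s) + τ * s * (‖p‖ ^ 2 / 2)) / η := by
  unfold cov
  have e1 : (x0 + σ • x + (τ * t) • p) - (x0 + σ • y + (τ * (t + s)) • p)
      = σ • (x - y) - (τ * s) • p := by
    rw [mul_add, add_smul, smul_sub]; abel
  have e2 : t0 + τ * t + τ * s = t0 + τ * (t + s) := by ring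
  have e3 : ‖σ • (x - y) - (τ * s) • p‖ ^ 2
      = σ ^ 2 * ‖x - y‖ ^ 2 - 2 * (σ * (τ * s) * (⟪p, x⟫_ℝ - ⟪p, y⟫_ℝ))
        + (τ * s) ^ 2 * ‖p‖ ^ 2 := by
    rw [norm_sub_sq_real, norm_smul, norm_smul, inner_smul_left, inner_smul_right,
      Real.norm_eq_abs, Real.norm_eq_abs, mul_pow, mul_pow, sq_abs, sq_abs, real_inner_comm,
      inner_sub_right]
    simp only [conj_trivial]
    ring
  rw [e1, e2, e3, hσ]
  field_simp
  ring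

theorem cov_surj (x0 p : V) {σ : ℝ} (hσ : σ ≠ 0) (a : ℝ) (Y : V) :
    ∃ y : V, x0 + σ • y + a • p = Y :=
  ⟨σ⁻¹ • (Y - x0 - a • p), by rw [smul_inv_smul₀ hσ]; abel⟩

theorem Grow.cov (h : Grow w) (x0 : V) (t0 : ℝ) (p : V) {σ τ η : ℝ} (c0 b : ℝ) (hη : 0 < η) :
    Grow (cov w x0 t0 p σ τ η c0 b) := by
  intro R ε hε
  -- total budget `η ε`
  set ε' : ℝ := η * ε / (4 * (σ ^ 2 + 1)) with hε'
  have hε'0 : 0 < ε' := by positivity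
  obtain ⟨C, hC⟩ := h (|t0| + |τ| * |R|) ε' hε'0
  -- linear term
  set K : ℝ := |C| + ε' * (2 * (‖x0‖ + |τ| * |R| * ‖p‖) ^ 2) + |c0| + |b| * |R|
    + (σ * ‖p‖) ^ 2 / (2 * (η * ε)) with hK
  refine ⟨K / η, fun y t ht => ?_⟩
  have htR : |t| ≤ |R| := ht.trans (le_abs_self R)
  unfold Sol.cov
  rw [abs_div, abs_of_pos hη, div_le_iff₀ hη]
  have h1 := hC (x0 + σ • y + (τ * t) • p) (t0 + τ * t) (by
    calc |t0 + τ * t| ≤ |t0| + |τ * t| := abs_add_le _ _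
      _ = |t0| + |τ| * |t| := by rw [abs_mul]
      _ ≤ _ := by gcongr)
  have h2 : ‖x0 + σ • y + (τ * t) • p‖ ≤ |σ| * ‖y‖ + (‖x0‖ + |τ| * |R| * ‖p‖) := by
    calc ‖x0 + σ • y + (τ * t) • p‖ ≤ ‖x0 + σ • y‖ + ‖(τ * t) • p‖ := norm_add_le _ _
      _ ≤ ‖x0‖ + ‖σ • y‖ + ‖(τ * t) • p‖ := by gcongr; exact norm_add_le _ _
      _ = ‖x0‖ + |σ| * ‖y‖ + |τ| * |t| * ‖p‖ := by
          rw [norm_smul, norm_smul, Real.norm_eq_abs, Real.norm_eq_abs, abs_mul]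
      _ ≤ ‖x0‖ + |σ| * ‖y‖ + |τ| * |R| * ‖p‖ := by gcongr
      _ = _ := by ring
  have h3 : ‖x0 + σ • y + (τ * t) • p‖ ^ 2
      ≤ 2 * (σ ^ 2 * ‖y‖ ^ 2) + 2 * (‖x0‖ + |τ| * |R| * ‖p‖) ^ 2 := by
    have h30 : 0 ≤ ‖x0‖ + |τ| * |R| * ‖p‖ := by positivity
    have h31 := pow_le_pow_left₀ (norm_nonneg _) h2 2
    have h32 : (|σ| * ‖y‖) ^ 2 = σ ^ 2 * ‖y‖ ^ 2 := by rw [mul_pow, sq_abs]
    nlinarith [sq_nonneg (|σ| * ‖y‖ - (‖x0‖ + |τ| * |R| * ‖p‖))]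
  have h4 : |σ * ⟪p, y⟫_ℝ| ≤ η * ε / 2 * ‖y‖ ^ 2 + (σ * ‖p‖) ^ 2 / (2 * (η * ε)) := by
    rw [abs_mul]
    have h41 : |⟪p, y⟫_ℝ| ≤ ‖p‖ * ‖y‖ := abs_real_inner_le_norm p y
    have h42 : |σ| * |⟪p, y⟫_ℝ| ≤ |σ| * (‖p‖ * ‖y‖) := by gcongr
    have h43 : 0 ≤ (η * ε * ‖y‖ - |σ| * ‖p‖) ^ 2 / (2 * (η * ε)) := by positivity
    have h44 : (η * ε * ‖y‖ - |σ| * ‖p‖) ^ 2 / (2 * (η * ε))
        = η * ε / 2 * ‖y‖ ^ 2 - |σ| * (‖p‖ * ‖y‖) + (|σ| * ‖p‖) ^ 2 / (2 * (η * ε)) := by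
      field_simp; ring
    have h45 : (|σ| * ‖p‖) ^ 2 = (σ * ‖p‖) ^ 2 := by rw [mul_pow, mul_pow, sq_abs]
    rw [h44, h45] at h43
    linarith
  have h5 : |b * t| ≤ |b| * |R| := by rw [abs_mul]; gcongr
  have h6 : |w (x0 + σ • y + (τ * t) • p) (t0 + τ * t) - c0 - σ * ⟪p, y⟫_ℝ - b * t|
      ≤ |w (x0 + σ • y + (τ * t) • p) (t0 + τ * t)| + |c0| + |σ * ⟪p, y⟫_ℝ| + |b * t| := by
    have a1 := abs_sub (w (x0 + σ • y + (τ * t) • p) (t0 + τ * t) - c0 - σ * ⟪p, y⟫_ℝ) (b * t)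
    have a2 := abs_sub (w (x0 + σ • y + (τ * t) • p) (t0 + τ * t) - c0) (σ * ⟪p, y⟫_ℝ)
    have a3 := abs_sub (w (x0 + σ • y + (τ * t) • p) (t0 + τ * t)) c0
    linarith
  have h7 : ε' * (2 * (σ ^ 2 * ‖y‖ ^ 2)) ≤ η * ε / 2 * ‖y‖ ^ 2 := by
    rw [hε']
    have : η * ε / (4 * (σ ^ 2 + 1)) * (2 * (σ ^ 2 * ‖y‖ ^ 2))
        = η * ε / 2 * ‖y‖ ^ 2 * (σ ^ 2 / (σ ^ 2 + 1)) := by field_simp; ring
    rw [this]
    have h71 : σ ^ 2 / (σ ^ 2 + 1) ≤ 1 := by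
      rw [div_le_one (by positivity)]; linarith
    exact mul_le_of_le_one_right (by positivity) h71
  have h8 : ε' * ‖x0 + σ • y + (τ * t) • p‖ ^ 2
      ≤ ε' * (2 * (σ ^ 2 * ‖y‖ ^ 2)) + ε' * (2 * (‖x0‖ + |τ| * |R| * ‖p‖) ^ 2) := by
    rw [← mul_add]
    exact mul_le_mul_of_nonneg_left h3 hε'0.le
  have h9 : K / η * η = K := by field_simp
  rw [add_mul, h9, hK]
  have h10 := le_abs_self C
  nlinarith

theorem T_cov (h : Grow w) (x0 : V) (t0 : ℝ) (p : V) {σ τ η : ℝ} (c0 b : ℝ) (hτ : 0 < τ)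
    (hη : 0 < η) (hσ : σ ^ 2 = η * τ) (x : V) (t : ℝ) {s : ℝ} (hs : 0 < s) :
    T s (cov w x0 t0 p σ τ η c0 b) x t
      = (T (τ * s) w (x0 + σ • x + (τ * t) • p) (t0 + τ * t)
          - c0 - σ * ⟪p, x⟫_ℝ - b * (t + s) + τ * s * (‖p‖ ^ 2 / 2)) / η := by
  have hσ0 : σ ≠ 0 := by
    rintro rfl
    have : 0 < η * τ := mul_pos hη hτ
    rw [← hσ] at this
    simp at this
  have hτs : 0 < τ * s := mul_pos hτ hs
  apply le_antisymm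
  · apply T_le
    intro y
    rw [cov_key w x0 t0 p c0 b hτ hη hσ x y t hs]
    apply div_le_div_of_nonneg_right _ hη.le
    have := le_T h hτs (x0 + σ • x + (τ * t) • p) (x0 + σ • y + (τ * (t + s)) • p) (t0 + τ * t)
    linarith
  · rw [div_le_iff₀ hη]
    have : T (τ * s) w (x0 + σ • x + (τ * t) • p) (t0 + τ * t)
        ≤ T s (cov w x0 t0 p σ τ η c0 b) x t * η
          + (c0 + σ * ⟪p, x⟫_ℝ + b * (t + s) - τ * s * (‖p‖ ^ 2 / 2)) := by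
      apply T_le
      intro Y
      obtain ⟨y, rfl⟩ := cov_surj x0 p hσ0 (τ * (t + s)) Y
      have h1 := le_T (h.cov x0 t0 p c0 b hη (σ := σ) (τ := τ)) hs x y t
      rw [cov_key w x0 t0 p c0 b hτ hη hσ x y t hs, div_le_iff₀ hη] at h1
      linarith
    linarith

theorem rev_cov (w : V → ℝ → ℝ) (x0 : V) (t0 : ℝ) (p : V) (σ τ η c0 b : ℝ) :
    rev (cov w x0 t0 p σ τ η c0 b) = cov (rev w) x0 (-t0) (-p) σ τ η (-c0) b := by
  funext x t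
  simp only [rev, cov]
  rw [inner_neg_left]
  have e1 : (τ * -t) • p = (τ * t) • (-p) := by
    rw [mul_neg, neg_smul, smul_neg]
  have e2 : -(-t0 + τ * t) = t0 + τ * -t := by ring
  rw [e1, e2]
  ring

theorem B_cov (h : Grow w) (x0 : V) (t0 : ℝ) (p : V) {σ τ η : ℝ} (c0 b : ℝ) (hτ : 0 < τ)
    (hη : 0 < η) (hσ : σ ^ 2 = η * τ) (x : V) (t : ℝ) {s : ℝ} (hs : 0 < s) :
    B s (cov w x0 t0 p σ τ η c0 b) x t
      = (B (τ * s) w (x0 + σ • x + (τ * t) • p) (t0 + τ * t)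
          - c0 - σ * ⟪p, x⟫_ℝ - b * (t - s) - τ * s * (‖p‖ ^ 2 / 2)) / η := by
  rw [B_eq_neg_T, rev_cov, T_cov h.rev x0 (-t0) (-p) (-c0) b hτ hη hσ x (-t) hs, B_eq_neg_T]
  have e1 : (τ * -t) • (-p) = (τ * t) • p := by
    rw [mul_neg, neg_smul, smul_neg, neg_neg]
  have e2 : -(t0 + τ * t) = -t0 + τ * -t := by ring
  rw [e1, e2, inner_neg_left, norm_neg]
  ring

theorem hp_cov (h : Grow w) (x0 : V) (t0 : ℝ) (p : V) {σ τ η : ℝ} (c0 b : ℝ) (hτ : 0 < τ)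
    (hη : 0 < η) (hσ : σ ^ 2 = η * τ) (x : V) (t : ℝ) {s : ℝ} (hs : 0 < s) :
    hp s (cov w x0 t0 p σ τ η c0 b) x t
      = (τ * hp (τ * s) w (x0 + σ • x + (τ * t) • p) (t0 + τ * t) + τ * (‖p‖ ^ 2 / 2) - b) / η := by
  unfold hp
  rw [T_cov h x0 t0 p c0 b hτ hη hσ x t hs]
  unfold cov
  field_simp
  ring

theorem hm_cov (h : Grow w) (x0 : V) (t0 : ℝ) (p : V) {σ τ η : ℝ} (c0 b : ℝ) (hτ : 0 < τ)
    (hη : 0 < η) (hσ : σ ^ 2 = η * τ) (x : V) (t : ℝ) {s : ℝ} (hs : 0 < s) :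
    hm s (cov w x0 t0 p σ τ η c0 b) x t
      = (τ * hm (τ * s) w (x0 + σ • x + (τ * t) • p) (t0 + τ * t) + τ * (‖p‖ ^ 2 / 2) - b) / η := by
  unfold hm
  rw [B_cov h x0 t0 p c0 b hτ hη hσ x t hs]
  unfold cov
  field_simp
  ring

theorem IsSub.cov (h : Grow w) (hs : IsSub w) (x0 : V) (t0 : ℝ) (p : V) {σ τ η : ℝ}
    (c0 b : ℝ) (hτ : 0 < τ) (hη : 0 < η) (hσ : σ ^ 2 = η * τ) :
    IsSub (cov w x0 t0 p σ τ η c0 b) := by
  intro x t s s' hs0 hss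
  have hs' : 0 < s' := lt_of_lt_of_le hs0 hss
  rw [T_cov h x0 t0 p c0 b hτ hη hσ x t hs0, T_cov h x0 t0 p c0 b hτ hη hσ x t hs']
  have h1 := hs (x0 + σ • x + (τ * t) • p) (t0 + τ * t) (τ * s) (τ * s') (mul_pos hτ hs0)
    (mul_le_mul_of_nonneg_left hss hτ.le)
  have e1 : τ * s / (τ * s') = s / s' := by field_simp
  rw [e1] at h1
  unfold Sol.cov
  rw [← sub_nonneg]
  have e2 : (1 - s / s') * ((w (x0 + σ • x + (τ * t) • p) (t0 + τ * t) - c0 - σ * ⟪p, x⟫_ℝ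
        - b * t) / η)
      + s / s' * ((T (τ * s') w (x0 + σ • x + (τ * t) • p) (t0 + τ * t)
          - c0 - σ * ⟪p, x⟫_ℝ - b * (t + s') + τ * s' * (‖p‖ ^ 2 / 2)) / η)
      - (T (τ * s) w (x0 + σ • x + (τ * t) • p) (t0 + τ * t)
          - c0 - σ * ⟪p, x⟫_ℝ - b * (t + s) + τ * s * (‖p‖ ^ 2 / 2)) / η
      = ((1 - s / s') * w (x0 + σ • x + (τ * t) • p) (t0 + τ * t)
        + s / s' * T (τ * s') w (x0 + σ • x + (τ * t) • p) (t0 + τ * t)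
        - T (τ * s) w (x0 + σ • x + (τ * t) • p) (t0 + τ * t)) / η := by
    field_simp
    ring
  rw [e2]
  exact div_nonneg (by linarith) hη.le

theorem IsSup.cov (h : Grow w) (hs : IsSup w) (x0 : V) (t0 : ℝ) (p : V) {σ τ η : ℝ}
    (c0 b : ℝ) (hτ : 0 < τ) (hη : 0 < η) (hσ : σ ^ 2 = η * τ) :
    IsSup (cov w x0 t0 p σ τ η c0 b) := by
  have h1 := (hs.rev.cov h.rev x0 (-t0) (-p) (-c0) b hτ hη hσ)
  rw [← rev_cov] at h1
  have h2 := h1.rev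
  rwa [rev_rev] at h2

theorem IsSol.cov (hw : IsSol w) (x0 : V) (t0 : ℝ) (p : V) {σ τ η : ℝ}
    (c0 b : ℝ) (hτ : 0 < τ) (hη : 0 < η) (hσ : σ ^ 2 = η * τ) :
    IsSol (cov w x0 t0 p σ τ η c0 b) where
  cont := by
    have h1 : Continuous fun q : V × ℝ => (x0 + σ • q.1 + (τ * q.2) • p, t0 + τ * q.2) := by
      fun_prop
    have h2 := hw.cont.comp h1
    unfold Sol.cov
    have h3 : Continuous fun q : V × ℝ => ⟪p, q.1⟫_ℝ := continuous_const.inner continuous_fst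
    exact (((h2.sub continuous_const).sub (h3.const_mul σ |> fun h => h)).sub
      (continuous_snd.const_mul b |> fun h => h)).div_const η
  grow := hw.grow.cov x0 t0 p c0 b hη
  sub := hw.sub.cov hw.grow x0 t0 p c0 b hτ hη hσ
  sup := hw.sup.cov hw.grow x0 t0 p c0 b hτ hη hσ

/-- adding a constant and a multiple of `t` -/
theorem IsSol.add_affine (hw : IsSol w) (a γ : ℝ) : IsSol (fun x t => w x t + a + γ * t) := by
  have h := hw.cov (0 : V) 0 (0 : V) (σ := 1) (τ := 1) (η := 1) (-a) (-γ) one_pos one_pos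
    (by norm_num)
  have e : Sol.cov w (0 : V) 0 (0 : V) 1 1 1 (-a) (-γ) = fun x t => w x t + a + γ * t := by
    funext x t
    simp [Sol.cov]
  rwa [e] at h

theorem T_add_affine (h : Grow w) (a γ : ℝ) (x : V) (t : ℝ) {s : ℝ} (hs : 0 < s) :
    T s (fun x t => w x t + a + γ * t) x t = T s w x t + a + γ * (t + s) := by
  have h := T_cov h (0 : V) 0 (0 : V) (σ := 1) (τ := 1) (η := 1) (-a) (-γ) one_pos one_pos
    (by norm_num) x t hs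
  have e : cov w (0 : V) 0 (0 : V) 1 1 1 (-a) (-γ) = fun x t => w x t + a + γ * t := by
    funext x t
    simp [Sol.cov]
  rw [e] at h
  rw [h]
  simp

theorem B_add_affine (h : Grow w) (a γ : ℝ) (x : V) (t : ℝ) {s : ℝ} (hs : 0 < s) :
    B s (fun x t => w x t + a + γ * t) x t = B s w x t + a + γ * (t - s) := by
  have h := B_cov h (0 : V) 0 (0 : V) (σ := 1) (τ := 1) (η := 1) (-a) (-γ) one_pos one_pos
    (by norm_num) x t hs
  have e : cov w (0 : V) 0 (0 : V) 1 1 1 (-a) (-γ) = fun x t => w x t + a + γ * t := by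
    funext x t
    simp [Sol.cov]
  rw [e] at h
  rw [h]
  simp

theorem hp_add_affine (h : Grow w) (a γ : ℝ) (x : V) (t : ℝ) {s : ℝ} (hs : 0 < s) :
    hp s (fun x t => w x t + a + γ * t) x t = hp s w x t + γ := by
  unfold hp
  rw [T_add_affine h a γ x t hs]
  field_simp
  ring

theorem hm_add_affine (h : Grow w) (a γ : ℝ) (x : V) (t : ℝ) {s : ℝ} (hs : 0 < s) :
    hm s (fun x t => w x t + a + γ * t) x t = hm s w x t + γ := by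
  unfold hm
  rw [B_add_affine h a γ x t hs]
  field_simp
  ring

end Crest.Agent.R094.Sol
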