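import Mathlib
import Crest.Agent.R094.Iface
import Crest.Agent.R094.SolCov

/-!
Row 94 (S0124), route 7921.  `ClsRev_stmt`, `ClsNrmz_stmt` and the covariance of `T`, `B`, `hp`,
`hm` under `nrmz` (helper452).
-/

set_option autoImplicit false
set_option linter.unusedSectionVars false

namespace Crest.Agent.R094.GK

open Sol Metric Set Filter Topology

variable {V : Type*} [NormedAddCommGroup V] [InnerProductSpace ℝ V]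
variable {w : V → ℝ → ℝ}

theorem nrmz_eq_cov (w : V → ℝ → ℝ) (x₀ : V) (t₀ τ : ℝ) (p : V) (b : ℝ) :
    nrmz w x₀ t₀ τ p b = cov w x₀ t₀ p τ τ τ (w x₀ t₀) (τ * b) := by
  funext x t
  unfold nrmz cov
  have e : x₀ + τ • (x + t • p) = x₀ + τ • x + (τ * t) • p := by
    rw [smul_add, smul_smul, add_assoc]
  rw [e]

theorem isSol_nrmz (hw : IsSol w) (x₀ : V) (t₀ : ℝ) {τ : ℝ} (hτ : 0 < τ) (p : V) (b : ℝ) :
    IsSol (nrmz w x₀ t₀ τ p b) := by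
  rw [nrmz_eq_cov]
  exact hw.cov x₀ t₀ p (w x₀ t₀) (τ * b) hτ hτ (by ring)

theorem T_nrmz (hG : Grow w) (x₀ : V) (t₀ : ℝ) {τ : ℝ} (hτ : 0 < τ) (p : V) (b : ℝ) (x : V)
    (t : ℝ) {s : ℝ} (hs : 0 < s) :
    T s (nrmz w x₀ t₀ τ p b) x t = (T (τ * s) w (x₀ + τ • (x + t • p)) (t₀ + τ * t)
      - w x₀ t₀ - τ * inner ℝ p x - τ * b * (t + s) + τ * s * (‖p‖ ^ 2 / 2)) / τ := by
  rw [nrmz_eq_cov, T_cov hG x₀ t₀ p (w x₀ t₀) (τ * b) hτ hτ (by ring) x t hs]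
  have e : x₀ + τ • (x + t • p) = x₀ + τ • x + (τ * t) • p := by
    rw [smul_add, smul_smul, add_assoc]
  rw [e]

theorem B_nrmz (hG : Grow w) (x₀ : V) (t₀ : ℝ) {τ : ℝ} (hτ : 0 < τ) (p : V) (b : ℝ) (x : V)
    (t : ℝ) {s : ℝ} (hs : 0 < s) :
    B s (nrmz w x₀ t₀ τ p b) x t = (B (τ * s) w (x₀ + τ • (x + t • p)) (t₀ + τ * t)
      - w x₀ t₀ - τ * inner ℝ p x - τ * b * (t - s) - τ * s * (‖p‖ ^ 2 / 2)) / τ := by
  rw [nrmz_eq_cov, B_cov hG x₀ t₀ p (w x₀ t₀) (τ * b) hτ hτ (by ring) x t hs]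
  have e : x₀ + τ • (x + t • p) = x₀ + τ • x + (τ * t) • p := by
    rw [smul_add, smul_smul, add_assoc]
  rw [e]

theorem hp_nrmz (hG : Grow w) (x₀ : V) (t₀ : ℝ) {τ : ℝ} (hτ : 0 < τ) (p : V) (b : ℝ) (x : V)
    (t : ℝ) {s : ℝ} (hs : 0 < s) :
    hp s (nrmz w x₀ t₀ τ p b) x t
      = hp (τ * s) w (x₀ + τ • (x + t • p)) (t₀ + τ * t) + ‖p‖ ^ 2 / 2 - b := by
  rw [nrmz_eq_cov, hp_cov hG x₀ t₀ p (w x₀ t₀) (τ * b) hτ hτ (by ring) x t hs]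
  have e : x₀ + τ • (x + t • p) = x₀ + τ • x + (τ * t) • p := by
    rw [smul_add, smul_smul, add_assoc]
  rw [e]
  field_simp

theorem hm_nrmz (hG : Grow w) (x₀ : V) (t₀ : ℝ) {τ : ℝ} (hτ : 0 < τ) (p : V) (b : ℝ) (x : V)
    (t : ℝ) {s : ℝ} (hs : 0 < s) :
    hm s (nrmz w x₀ t₀ τ p b) x t
      = hm (τ * s) w (x₀ + τ • (x + t • p)) (t₀ + τ * t) + ‖p‖ ^ 2 / 2 - b := by
  rw [nrmz_eq_cov, hm_cov hG x₀ t₀ p (w x₀ t₀) (τ * b) hτ hτ (by ring) x t hs]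
  have e : x₀ + τ • (x + t • p) = x₀ + τ • x + (τ * t) • p := by
    rw [smul_add, smul_smul, add_assoc]
  rw [e]
  field_simp

theorem FD.rev {K : ℝ} {x₀ : V} {t₀ τ : ℝ} {p : V} {b : ℝ} (h : FD K w x₀ (-t₀) τ p b) :
    FD K (rev w) x₀ t₀ τ (-p) b := by
  intro x t
  have h1 := h x (-t)
  simp only [Sol.rev]
  have e1 : x₀ + t • (-p) + x = x₀ + (-t) • p + x := by rw [smul_neg, neg_smul]
  have e2 : -(t₀ + t) = -t₀ + -t := by ring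
  rw [e1, e2, inner_neg_left]
  rw [abs_neg] at h1
  rw [← abs_neg]
  convert h1 using 2
  ring

theorem Flat.rev {K : ℝ} (h : Flat K w) : Flat K (rev w) := by
  intro x₀ t₀ τ hτ
  obtain ⟨p, b, hpb⟩ := h x₀ (-t₀) τ hτ
  exact ⟨-p, b, hpb.rev⟩

theorem FD.nrmz {K : ℝ} {x₀ : V} {t₀ τ : ℝ} {p : V} {b : ℝ} (hτ : 0 < τ) {y₀ : V} {s₀ ρ : ℝ}
    {P : V} {β : ℝ} (hρ : 0 < ρ)
    (h : FD K w (x₀ + τ • (y₀ + s₀ • p)) (t₀ + τ * s₀) (τ * ρ) P β) :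
    FD K (GK.nrmz w x₀ t₀ τ p b) y₀ s₀ ρ (P - p) (β - b - inner ℝ p (P - p)) := by
  intro x t
  have h1 := h (τ • x) (τ * t)
  unfold GK.nrmz
  have e1 : x₀ + τ • (y₀ + t • (P - p) + x + (s₀ + t) • p)
      = x₀ + τ • (y₀ + s₀ • p) + (τ * t) • P + τ • x := by
    rw [← smul_smul]
    simp only [smul_add, smul_sub, add_smul]
    abel
  have e2 : t₀ + τ * (s₀ + t) = t₀ + τ * s₀ + τ * t := by ring
  rw [e1, e2]
  have e3 : (w (x₀ + τ • (y₀ + s₀ • p) + (τ * t) • P + τ • x) (t₀ + τ * s₀ + τ * t) - w x₀ t₀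
        - τ * inner ℝ p (y₀ + t • (P - p) + x) - τ * b * (s₀ + t)) / τ
      - (w (x₀ + τ • (y₀ + s₀ • p)) (t₀ + τ * s₀) - w x₀ t₀ - τ * inner ℝ p y₀
        - τ * b * s₀) / τ
      - inner ℝ (P - p) x - (β - b - inner ℝ p (P - p)) * t
      = (w (x₀ + τ • (y₀ + s₀ • p) + (τ * t) • P + τ • x) (t₀ + τ * s₀ + τ * t)
        - w (x₀ + τ • (y₀ + s₀ • p)) (t₀ + τ * s₀) - inner ℝ P (τ • x) - β * (τ * t)) / τ := by
    rw [inner_add_right, inner_add_right, inner_smul_right, inner_smul_right, inner_sub_left]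
    field_simp
    ring
  rw [e3, abs_div, abs_of_pos hτ, div_le_iff₀ hτ]
  refine h1.trans (le_of_eq ?_)
  have e4 : (‖τ • x‖ + |τ * t|) / (τ * ρ) = (‖x‖ + |t|) / ρ := by
    rw [norm_smul, abs_mul, Real.norm_eq_abs, abs_of_pos hτ]
    field_simp
  rw [e4]
  ring

theorem Flat.nrmz {K : ℝ} (h : Flat K w) (x₀ : V) (t₀ : ℝ) {τ : ℝ} (hτ : 0 < τ) (p : V)
    (b : ℝ) : Flat K (GK.nrmz w x₀ t₀ τ p b) := by
  intro y₀ s₀ ρ hρ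
  obtain ⟨P, β, hP⟩ := h (x₀ + τ • (y₀ + s₀ • p)) (t₀ + τ * s₀) (τ * ρ) (mul_pos hτ hρ)
  exact ⟨_, _, FD.nrmz hτ hρ hP⟩

theorem Cls.rev {K : ℝ} (h : Cls K w) : Cls K (rev w) := ⟨h.pos, h.sol.rev, h.flat.rev⟩

theorem Cls.nrmz {K : ℝ} (h : Cls K w) (x₀ : V) (t₀ : ℝ) {τ : ℝ} (hτ : 0 < τ) (p : V)
    (b : ℝ) : Cls K (GK.nrmz w x₀ t₀ τ p b) :=
  ⟨h.pos, isSol_nrmz h.sol x₀ t₀ hτ p b, h.flat.nrmz x₀ t₀ hτ p b⟩

/-- adding `a + γ t` keeps the class -/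
theorem Cls.add_affine {K : ℝ} (h : Cls K w) (a γ : ℝ) : Cls K (fun x t => w x t + a + γ * t) := by
  refine ⟨h.pos, h.sol.add_affine a γ, fun x₀ t₀ τ hτ => ?_⟩
  obtain ⟨p, b, hpb⟩ := h.flat x₀ t₀ τ hτ
  refine ⟨p, b + γ, fun x t => ?_⟩
  have := hpb x t
  convert this using 2
  ring

theorem ClsRev [FiniteDimensional ℝ V] : ClsRev_stmt V := fun _ _ h => h.rev

theorem ClsNrmz [FiniteDimensional ℝ V] : ClsNrmz_stmt V :=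
  fun _ _ h x₀ t₀ _ p b hτ => h.nrmz x₀ t₀ hτ p b

end Crest.Agent.R094.GK
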