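import Mathlib
import Crest.Prelude.Def_InfHarmonic

set_option autoImplicit false

/-!
Row 94 (S0124).  Viscosity infinity-harmonic functions: comparison with radial cones on annuli and
convexity of `r ↦ max_{closedBall x r} u`.
-/

namespace Crest.Agent.R094

open Metric Set Crest.AnalysisR.PDE
open scoped Gradient InnerProductSpace

section Cone

variable {ι : Type*} [Fintype ι]

local notation "E" => EuclideanSpace ℝ ι

/-- `φ y = b ‖y - x‖ - γ ‖y - x‖²`. -/
noncomputable def coneF (x : E) (b γ : ℝ) (y : E) : ℝ := b * ‖y - x‖ - γ * ‖y - x‖ ^ 2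

theorem contDiffAt_coneF (x : E) (b γ : ℝ) {z : E} (hz : z ≠ x) : ContDiffAt ℝ 2 (coneF x b γ) z := by
  unfold coneF
  have h1 : ContDiffAt ℝ 2 (fun y : E => y - x) z := contDiffAt_id.sub contDiffAt_const
  have h2 : ContDiffAt ℝ 2 (fun y : E => ‖y - x‖) z := h1.norm ℝ (sub_ne_zero.2 hz)
  exact (contDiffAt_const.mul h2).sub (contDiffAt_const.mul (h2.pow 2))

theorem hasGradientAt_coneF (x : E) (b γ : ℝ) {z : E} (hz : z ≠ x) :
    HasGradientAt (coneF x b γ) ((b - 2 * γ * ‖z - x‖) • (‖z - x‖⁻¹ • (z - x))) z := by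
  have hne : z - x ≠ 0 := sub_ne_zero.2 hz
  have hn : ‖z - x‖ ≠ 0 := norm_ne_zero_iff.2 hne
  rw [hasGradientAt_iff_hasFDerivAt]
  have h1 : HasFDerivAt (fun y : E => ‖y - x‖ ^ 2) (2 • (innerSL ℝ (z - x))) z := by
    have := HasFDerivAt.norm_sq (f := fun y : E => y - x) ((hasFDerivAt_id z).sub_const x)
    simpa using this
  have h2 : HasFDerivAt (fun y : E => ‖y - x‖) (‖z - x‖⁻¹ • innerSL ℝ (z - x)) z := by
    have h3 : HasFDerivAt (fun y : E => Real.sqrt (‖y - x‖ ^ 2)) _ z :=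
      h1.sqrt (by positivity)
    have e : (fun y : E => Real.sqrt (‖y - x‖ ^ 2)) = fun y => ‖y - x‖ := by
      funext y; exact Real.sqrt_sq (norm_nonneg _)
    rw [e] at h3
    refine h3.congr_fderiv ?_
    ext v
    simp [Real.sqrt_sq (norm_nonneg _)]
    field_simp
  have h4 := (h2.const_mul b).sub (h1.const_mul γ)
  refine (h4.congr_fderiv ?_)
  ext v
  simp [InnerProductSpace.toDual_apply_apply]
  field_simp

theorem gradient_coneF (x : E) (b γ : ℝ) {z : E} (hz : z ≠ x) :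
    ∇ (coneF x b γ) z = (b - 2 * γ * ‖z - x‖) • (‖z - x‖⁻¹ • (z - x)) :=
  (hasGradientAt_coneF x b γ hz).gradient

theorem infLaplacian_coneF (x : E) (b γ : ℝ) {z : E} (hz : z ≠ x) :
    infLaplacian (coneF x b γ) z = - 2 * γ * (b - 2 * γ * ‖z - x‖) ^ 2 := by
  have hne : z - x ≠ 0 := sub_ne_zero.2 hz
  have hn : ‖z - x‖ ≠ 0 := norm_ne_zero_iff.2 hne
  have hpos : 0 < ‖z - x‖ := norm_pos_iff.2 hne
  unfold infLaplacian
  rw [gradient_coneF x b γ hz, iteratedFDeriv_two_apply]
  simp only [Matrix.cons_val_zero, Matrix.cons_val_one]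
  set m : ℝ := (b - 2 * γ * ‖z - x‖) * ‖z - x‖⁻¹ with hm
  have hv : (b - 2 * γ * ‖z - x‖) • (‖z - x‖⁻¹ • (z - x)) = m • (z - x) := by
    rw [smul_smul]
  rw [hv]
  set v : E := m • (z - x) with hvdef
  -- derivative of `t ↦ fderiv φ (z + t v) v`
  have hc2 : DifferentiableAt ℝ (fderiv ℝ (coneF x b γ)) z := by
    have := (contDiffAt_coneF x b γ hz).fderiv_right (m := 1) (by norm_num)
    exact this.differentiableAt (by norm_num)
  have hl : HasDerivAt (fun t : ℝ => z + t • v) v 0 := by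
    simpa using ((hasDerivAt_id (0:ℝ)).smul_const v).const_add z
  have h1 : HasDerivAt (fun t : ℝ => fderiv ℝ (coneF x b γ) (z + t • v))
      (fderiv ℝ (fderiv ℝ (coneF x b γ)) z v) 0 := by
    have h0 : HasFDerivAt (fderiv ℝ (coneF x b γ)) (fderiv ℝ (fderiv ℝ (coneF x b γ)) z)
        (z + (0:ℝ) • v) := by simpa using hc2.hasFDerivAt
    exact h0.comp_hasDerivAt (0:ℝ) hl
  have h2 : HasDerivAt (fun t : ℝ => fderiv ℝ (coneF x b γ) (z + t • v) v)
      (fderiv ℝ (fderiv ℝ (coneF x b γ)) z v v) 0 := by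
    simpa using h1.clm_apply (hasDerivAt_const (0:ℝ) v)
  have h3 : (fun t : ℝ => fderiv ℝ (coneF x b γ) (z + t • v) v)
      =ᶠ[nhds 0] fun t => (b - 2 * γ * ((1 + t * m) * ‖z - x‖)) * (m * ‖z - x‖) := by
    have hcont : Filter.Tendsto (fun t : ℝ => 1 + t * m) (nhds 0) (nhds (1 + 0 * m)) :=
      (continuous_const.add (continuous_id.mul continuous_const)).tendsto 0
    have hev : ∀ᶠ t : ℝ in nhds 0, 0 < 1 + t * m :=
      hcont.eventually (lt_mem_nhds (by norm_num))
    filter_upwards [hev] with t ht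
    have e : z + t • v - x = (1 + t * m) • (z - x) := by
      rw [hvdef, smul_smul, add_smul, one_smul]; abel
    have hne' : z + t • v ≠ x := by
      rw [← sub_ne_zero, e]
      exact smul_ne_zero ht.ne' hne
    have hg := (hasGradientAt_coneF x b γ hne').hasFDerivAt.fderiv
    rw [hg, InnerProductSpace.toDual_apply_apply, e, norm_smul, Real.norm_eq_abs, abs_of_pos ht,
      hvdef, inner_smul_left, inner_smul_left, inner_smul_left, inner_smul_right,
      real_inner_self_eq_norm_sq]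
    simp only [conj_trivial]
    field_simp
  have h4 : HasDerivAt (fun t : ℝ => (b - 2 * γ * ((1 + t * m) * ‖z - x‖)) * (m * ‖z - x‖))
      (-(2 * γ * (m * ‖z - x‖)) * (m * ‖z - x‖)) 0 := by
    have a1 : HasDerivAt (fun t : ℝ => 1 + t * m) m 0 := by
      simpa using ((hasDerivAt_id (0:ℝ)).mul_const m).const_add 1
    have a2 := ((a1.mul_const ‖z - x‖).const_mul (2 * γ)).const_sub b
    simpa using a2.mul_const (m * ‖z - x‖)
  have h5 := (h2.congr_of_eventuallyEq h3.symm).unique h4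
  rw [h5, hm]
  field_simp

end Cone

end Crest.Agent.R094
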