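import Crest.Prelude.Def_InfHarmonic

/-!
Row 94, Part A: viscosity infinity-harmonic functions satisfy comparison with cones.
-/

set_option autoImplicit false
open scoped Gradient Topology
open Set Filter Metric

namespace Crest.Agent.R094.Cones

open Crest.AnalysisR.PDE

variable {ι : Type*} [Fintype ι]

local notation "E" => EuclideanSpace ℝ ι

/-- second derivative along a line -/
lemma infLap_of_line {φ : E → ℝ} {x v : E} (hφ : ContDiffAt ℝ 2 φ x) (hv : ∇ φ x = v)
    {g : ℝ → ℝ} {g' : ℝ → ℝ} {c : ℝ} (hg : ∀ᶠ t in 𝓝 (0 : ℝ), φ (x + t • v) = g t)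
    (hg1 : ∀ᶠ t in 𝓝 (0 : ℝ), HasDerivAt g (g' t) t) (hg2 : HasDerivAt g' c 0) :
    infLaplacian φ x = c := by
  unfold infLaplacian
  rw [iteratedFDeriv_two_apply, hv]
  simp only [Matrix.cons_val_zero, Matrix.cons_val_one, Matrix.cons_val_fin_one]
  have hd : DifferentiableAt ℝ (fderiv ℝ φ) x :=
    (hφ.fderiv_right (m := 1) (by norm_num)).differentiableAt (by norm_num)
  have hline : HasDerivAt (fun t : ℝ => x + t • v) v 0 := by
    simpa using ((hasDerivAt_id (0 : ℝ)).smul_const v).const_add x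
  have h0 : (fun t : ℝ => x + t • v) 0 = x := by simp
  have hd' : HasFDerivAt (fderiv ℝ φ) (fderiv ℝ (fderiv ℝ φ) x) ((fun t : ℝ => x + t • v) 0) := by
    rw [h0]; exact hd.hasFDerivAt
  have h1 : HasDerivAt (fun t : ℝ => fderiv ℝ φ (x + t • v)) (fderiv ℝ (fderiv ℝ φ) x v) 0 :=
    hd'.comp_hasDerivAt (0 : ℝ) hline
  have h2 : HasDerivAt (fun t : ℝ => fderiv ℝ φ (x + t • v) v) (fderiv ℝ (fderiv ℝ φ) x v v) 0 := by
    have := h1.clm_apply (hasDerivAt_const (0 : ℝ) v)
    simpa using this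
  -- identify `fderiv φ (x + t v) v = g' t` near zero
  have hcd : ∀ᶠ y in 𝓝 x, DifferentiableAt ℝ φ y := by
    have := hφ.eventually (by norm_num)
    filter_upwards [this] with y hy
    exact hy.differentiableAt (by norm_num)
  have hcd' : ∀ᶠ t in 𝓝 (0 : ℝ), DifferentiableAt ℝ φ (x + t • v) := by
    have hc : Tendsto (fun t : ℝ => x + t • v) (𝓝 0) (𝓝 x) := by
      have := hline.continuousAt.tendsto
      simpa using this
    exact hc.eventually hcd
  have hgg : ∀ᶠ t in 𝓝 (0 : ℝ), ∀ᶠ t' in 𝓝 t, φ (x + t' • v) = g t' := hg.eventually_nhds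
  have heq : (fun t : ℝ => fderiv ℝ φ (x + t • v) v) =ᶠ[𝓝 0] g' := by
    filter_upwards [hcd', hgg, hg1] with t ht1 ht2 ht3
    have hl : HasDerivAt (fun t : ℝ => x + t • v) v t := by
      simpa using ((hasDerivAt_id t).smul_const v).const_add x
    have e1 : HasDerivAt (fun t : ℝ => φ (x + t • v)) (fderiv ℝ φ (x + t • v) v) t :=
      ht1.hasFDerivAt.comp_hasDerivAt t hl
    have e2 : HasDerivAt (fun t : ℝ => φ (x + t • v)) (g' t) t :=
      ht3.congr_of_eventuallyEq ht2
    exact e1.unique e2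
  exact (hg2.congr_of_eventuallyEq heq).unique h2 |>.symm

/-- the perturbed cone function. -/
noncomputable def pc (z : E) (a b γ : ℝ) (x : E) : ℝ := a + b * ‖x - z‖ - γ * ‖x - z‖ ^ 2

lemma pc_contDiffAt {z x : E} (hx : x ≠ z) (a b γ : ℝ) : ContDiffAt ℝ 2 (pc z a b γ) x := by
  unfold pc
  have h1 : ContDiffAt ℝ 2 (fun x : E => ‖x - z‖) x :=
    (contDiffAt_id.sub contDiffAt_const).norm ℝ (sub_ne_zero.2 hx)
  exact (contDiffAt_const.add (contDiffAt_const.mul h1)).sub (contDiffAt_const.mul (h1.pow 2))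

lemma pc_gradient {z x : E} (hx : x ≠ z) (a b γ : ℝ) :
    ∇ (pc z a b γ) x = (b / ‖x - z‖ - 2 * γ) • (x - z) := by
  have hr : 0 < ‖x - z‖ := norm_pos_iff.2 (sub_ne_zero.2 hx)
  have hsq : HasFDerivAt (fun x : E => ‖x - z‖ ^ 2) (2 • (innerSL ℝ (x - z))) x := by
    have := (hasFDerivAt_id (𝕜 := ℝ) x).sub_const z |>.norm_sq
    simpa using this
  have hn : HasFDerivAt (fun x : E => ‖x - z‖) ((1 / ‖x - z‖) • (innerSL ℝ (x - z))) x := by
    have h := hsq.sqrt (by positivity)
    have e : (fun x : E => Real.sqrt (‖x - z‖ ^ 2)) = fun x : E => ‖x - z‖ := by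
      funext y; exact Real.sqrt_sq (norm_nonneg _)
    rw [e, Real.sqrt_sq hr.le] at h
    have e2 : ((1 / (2 * ‖x - z‖)) • 2 • (innerSL ℝ) (x - z) : E →L[ℝ] ℝ)
        = (1 / ‖x - z‖) • (innerSL ℝ (x - z)) := by
      ext y
      simp only [smul_apply, nsmul_eq_mul, smul_eq_mul, Nat.cast_ofNat]
      field_simp
    rw [e2] at h
    exact h
  have hpc : HasFDerivAt (pc z a b γ)
      (b • ((1 / ‖x - z‖) • (innerSL ℝ (x - z))) - γ • (2 • (innerSL ℝ (x - z)))) x := by
    unfold pc
    exact ((hn.const_mul b).const_add a).sub (hsq.const_mul γ)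
  have hgr : HasGradientAt (pc z a b γ) ((b / ‖x - z‖ - 2 * γ) • (x - z)) x := by
    rw [hasGradientAt_iff_hasFDerivAt]
    have e3 : (InnerProductSpace.toDual ℝ E) ((b / ‖x - z‖ - 2 * γ) • (x - z))
        = (b • ((1 / ‖x - z‖) • (innerSL ℝ (x - z))) - γ • (2 • (innerSL ℝ (x - z))) :
          E →L[ℝ] ℝ) := by
      ext y
      simp only [InnerProductSpace.toDual_apply_apply, inner_smul_left, sub_apply,
        smul_apply, innerSL_apply_apply, smul_eq_mul, nsmul_eq_mul,
        Nat.cast_ofNat, conj_trivial]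
      ring
    rw [e3]
    exact hpc
  exact hgr.gradient

lemma pc_infLap {z x : E} (hx : x ≠ z) (a b γ : ℝ) :
    infLaplacian (pc z a b γ) x = - 2 * γ * (b - 2 * γ * ‖x - z‖) ^ 2 := by
  have hr : 0 < ‖x - z‖ := norm_pos_iff.2 (sub_ne_zero.2 hx)
  set r := ‖x - z‖ with hrdef
  set c := b / r - 2 * γ with hc
  have key := infLap_of_line (φ := pc z a b γ) (x := x) (v := c • (x - z))
    (g := fun t => a + b * ((1 + t * c) * r) - γ * ((1 + t * c) * r) ^ 2)
    (g' := fun t => b * (c * r) - γ * (2 * ((1 + t * c) * r) * (c * r)))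
    (c := - γ * (2 * (c * r) * (c * r))) (pc_contDiffAt hx a b γ) (pc_gradient hx a b γ)
    (by
      have hev : ∀ᶠ t in 𝓝 (0 : ℝ), 0 < 1 + t * c := by
        have : Tendsto (fun t : ℝ => 1 + t * c) (𝓝 0) (𝓝 (1 + 0 * c)) :=
          (continuous_const.add (continuous_id.mul continuous_const)).tendsto 0
        refine this.eventually (lt_mem_nhds ?_)
        simp
      filter_upwards [hev] with t ht
      have e : x + t • c • (x - z) - z = (1 + t * c) • (x - z) := by
        rw [add_smul, one_smul, smul_smul]; abel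
      unfold pc
      rw [e, norm_smul, Real.norm_of_nonneg ht.le])
    (by
      refine Eventually.of_forall fun t => ?_
      have h1 : HasDerivAt (fun t : ℝ => (1 + t * c) * r) (c * r) t := by
        simpa using (((hasDerivAt_id t).mul_const c).const_add 1).mul_const r
      have h2 := (((h1.const_mul b).const_add a).sub ((h1.fun_pow 2).const_mul γ))
      refine h2.congr_deriv ?_
      simp)
    (by
      have h1 : HasDerivAt (fun t : ℝ => (1 + t * c) * r) (c * r) 0 := by
        simpa using (((hasDerivAt_id (0 : ℝ)).mul_const c).const_add 1).mul_const r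
      have h2 := ((((h1.const_mul 2).mul_const (c * r)).const_mul γ).const_sub (b * (c * r)))
      refine h2.congr_deriv ?_
      ring)
  rw [key]
  have : c * r = b - 2 * γ * r := by
    rw [hc]; field_simp
  rw [this]; ring

/-- Comparison with cones from above. -/
theorem cca {u : E → ℝ} {Ω K : Set E} (hu : IsInfinityHarmonicOn u Ω)
    (hK : IsCompact K) (hKΩ : K ⊆ Ω) {z : E} {a b : ℝ}
    (hbd : ∀ y ∈ K, (y ∉ interior K ∨ y = z) → u y ≤ a + b * ‖y - z‖) :
    ∀ y ∈ K, u y ≤ a + b * ‖y - z‖ := by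
  by_contra hcon
  push Not at hcon
  obtain ⟨w, hwK, hw⟩ := hcon
  -- a bound on the radius
  obtain ⟨R, hR⟩ : ∃ R : ℝ, ∀ y ∈ K, ‖y - z‖ ≤ R := by
    obtain ⟨R, hR⟩ := hK.isBounded.subset_closedBall z
    exact ⟨R, fun y hy => by simpa [dist_eq_norm] using hR hy⟩
  have hR0 : 0 ≤ R := (norm_nonneg _).trans (hR w hwK)
  set δ := u w - (a + b * ‖w - z‖) with hδ
  have hδ0 : 0 < δ := by linarith
  -- choose γ
  obtain ⟨γ, hγ0, hγ1, hγ2⟩ : ∃ γ : ℝ, 0 < γ ∧ γ * R ^ 2 < δ ∧ (0 < b → 2 * γ * R < b) := by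
    by_cases hb : 0 < b
    · refine ⟨min (δ / (R ^ 2 + 1) / 2) (b / (2 * (R + 1)) / 2), ?_, ?_, ?_⟩
      · exact lt_min (by positivity) (by positivity)
      · calc min (δ / (R ^ 2 + 1) / 2) (b / (2 * (R + 1)) / 2) * R ^ 2
            ≤ (δ / (R ^ 2 + 1) / 2) * R ^ 2 := by gcongr; exact min_le_left _ _
          _ < δ := by
            rw [div_div, div_mul_eq_mul_div, div_lt_iff₀ (by positivity)]
            nlinarith [sq_nonneg R]
      · intro _
        calc 2 * min (δ / (R ^ 2 + 1) / 2) (b / (2 * (R + 1)) / 2) * R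
            ≤ 2 * (b / (2 * (R + 1)) / 2) * R := by gcongr; exact min_le_right _ _
          _ < b := by
            rw [div_div, mul_div_assoc', div_mul_eq_mul_div, div_lt_iff₀ (by positivity)]
            nlinarith
    · refine ⟨δ / (R ^ 2 + 1) / 2, by positivity, ?_, fun h => absurd h hb⟩
      rw [div_div, div_mul_eq_mul_div, div_lt_iff₀ (by positivity)]
      nlinarith [sq_nonneg R]
  -- maximise
  have hcont : ContinuousOn (fun y => u y - pc z a b γ y) K := by
    refine (hu.1.mono hKΩ).sub ?_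
    have : Continuous (pc z a b γ) := by unfold pc; fun_prop
    exact this.continuousOn
  obtain ⟨x, hxK, hx⟩ := hK.exists_isMaxOn ⟨w, hwK⟩ hcont
  have hxw : u w - pc z a b γ w ≤ u x - pc z a b γ x := hx hwK
  have hw1 : δ ≤ u w - pc z a b γ w := by
    unfold pc
    have : 0 ≤ γ * ‖w - z‖ ^ 2 := by positivity
    linarith
  have hgood : x ∈ interior K ∧ x ≠ z := by
    by_contra hbad
    have hb' : x ∉ interior K ∨ x = z := by
      by_contra h
      push Not at h
      exact hbad ⟨h.1, h.2⟩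
    have h1 := hbd x hxK hb'
    have h2 : γ * ‖x - z‖ ^ 2 ≤ γ * R ^ 2 := by
      have := hR x hxK
      gcongr
    unfold pc at hxw hw1
    linarith
  obtain ⟨hxi, hxz⟩ := hgood
  have hlm : IsLocalMax (fun y => u y - pc z a b γ y) x := by
    have : K ∈ 𝓝 x := mem_interior_iff_mem_nhds.1 hxi
    exact hx.isLocalMax this
  have h0 := (hu.2 x (hKΩ hxK) (pc z a b γ) (pc_contDiffAt hxz a b γ)).1 hlm
  rw [pc_infLap hxz] at h0
  have hr : 0 < ‖x - z‖ := norm_pos_iff.2 (sub_ne_zero.2 hxz)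
  have hne : b - 2 * γ * ‖x - z‖ ≠ 0 := by
    by_cases hb : 0 < b
    · have := hγ2 hb
      have h3 : 2 * γ * ‖x - z‖ ≤ 2 * γ * R := by
        have := hR x hxK
        gcongr
      linarith
    · have : 0 < 2 * γ * ‖x - z‖ := by positivity
      intro h; linarith
  have : 0 < (b - 2 * γ * ‖x - z‖) ^ 2 := by positivity
  nlinarith

lemma gradient_neg' {φ : E → ℝ} {x : E} : ∇ (fun y => - φ y) x = - ∇ φ x := by
  unfold gradient
  have : fderiv ℝ (fun y => - φ y) x = - fderiv ℝ φ x := fderiv_fun_neg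
  rw [this]; simp

lemma infLap_neg {φ : E → ℝ} {x : E} : infLaplacian (fun y => - φ y) x = - infLaplacian φ x := by
  unfold infLaplacian
  rw [gradient_neg']
  have h1 : iteratedFDeriv ℝ 2 (fun y => - φ y) x = - iteratedFDeriv ℝ 2 φ x := by
    exact iteratedFDeriv_neg_apply
  rw [h1]
  simp only [neg_apply]
  congr 1
  rw [iteratedFDeriv_two_apply, iteratedFDeriv_two_apply]
  simp

theorem neg_harm {u : E → ℝ} {Ω : Set E} (hu : IsInfinityHarmonicOn u Ω) :
    IsInfinityHarmonicOn (fun x => - u x) Ω := by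
  refine ⟨hu.1.neg, fun z hz φ hφ => ⟨fun h => ?_, fun h => ?_⟩⟩
  · have h' : IsLocalMin (fun x => u x - (fun y => - φ y) x) z := by
      have := h.neg
      refine this.mono fun y hy => ?_
      simp only [] at hy ⊢
      linarith
    have := (hu.2 z hz (fun y => - φ y) hφ.neg).2 h'
    rw [infLap_neg] at this
    linarith
  · have h' : IsLocalMax (fun x => u x - (fun y => - φ y) x) z := by
      have := h.neg
      refine this.mono fun y hy => ?_
      simp only [] at hy ⊢
      linarith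
    have := (hu.2 z hz (fun y => - φ y) hφ.neg).1 h'
    rw [infLap_neg] at this
    linarith

/-! ### The class of functions with convex ball-maxima -/

/-- maximum over the closed ball -/
noncomputable def Mx (u : E → ℝ) (x : E) (r : ℝ) : ℝ := sSup (u '' closedBall x r)

/-- minimum over the closed ball -/
noncomputable def Mn (u : E → ℝ) (x : E) (r : ℝ) : ℝ := sInf (u '' closedBall x r)

lemma Mn_eq (u : E → ℝ) (x : E) (r : ℝ) : Mn u x r = - Mx (fun y => - u y) x r := by
  unfold Mn Mx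
  rw [← Real.sInf_neg]
  congr 1
  ext t
  simp [Set.mem_neg, neg_eq_iff_eq_neg]

lemma Mx_exists {u : E → ℝ} {Ω : Set E} (hu : ContinuousOn u Ω) {x : E} {r : ℝ} (hr : 0 ≤ r)
    (h : closedBall x r ⊆ Ω) : ∃ y ∈ closedBall x r, u y = Mx u x r ∧
      ∀ w ∈ closedBall x r, u w ≤ u y := by
  obtain ⟨y, hy, hmax⟩ := (isCompact_closedBall x r).exists_isMaxOn
    ⟨x, mem_closedBall_self hr⟩ (hu.mono h)
  refine ⟨y, hy, ?_, hmax⟩
  exact ((IsGreatest.csSup_eq ⟨mem_image_of_mem u hy, by
    rintro _ ⟨w, hw, rfl⟩; exact hmax hw⟩)).symm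

lemma le_Mx {u : E → ℝ} {Ω : Set E} (hu : ContinuousOn u Ω) {x : E} {r : ℝ}
    (h : closedBall x r ⊆ Ω) {y : E} (hy : y ∈ closedBall x r) : u y ≤ Mx u x r := by
  obtain ⟨w, hw, h1, h2⟩ := Mx_exists hu (dist_nonneg.trans (mem_closedBall.1 hy)) h
  rw [← h1]; exact h2 y hy

lemma Mx_le {u : E → ℝ} {Ω : Set E} (hu : ContinuousOn u Ω) {x : E} {r : ℝ} (hr : 0 ≤ r)
    (h : closedBall x r ⊆ Ω) {c : ℝ} (hc : ∀ y ∈ closedBall x r, u y ≤ c) : Mx u x r ≤ c := by
  obtain ⟨w, hw, h1, _⟩ := Mx_exists hu hr h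
  rw [← h1]; exact hc w hw

lemma Mx_zero {u : E → ℝ} {x : E} : Mx u x 0 = u x := by
  unfold Mx; simp

lemma Mx_mono {u : E → ℝ} {Ω : Set E} (hu : ContinuousOn u Ω) {x : E} {r s : ℝ} (hr : 0 ≤ r)
    (hrs : r ≤ s) (h : closedBall x s ⊆ Ω) : Mx u x r ≤ Mx u x s :=
  Mx_le hu hr ((closedBall_subset_closedBall hrs).trans h) fun _ hy =>
    le_Mx hu h (closedBall_subset_closedBall hrs hy)

/-- key chord inequality -/
lemma Mx_chord {u : E → ℝ} {Ω : Set E} (hu : IsInfinityHarmonicOn u Ω) {x : E} {r₁ r₂ r : ℝ}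
    (h0 : 0 ≤ r₁) (h12 : r₁ < r₂) (h1 : r₁ ≤ r) (h2 : r ≤ r₂) (h : closedBall x r₂ ⊆ Ω) :
    Mx u x r ≤ Mx u x r₁ + (Mx u x r₂ - Mx u x r₁) / (r₂ - r₁) * (r - r₁) := by
  set b := (Mx u x r₂ - Mx u x r₁) / (r₂ - r₁) with hb
  have hb0 : 0 ≤ b := by
    have := Mx_mono hu.1 h0 h12.le h
    exact div_nonneg (by linarith) (by linarith)
  have hb2 : b * (r₂ - r₁) = Mx u x r₂ - Mx u x r₁ := by
    rw [hb]; field_simp [(sub_pos.2 h12).ne']
  set K : Set E := closedBall x r₂ \ ball x r₁ with hKdef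
  have hK : IsCompact K := (isCompact_closedBall x r₂).diff isOpen_ball
  have hKΩ : K ⊆ Ω := sdiff_subset.trans h
  have hball1 : closedBall x r₁ ⊆ Ω := (closedBall_subset_closedBall h12.le).trans h
  have key := cca (z := x) (a := Mx u x r₁ - b * r₁) (b := b) hu hK hKΩ (by
    intro y hy hor
    have hy2 : ‖y - x‖ ≤ r₂ := by simpa [dist_eq_norm] using hy.1
    have hy1 : r₁ ≤ ‖y - x‖ := by
      have := hy.2
      simpa [dist_eq_norm] using this
    rcases hor with hni | rfl
    · by_cases hc1 : ‖y - x‖ = r₁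
      · rw [hc1]
        have : u y ≤ Mx u x r₁ := le_Mx hu.1 hball1 (by simp [dist_eq_norm, hc1])
        linarith
      · by_cases hc2 : ‖y - x‖ = r₂
        · rw [hc2]
          have : u y ≤ Mx u x r₂ := le_Mx hu.1 h (by simp [dist_eq_norm, hc2])
          nlinarith
        · exfalso
          apply hni
          rw [mem_interior]
          refine ⟨ball x r₂ \ closedBall x r₁, ?_, isOpen_ball.sdiff isClosed_closedBall, ?_⟩
          · exact sdiff_subset_sdiff ball_subset_closedBall ball_subset_closedBall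
          · refine ⟨?_, ?_⟩
            · simpa [dist_eq_norm] using lt_of_le_of_ne hy2 hc2
            · simpa [dist_eq_norm] using lt_of_le_of_ne hy1 (Ne.symm hc1)
    · have hr1 : r₁ = 0 := by
        have : r₁ ≤ 0 := by simpa using hy1
        linarith
      subst hr1
      simp [Mx_zero])
  refine Mx_le hu.1 (h0.trans h1) ((closedBall_subset_closedBall h2).trans h) fun y hy => ?_
  have hyr : ‖y - x‖ ≤ r := by simpa [dist_eq_norm] using hy
  by_cases hin : ‖y - x‖ < r₁
  · have : u y ≤ Mx u x r₁ := le_Mx hu.1 hball1 (by simp [dist_eq_norm, hin.le])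
    have : 0 ≤ b * (r - r₁) := mul_nonneg hb0 (by linarith)
    linarith
  · push Not at hin
    have := key y ⟨by simpa [dist_eq_norm] using hyr.trans h2, by simpa [dist_eq_norm] using hin⟩
    have h3 : b * ‖y - x‖ ≤ b * r := mul_le_mul_of_nonneg_left hyr hb0
    linarith

theorem Mx_convexOn {u : E → ℝ} {Ω : Set E} (hu : IsInfinityHarmonicOn u Ω) {x : E} {R : ℝ}
    (h : closedBall x R ⊆ Ω) : ConvexOn ℝ (Icc 0 R) (Mx u x) := by
  refine LinearOrder.convexOn_of_lt (convex_Icc 0 R) ?_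
  intro r₁ hr₁ r₂ hr₂ h12 α β hα hβ hαβ
  have hα' : α = 1 - β := by linarith
  have h1 : r₁ ≤ α • r₁ + β • r₂ := by
    simp only [smul_eq_mul]; rw [hα']; nlinarith
  have h2 : α • r₁ + β • r₂ ≤ r₂ := by
    simp only [smul_eq_mul]; rw [hα']; nlinarith
  have := Mx_chord hu hr₁.1 h12 h1 h2 ((closedBall_subset_closedBall hr₂.2).trans h)
  refine this.trans (le_of_eq ?_)
  simp only [smul_eq_mul]
  rw [hα']
  field_simp [(sub_pos.2 h12).ne']
  ring

/-- The metric class: continuous, with convex ball maxima and concave ball minima. Invariant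
under similarities, addition of constants, multiplication by constants, and closed under locally
uniform limits. -/
structure CC (u : E → ℝ) (Ω : Set E) : Prop where
  cont : ContinuousOn u Ω
  conv : ∀ x R, closedBall x R ⊆ Ω → ConvexOn ℝ (Icc 0 R) (Mx u x)
  conc : ∀ x R, closedBall x R ⊆ Ω → ConvexOn ℝ (Icc 0 R) (Mx (fun y => - u y) x)

theorem CC.of_harm {u : E → ℝ} {Ω : Set E} (hu : IsInfinityHarmonicOn u Ω) : CC u Ω :=
  ⟨hu.1, fun _ _ h => Mx_convexOn hu h, fun _ _ h => Mx_convexOn (neg_harm hu) h⟩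

theorem CC.neg {u : E → ℝ} {Ω : Set E} (hu : CC u Ω) : CC (fun y => - u y) Ω :=
  ⟨hu.cont.neg, fun x R h => hu.conc x R h, fun x R h => by simpa using hu.conv x R h⟩

theorem CC.mono {u : E → ℝ} {Ω Ω' : Set E} (hu : CC u Ω) (h : Ω' ⊆ Ω) : CC u Ω' :=
  ⟨hu.cont.mono h, fun x R hx => hu.conv x R (hx.trans h), fun x R hx => hu.conc x R (hx.trans h)⟩

theorem CC.Mn_concave {u : E → ℝ} {Ω : Set E} (hu : CC u Ω) {x : E} {R : ℝ}
    (h : closedBall x R ⊆ Ω) : ConcaveOn ℝ (Icc 0 R) (Mn u x) := by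
  have := (hu.conc x R h).neg
  refine this.congr ?_
  intro r _
  simp [Mn_eq]

/-- the slope `(Mx u x r - u x) / r` is nondecreasing: chord form -/
theorem CC.slope_le {u : E → ℝ} {Ω : Set E} (hu : CC u Ω) {x : E} {r R : ℝ} (hr : 0 ≤ r)
    (hrR : r ≤ R) (hR : 0 < R) (h : closedBall x R ⊆ Ω) :
    Mx u x r ≤ (1 - r / R) * u x + r / R * Mx u x R := by
  have h0 : (0 : ℝ) ∈ Icc 0 R := ⟨le_rfl, hR.le⟩
  have hRR : R ∈ Icc 0 R := ⟨hR.le, le_rfl⟩
  have h1 : 0 ≤ 1 - r / R := by
    have : r / R ≤ 1 := (div_le_one hR).2 hrR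
    linarith
  have hc := (hu.conv x R h).2 h0 hRR h1 (by positivity : 0 ≤ r / R) (by ring)
  have e : (1 - r / R) • (0 : ℝ) + (r / R) • R = r := by
    simp only [smul_eq_mul]; field_simp; ring
  rw [e, Mx_zero] at hc
  simpa [smul_eq_mul] using hc

/-- linear growth bound -/
theorem CC.le_lin {u : E → ℝ} {Ω : Set E} (hu : CC u Ω) {x y : E} {R : ℝ} (hR : 0 < R)
    (h : closedBall x R ⊆ Ω) (hy : y ∈ closedBall x R) :
    u y - u x ≤ dist y x / R * (Mx u x R - u x) := by
  have h1 : u y ≤ Mx u x (dist y x) :=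
    le_Mx hu.cont ((closedBall_subset_closedBall (mem_closedBall.1 hy)).trans h) (by simp)
  have h2 := hu.slope_le dist_nonneg (mem_closedBall.1 hy) hR h
  have : (1 - dist y x / R) * u x + dist y x / R * Mx u x R
      = u x + dist y x / R * (Mx u x R - u x) := by ring
  linarith

/-- slopes at intermediate radii: for `0 ≤ a`, a lower bound on the slope at scale `δ` propagates
to larger scales. -/
theorem CC.ge_of_slope {u : E → ℝ} {Ω : Set E} (hu : CC u Ω) {x : E} {δ ρ S : ℝ} (hδ : 0 < δ)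
    (hδρ : δ ≤ ρ) (h : closedBall x ρ ⊆ Ω) (hS : u x + δ * S ≤ Mx u x δ) :
    u x + ρ * S ≤ Mx u x ρ := by
  have hρ : 0 < ρ := hδ.trans_le hδρ
  have h2 := hu.slope_le hδ.le hδρ hρ h
  have h3 : δ * S ≤ δ / ρ * (Mx u x ρ - u x) := by
    have : (1 - δ / ρ) * u x + δ / ρ * Mx u x ρ = u x + δ / ρ * (Mx u x ρ - u x) := by ring
    linarith
  have h4 : δ * (ρ * S) ≤ δ * (Mx u x ρ - u x) := by
    have := mul_le_mul_of_nonneg_left h3 hρ.le
    calc δ * (ρ * S) = ρ * (δ * S) := by ring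
      _ ≤ ρ * (δ / ρ * (Mx u x ρ - u x)) := this
      _ = δ * (Mx u x ρ - u x) := by field_simp
  have := le_of_mul_le_mul_left h4 hδ
  linarith

/-- Increasing slope at the maximum point. -/
theorem CC.increasing_slope {u : E → ℝ} {Ω : Set E} (hu : CC u Ω) {x y : E} {r ρ : ℝ}
    (hr : 0 < r) (h : closedBall x r ⊆ Ω) (hy : dist y x = r) (hmax : u y = Mx u x r)
    (hρ : 0 < ρ) (hρΩ : closedBall y ρ ⊆ Ω) :
    u y + ρ * ((Mx u x r - u x) / r) ≤ Mx u y ρ := by
  set S := (Mx u x r - u x) / r with hS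
  have hrS : r * S = Mx u x r - u x := by rw [hS]; field_simp
  -- points w close to y on the segment
  have key : ∀ δ, 0 < δ → δ < r → δ < ρ / 2 →
      u (y + (δ / r) • (x - y)) + (ρ - δ) * S ≤ Mx u y ρ := by
    intro δ hδ hδr hδρ
    set w := y + (δ / r) • (x - y) with hw
    have hwy : dist y w = δ := by
      rw [dist_eq_norm, hw, sub_add_cancel_left, norm_neg, norm_smul, Real.norm_of_nonneg (by positivity),
        ← dist_eq_norm, dist_comm, hy]
      field_simp
    have hwx : dist w x = r - δ := by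
      have : w - x = (1 - δ / r) • (y - x) := by
        rw [hw, sub_smul, one_smul, smul_sub, smul_sub]; abel
      have h1r : 0 ≤ 1 - δ / r := by
        have : δ / r ≤ 1 := (div_le_one hr).2 hδr.le
        linarith
      rw [dist_eq_norm, this, norm_smul, ← dist_eq_norm y x, hy, Real.norm_of_nonneg h1r]
      field_simp
    have hsub : closedBall w (ρ - δ) ⊆ closedBall y ρ := by
      apply closedBall_subset_closedBall'
      rw [dist_comm, hwy]; linarith
    have h1 : u w ≤ u y - δ * S := by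
      have := hu.le_lin hr h (y := w) (by rw [mem_closedBall, hwx]; linarith)
      rw [hwx] at this
      have e : (r - δ) / r * (Mx u x r - u x) = r * S - δ * S := by
        rw [← hrS]; field_simp
      rw [e, hrS] at this
      rw [hmax]; linarith
    have h2 : u w + δ * S ≤ Mx u w δ := by
      have : u y ≤ Mx u w δ := le_Mx hu.cont
        ((closedBall_subset_closedBall (by linarith : δ ≤ ρ - δ)).trans (hsub.trans hρΩ))
        (by rw [mem_closedBall, hwy])
      linarith
    have h3 := hu.ge_of_slope hδ (by linarith : δ ≤ ρ - δ) (hsub.trans hρΩ) h2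
    have h4 : Mx u w (ρ - δ) ≤ Mx u y ρ :=
      Mx_le hu.cont (by linarith) (hsub.trans hρΩ) fun v hv => le_Mx hu.cont hρΩ (hsub hv)
    linarith
  have hyΩ : Ω ∈ 𝓝 y := mem_of_superset (closedBall_mem_nhds y hρ) hρΩ
  have hcu : ContinuousAt u y := hu.cont.continuousAt hyΩ
  have hlim : Tendsto (fun δ : ℝ => u (y + (δ / r) • (x - y)) + (ρ - δ) * S) (𝓝[>] 0)
      (𝓝 (u y + ρ * S)) := by
    have hc : Tendsto (fun δ : ℝ => y + (δ / r) • (x - y)) (𝓝 0) (𝓝 y) := by
      have : Continuous (fun δ : ℝ => y + (δ / r) • (x - y)) := by fun_prop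
      have := this.tendsto 0
      simpa using this
    have h1 : Tendsto (fun δ : ℝ => u (y + (δ / r) • (x - y))) (𝓝 0) (𝓝 (u y)) :=
      hcu.tendsto.comp hc
    have h2 : Tendsto (fun δ : ℝ => (ρ - δ) * S) (𝓝 0) (𝓝 (ρ * S)) := by
      have : Continuous (fun δ : ℝ => (ρ - δ) * S) := by fun_prop
      simpa using this.tendsto 0
    exact (h1.add h2).mono_left nhdsWithin_le_nhds
  refine le_of_tendsto hlim ?_
  have : ∀ᶠ δ in 𝓝[>] (0 : ℝ), δ ∈ Ioo 0 (min r (ρ / 2)) :=
    Ioo_mem_nhdsGT (lt_min hr (by positivity))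
  filter_upwards [this] with δ hδ
  exact key δ hδ.1 (hδ.2.trans_le (min_le_left _ _)) (hδ.2.trans_le (min_le_right _ _))

/-- Lipschitz estimate from an oscillation bound on a ball. -/
theorem CC.lipschitz {u : E → ℝ} {Ω : Set E} (hu : CC u Ω) {x y : E} {R M : ℝ} (hR : 0 < R)
    (hx : closedBall x R ⊆ Ω) (hosc : ∀ z ∈ Ω, ∀ z' ∈ Ω, u z - u z' ≤ M)
    (hyΩ : y ∈ Ω) : u y - u x ≤ M / R * dist y x := by
  have hxΩ : x ∈ Ω := hx (mem_closedBall_self hR.le)
  have hM : 0 ≤ M := by simpa using hosc x hxΩ x hxΩ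
  by_cases hy : y ∈ closedBall x R
  · have h1 := hu.le_lin hR hx hy
    have h2 : Mx u x R - u x ≤ M := by
      obtain ⟨w, hw, h3, _⟩ := Mx_exists hu.cont hR.le hx
      rw [← h3]; exact hosc w (hx hw) x hxΩ
    calc u y - u x ≤ dist y x / R * (Mx u x R - u x) := h1
      _ ≤ dist y x / R * M := by gcongr
      _ = M / R * dist y x := by ring
  · have h2 : R < dist y x := by simpa using hy
    calc u y - u x ≤ M := hosc y hyΩ x hxΩ
      _ = M / R * R := by field_simp
      _ ≤ M / R * dist y x := by gcongr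

/-- Lipschitz estimate on the ball of radius `ρ < 1`. -/
theorem harm_lipschitz {u : E → ℝ} (hu : IsInfinityHarmonicOn u (ball 0 1)) {M ρ : ℝ}
    (hosc : ∀ x ∈ ball (0 : E) 1, ∀ y ∈ ball (0 : E) 1, u x - u y ≤ M) (hρ : ρ < 1)
    {x y : E} (hx : x ∈ closedBall (0 : E) ρ) (hy : y ∈ closedBall (0 : E) ρ) :
    |u x - u y| ≤ 2 * M / (1 - ρ) * dist x y := by
  have hR : 0 < (1 - ρ) / 2 := by linarith
  have hsub : ∀ z ∈ closedBall (0 : E) ρ, closedBall z ((1 - ρ) / 2) ⊆ ball (0 : E) 1 := by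
    intro z hz
    have h3 := mem_closedBall.1 hz
    exact closedBall_subset_ball' (by linarith)
  have hin : ∀ z ∈ closedBall (0 : E) ρ, z ∈ ball (0 : E) 1 := fun z hz =>
    hsub z hz (mem_closedBall_self hR.le)
  have e : M / ((1 - ρ) / 2) = 2 * M / (1 - ρ) := by field_simp
  have h1 := (CC.of_harm hu).lipschitz hR (hsub y hy) hosc (hin x hx)
  have h2 := (CC.of_harm hu).lipschitz hR (hsub x hx) hosc (hin y hy)
  rw [e] at h1 h2
  rw [dist_comm y x] at h2
  rw [abs_le]; constructor <;> linarith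

/-! ### invariance -/

theorem CC.add_const {u : E → ℝ} {Ω : Set E} (hu : CC u Ω) (c : ℝ) : CC (fun y => u y + c) Ω := by
  have key : ∀ (v : E → ℝ), ContinuousOn v Ω → ∀ (c : ℝ) (x : E) (R : ℝ), closedBall x R ⊆ Ω →
      ∀ r ∈ Icc 0 R, Mx (fun y => v y + c) x r = Mx v x r + c := by
    intro v hv c x R h r hr
    have hb : closedBall x r ⊆ Ω := (closedBall_subset_closedBall hr.2).trans h
    obtain ⟨w, hw, h1, h2⟩ := Mx_exists hv hr.1 hb
    apply le_antisymm
    · refine Mx_le (u := fun y => v y + c) (hv.add continuousOn_const) hr.1 hb fun y hy => ?_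
      have := h2 y hy
      linarith
    · have := le_Mx (u := fun y => v y + c) (hv.add (continuousOn_const (c := c))) hb hw
      rw [← h1]; exact this
  refine ⟨hu.cont.add continuousOn_const, fun x R h => ?_, fun x R h => ?_⟩
  · refine ((hu.conv x R h).add_const c).congr ?_
    intro r hr
    exact (key u hu.cont c x R h r hr).symm
  · refine ((hu.conc x R h).add_const (-c)).congr ?_
    intro r hr
    have := (key (fun y => - u y) hu.cont.neg (-c) x R h r hr)
    simp only [neg_add] 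
    simpa using this.symm

theorem CC.const_mul {u : E → ℝ} {Ω : Set E} (hu : CC u Ω) {a : ℝ} (ha : 0 ≤ a) :
    CC (fun y => a * u y) Ω := by
  have key : ∀ (v : E → ℝ), ContinuousOn v Ω → ∀ (x : E) (R : ℝ), closedBall x R ⊆ Ω →
      ∀ r ∈ Icc 0 R, Mx (fun y => a * v y) x r = a * Mx v x r := by
    intro v hv x R h r hr
    have hb : closedBall x r ⊆ Ω := (closedBall_subset_closedBall hr.2).trans h
    obtain ⟨w, hw, h1, h2⟩ := Mx_exists hv hr.1 hb
    apply le_antisymm
    · exact Mx_le (continuousOn_const.mul hv) hr.1 hb fun y hy => by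
        rw [← h1]; exact mul_le_mul_of_nonneg_left (h2 y hy) ha
    · have := le_Mx ((continuousOn_const (c := a)).mul hv) hb hw
      rw [← h1]; exact this
  refine ⟨continuousOn_const.mul hu.cont, fun x R h => ?_, fun x R h => ?_⟩
  · refine ((hu.conv x R h).smul ha).congr ?_
    intro r hr
    simpa using (key u hu.cont x R h r hr).symm
  · refine ((hu.conc x R h).smul ha).congr ?_
    intro r hr
    have := (key (fun y => - u y) hu.cont.neg x R h r hr)
    simpa using this.symm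

/-- similarity change of variables `x ↦ b + ρ • L x`, `L` a linear isometry equivalence. -/
theorem CC.comp_similarity {u : E → ℝ} {Ω : Set E} (hu : CC u Ω) (L : E ≃ₗᵢ[ℝ] E) (b : E)
    {ρ : ℝ} (hρ : 0 < ρ) : CC (fun y => u (b + ρ • L y)) ((fun y => b + ρ • L y) ⁻¹' Ω) := by
  set A : E → E := fun y => b + ρ • L y with hA
  have hAc : Continuous A := by rw [hA]; fun_prop
  have hball : ∀ (x : E) (r : ℝ), A '' closedBall x r = closedBall (A x) (ρ * r) := by
    intro x r
    have e1 : A = (fun z => b + z) ∘ (fun z => ρ • z) ∘ L := rfl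
    rw [e1, image_comp, image_comp]
    have e2 : (L : E → E) '' closedBall x r = closedBall (L x) r := L.image_closedBall x r
    have e3 : (fun z : E => ρ • z) '' closedBall (L x) r = closedBall (ρ • L x) (ρ * r) := by
      have := smul_closedBall' (𝕜 := ℝ) hρ.ne' (L x) r
      rw [Real.norm_of_nonneg hρ.le] at this
      exact this
    rw [e2, e3]
    have e4 : (fun z : E => b + z) '' closedBall (ρ • L x) (ρ * r)
        = closedBall (b + ρ • L x) (ρ * r) := by
      ext y
      simp only [mem_image, mem_closedBall]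
      constructor
      · rintro ⟨z, hz, rfl⟩; simpa using hz
      · intro hy
        refine ⟨y - b, ?_, by abel⟩
        rw [dist_eq_norm] at hy ⊢
        convert hy using 2
        abel
    rw [e4]
    rfl
  have hMx : ∀ (v : E → ℝ) (x : E) (r : ℝ), Mx (fun y => v (A y)) x r = Mx v (A x) (ρ * r) := by
    intro v x r
    unfold Mx
    rw [← hball, image_image]
  have hsub : ∀ (x : E) (R : ℝ), closedBall x R ⊆ A ⁻¹' Ω → closedBall (A x) (ρ * R) ⊆ Ω := by
    intro x R h
    rw [← hball]; exact image_subset_iff.2 h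
  have hcv : ∀ (v : E → ℝ) (x : E) (R : ℝ), ConvexOn ℝ (Icc 0 (ρ * R)) (Mx v (A x)) →
      ConvexOn ℝ (Icc 0 R) (Mx (fun y => v (A y)) x) := by
    intro v x R h
    refine ⟨convex_Icc _ _, ?_⟩
    intro r₁ hr₁ r₂ hr₂ α β hα hβ hαβ
    simp only [hMx]
    have := h.2 (x := ρ * r₁) (y := ρ * r₂) ⟨by have := hr₁.1; positivity, by have := hr₁.2; gcongr⟩
      ⟨by have := hr₂.1; positivity, by have := hr₂.2; gcongr⟩ hα hβ hαβ
    have e : α • (ρ * r₁) + β • (ρ * r₂) = ρ * (α • r₁ + β • r₂) := by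
      simp only [smul_eq_mul]; ring
    rw [e] at this
    exact this
  refine ⟨hu.cont.comp hAc.continuousOn fun x hx => hx, fun x R h => ?_, fun x R h => ?_⟩
  · exact hcv u x R (hu.conv (A x) (ρ * R) (hsub x R h))
  · exact hcv (fun y => - u y) x R (hu.conc (A x) (ρ * R) (hsub x R h))

end Crest.Agent.R094.Cones
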