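import Mathlib
import Crest.Prelude.Def_InfHarmonic

/-!
R094 (S0124): C^{1,alpha} for infinity-harmonic functions. Definitions for the flat limit model.
`E` is the space of tangential variables, functions are `W : E → ℝ → ℝ` (space, time).
-/

set_option autoImplicit false

namespace Crest.Agent.R094

open Filter Topology Set Metric
open scoped RealInnerProductSpace

section Model

variable {E : Type*} [NormedAddCommGroup E] [InnerProductSpace ℝ E]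

/-- Comparison with upper (parabolic) cones `b + σ (τ - t) + ‖y - x‖² / (2 (τ - t))`, vertex `(x,t)`
on the bottom, on cylinders moving with velocity `v`. -/
def ConeUp (W : E → ℝ → ℝ) (Ω : Set (E × ℝ)) : Prop :=
  ∀ (x v : E) (t s₂ R b σ : ℝ), 0 < s₂ → 0 < R →
    (∀ (y : E) (τ : ℝ), t ≤ τ → τ ≤ t + s₂ → ‖y - x - (τ - t) • v‖ ≤ R → (y, τ) ∈ Ω) →
    W x t ≤ b →
    (∀ y : E, ‖y - x - s₂ • v‖ ≤ R → W y (t + s₂) ≤ b + σ * s₂ + ‖y - x‖ ^ 2 / (2 * s₂)) →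
    (∀ (s : ℝ) (y : E), 0 < s → s ≤ s₂ → ‖y - x - s • v‖ = R →
      W y (t + s) ≤ b + σ * s + ‖y - x‖ ^ 2 / (2 * s)) →
    ∀ (s : ℝ) (y : E), 0 < s → s ≤ s₂ → ‖y - x - s • v‖ ≤ R →
      W y (t + s) ≤ b + σ * s + ‖y - x‖ ^ 2 / (2 * s)

/-- time reversal -/
def rev (W : E → ℝ → ℝ) : E → ℝ → ℝ := fun x t => - W x (-t)

/-- Comparison with lower cones. -/
def ConeDown (W : E → ℝ → ℝ) (Ω : Set (E × ℝ)) : Prop :=
  ConeUp (rev W) {p : E × ℝ | (p.1, -p.2) ∈ Ω}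

/-- `W` is `τ`-close to the affine function `c + ⟪p, y - x⟫ + q (s - t)` on the cylinder of height
`τ` and radius `10 τ` around `(x,t)` moving with velocity `p`. -/
def FlatWit (W : E → ℝ → ℝ) (x : E) (t τ : ℝ) (p : E) (c q : ℝ) : Prop :=
  ∀ (y : E) (s : ℝ), |s - t| ≤ τ → ‖y - x - (s - t) • p‖ ≤ 10 * τ →
    |W y s - (c + ⟪p, y - x⟫ + q * (s - t))| ≤ τ

/-- excess `≤ 1` at all scales `≥ ε` and at all points -/
def FlAll (ε : ℝ) (W : E → ℝ → ℝ) : Prop :=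
  ∀ (x : E) (t τ : ℝ), 0 < τ → ε ≤ τ → ∃ (p : E) (c q : ℝ), FlatWit W x t τ p c q

/-- the class of entire solutions with excess `≤ 1` at all scales `≥ ε` -/
structure Cls (ε : ℝ) (W : E → ℝ → ℝ) : Prop where
  cont : Continuous (fun p : E × ℝ => W p.1 p.2)
  up : ConeUp W univ
  down : ConeDown W univ
  flat : FlAll ε W

/-- normalised frame at the origin, scale `1` -/
def Nrm (W : E → ℝ → ℝ) : Prop := ∀ (y : E) (s : ℝ), |s| ≤ 1 → ‖y‖ ≤ 10 → |W y s| ≤ 1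

/-- recentring at `(x₀,t₀)`, boost with slope `p`, subtraction of `c + q t` and scaling: space factor
`κ τ`, time factor `τ`, values factor `κ² τ`. -/
noncomputable def tr (W : E → ℝ → ℝ) (x₀ : E) (t₀ κ τ : ℝ) (p : E) (c q : ℝ) : E → ℝ → ℝ :=
  fun y σ => (W (x₀ + (κ * τ) • y + (τ * σ) • p) (t₀ + τ * σ) -
    (c + ⟪p, (κ * τ) • y + (τ * σ) • p⟫ + q * (τ * σ))) / (κ ^ 2 * τ)

/-- forward sup-convolution -/
noncomputable def Tu (W : E → ℝ → ℝ) (s : ℝ) (x : E) (t : ℝ) : ℝ :=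
  ⨆ y : E, (W y (t + s) - ‖y - x‖ ^ 2 / (2 * s))

/-- backward inf-convolution -/
noncomputable def Td (W : E → ℝ → ℝ) (s : ℝ) (x : E) (t : ℝ) : ℝ :=
  ⨅ y : E, (W y (t - s) + ‖y - x‖ ^ 2 / (2 * s))

noncomputable def Sp (W : E → ℝ → ℝ) (s : ℝ) (x : E) (t : ℝ) : ℝ := (Tu W s x t - W x t) / s

noncomputable def Sm (W : E → ℝ → ℝ) (s : ℝ) (x : E) (t : ℝ) : ℝ := (W x t - Td W s x t) / s

/-- subquadratic growth -/
def SubQ (W : E → ℝ → ℝ) : Prop :=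
  ∀ ε > 0, ∃ C : ℝ, ∀ (x : E) (t : ℝ), |W x t| ≤ ε * (‖x‖ ^ 2 + t ^ 2) + C

/-- entire solutions: the only structural facts used in the Liouville theorem -/
structure Sol (W : E → ℝ → ℝ) : Prop where
  cont : Continuous (fun p : E × ℝ => W p.1 p.2)
  subq : SubQ W
  up : ∀ (x : E) (t s₁ s₂ : ℝ), 0 < s₁ → s₁ ≤ s₂ → Sp W s₁ x t ≤ Sp W s₂ x t
  down : ∀ (x : E) (t s₁ s₂ : ℝ), 0 < s₁ → s₁ ≤ s₂ → Sm W s₁ x t ≤ Sm W s₂ x t

/-- opening (quadratic convex-type envelope) of `f` with parameter `ρ` -/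
noncomputable def Eop (ρ : ℝ) (f : E → ℝ) (x : E) : ℝ :=
  ⨆ z : E, ((⨅ a : E, (f a + ‖a - z‖ ^ 2 / (2 * ρ))) - ‖x - z‖ ^ 2 / (2 * ρ))

/-- the functional -/
noncomputable def Fo (W : E → ℝ → ℝ) (x : E) (t ρ : ℝ) : ℝ :=
  W x t - Eop ρ (fun a => W a t) x

/-- the regularised functional -/
noncomputable def Fs (W : E → ℝ → ℝ) (s : ℝ) (x : E) (t ρ : ℝ) : ℝ :=
  Tu W s x t - Eop ρ (fun a => Td W s a t) x

/-- vertex data for `Eop ρ f x`: `z` the vertex, `a i` contact points, `θ i` weights -/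
structure VD (f : E → ℝ) (x : E) (ρ : ℝ) (z : E) {n : ℕ} (θ : Fin n → ℝ) (a : Fin n → E) :
    Prop where
  pos : ∀ i, 0 < θ i
  sum : ∑ i, θ i = 1
  bary : ∑ i, θ i • a i = x
  min : ∀ (i : Fin n) (b : E), f (a i) + ‖a i - z‖ ^ 2 / (2 * ρ) ≤ f b + ‖b - z‖ ^ 2 / (2 * ρ)

/-- local class -/
structure Qcls (w : E → ℝ → ℝ) : Prop where
  cont : ContinuousOn (fun p : E × ℝ => w p.1 p.2) (ball (0 : E) 10 ×ˢ Ioo (-1 : ℝ) 1)
  up : ConeUp w (ball (0 : E) 10 ×ˢ Ioo (-1 : ℝ) 1)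
  down : ConeDown w (ball (0 : E) 10 ×ˢ Ioo (-1 : ℝ) 1)
  bdd : ∀ (x : E) (t : ℝ), ‖x‖ < 10 → |t| < 1 → |w x t| ≤ 1

/-- approximate cone comparison (static cylinders, centre region) used for equicontinuity -/
def AC (δ₀ ω : ℝ) (w : E → ℝ → ℝ) : Prop :=
  ∀ (x : E) (t s₂ σ : ℝ), ‖x‖ ≤ 5 → |t| ≤ 1 / 2 → δ₀ ≤ s₂ → s₂ ≤ 1 / 4 → |σ| * s₂ ≤ 4 →
    (∀ y : E, ‖y - x‖ ≤ 5 / 2 → w y (t + s₂) ≤ w x t + σ * s₂ + ‖y - x‖ ^ 2 / (2 * s₂)) →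
    ∀ (s : ℝ) (y : E), δ₀ ≤ s → s ≤ s₂ → ‖y - x‖ ≤ 5 / 2 →
      w y (t + s) ≤ w x t + σ * s + ‖y - x‖ ^ 2 / (2 * s) + ω

/-- comparison with Euclidean upper cones of positive slope for functions on `E × ℝ`
(norm `√(‖y‖² + t²)`) -/
def CCE (g : E → ℝ → ℝ) (Ω : Set (E × ℝ)) : Prop :=
  ∀ V : Set (E × ℝ), IsOpen V → Bornology.IsBounded V → closure V ⊆ Ω →
    ∀ (z : E) (τ a b : ℝ), 0 < a →
      (∀ p ∈ frontier V, g p.1 p.2 ≤ b + a * Real.sqrt (‖p.1 - z‖ ^ 2 + (p.2 - τ) ^ 2)) →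
      ((z, τ) ∈ V → g z τ ≤ b) →
      ∀ p ∈ V, g p.1 p.2 ≤ b + a * Real.sqrt (‖p.1 - z‖ ^ 2 + (p.2 - τ) ^ 2)

end Model

section Euclid

variable {F : Type*} [NormedAddCommGroup F] [InnerProductSpace ℝ F]

/-- cylinder with axis `ξ` -/
def Cyl (x₀ ξ : F) (r ρ : ℝ) : Set F :=
  {p : F | |⟪ξ, p - x₀⟫| ≤ r ∧ ‖p - x₀ - ⟪ξ, p - x₀⟫ • ξ‖ ≤ ρ}

/-- `u` is flat: slope `a ξ`, flatness `lam`, scale `r`, adapted cylinder -/
def FlatU (u : F → ℝ) (x₀ ξ : F) (a c lam r : ℝ) : Prop :=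
  ∀ p ∈ Cyl x₀ ξ r (10 * Real.sqrt lam * r), |u p - (c + a * ⟪ξ, p - x₀⟫)| ≤ a * lam * r

end Euclid

end Crest.Agent.R094
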