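import Crest.Agent.R094.Env
import Crest.Agent.R094.SolDefs

/-!
Row 94 (S0124), helper478.  Bridge: `UEnv` is the smallest value at `x` of a paraboloid of opening
`1/ρ` above `f` (the form `envU` used by Stage D).
-/

set_option autoImplicit false
set_option linter.unusedSectionVars false

namespace Crest.Agent.R094.Env

open Set Filter Topology

variable {V : Type*} [NormedAddCommGroup V] [InnerProductSpace ℝ V]

/-- Any paraboloid of opening `1/ρ` above `f` is above `UEnv` at its base point. -/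
lemma UEnv_le_of_paraboloid {f : V → ℝ} (hf : SubQ f) {ρ : ℝ} (hρ : 0 < ρ) {x q : V} {a : ℝ}
    (h : ∀ y, f y ≤ a + inner ℝ q (y - x) + ‖y - x‖ ^ 2 / (2 * ρ)) : UEnv ρ f x ≤ a := by
  have h1 := UEnv_le hf hρ x (x - ρ • q)
  have h2 : Qs ρ f (x - ρ • q) ≤ a - ρ * ‖q‖ ^ 2 / 2 := by
    refine Qs_le fun y => ?_
    have h3 := h y
    have h4 : ‖y - (x - ρ • q)‖ ^ 2 / (2 * ρ)
        = ‖y - x‖ ^ 2 / (2 * ρ) + inner ℝ q (y - x) + ρ * ‖q‖ ^ 2 / 2 := by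
      have h5 : y - (x - ρ • q) = (y - x) + ρ • q := by abel
      rw [h5, norm_add_sq_real, real_inner_smul_right, norm_smul, Real.norm_eq_abs,
        abs_of_pos hρ, real_inner_comm]
      field_simp
    linarith
  have h6 : ‖x - (x - ρ • q)‖ ^ 2 / (2 * ρ) = ρ * ‖q‖ ^ 2 / 2 := by
    have h5 : x - (x - ρ • q) = ρ • q := by abel
    rw [h5, norm_smul, Real.norm_eq_abs, abs_of_pos hρ]
    field_simp
  linarith

/-- There is a supergradient paraboloid at every point. -/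
lemma exists_paraboloid_UEnv [FiniteDimensional ℝ V] {f : V → ℝ} (hfc : Continuous f)
    (hf : SubQ f) {ρ : ℝ} (hρ : 0 < ρ) (x : V) :
    ∃ q : V, (∀ ξ, UEnv ρ f (x + ξ) ≤ UEnv ρ f x + inner ℝ q ξ + ‖ξ‖ ^ 2 / (2 * ρ)) ∧
      ∀ y, f y ≤ UEnv ρ f x + inner ℝ q (y - x) + ‖y - x‖ ^ 2 / (2 * ρ) := by
  obtain ⟨y, -, -, -, -, -, -, -, -, -, hE⟩ := exists_contact_UEnv hfc hf hρ x
  refine ⟨ρ⁻¹ • (x - y), UEnv_le_of_contact hf hρ hE, fun z => ?_⟩
  have h1 := UEnv_le_of_contact hf hρ hE (z - x)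
  have h2 := self_le_UEnv hf hρ z
  have h3 : x + (z - x) = z := by abel
  rw [h3] at h1
  exact h2.trans h1

theorem isLeast_UEnv [FiniteDimensional ℝ V] {f : V → ℝ} (hfc : Continuous f)
    (hf : SubQ f) {ρ : ℝ} (hρ : 0 < ρ) (x : V) :
    IsLeast {a : ℝ | ∃ q : V, ∀ y, f y ≤ a + inner ℝ q (y - x) + ‖y - x‖ ^ 2 / (2 * ρ)}
      (UEnv ρ f x) := by
  constructor
  · obtain ⟨q, -, hq⟩ := exists_paraboloid_UEnv hfc hf hρ x
    exact ⟨q, hq⟩
  · rintro a ⟨q, hq⟩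
    exact UEnv_le_of_paraboloid hf hρ hq

/-- `envU = UEnv` (form of Stage D). -/
theorem sInf_paraboloid_eq_UEnv [FiniteDimensional ℝ V] {f : V → ℝ} (hfc : Continuous f)
    (hf : SubQ f) {ρ : ℝ} (hρ : 0 < ρ) (x : V) :
    sInf {a : ℝ | ∃ q : V, ∀ y, f y ≤ a + inner ℝ q (y - x) + ‖y - x‖ ^ 2 / (2 * ρ)}
      = UEnv ρ f x :=
  (isLeast_UEnv hfc hf hρ x).csInf_eq

/-! ### Bridge to the operators of `SolDefs` -/

open Crest.Agent.R094 in
lemma supc_eq_Qs (s : ℝ) (f : V → ℝ) (x : V) : Sol.supc s f x = Qs s f x := by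
  unfold Sol.supc Qs
  exact iSup_congr fun y => by rw [norm_sub_rev]

open Crest.Agent.R094 in
lemma infc_eq_Qi (s : ℝ) (f : V → ℝ) (x : V) : Sol.infc s f x = Qi s f x := by
  unfold Sol.infc Qi
  exact iInf_congr fun y => by rw [norm_sub_rev]

open Crest.Agent.R094 in
lemma T_eq_Qs (s : ℝ) (w : V → ℝ → ℝ) (x : V) (t : ℝ) :
    Sol.T s w x t = Qs s (fun y => w y (t + s)) x := by
  unfold Sol.T Qs
  exact iSup_congr fun y => by rw [norm_sub_rev]

open Crest.Agent.R094 in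
lemma B_eq_Qi (s : ℝ) (w : V → ℝ → ℝ) (x : V) (t : ℝ) :
    Sol.B s w x t = Qi s (fun y => w y (t - s)) x := by
  unfold Sol.B Qi
  exact iInf_congr fun y => by rw [norm_sub_rev]

open Crest.Agent.R094 in
/-- `UEnv t (w(.,t)) = B_t T_t w (.,t)`. -/
lemma UEnv_eq_BT (w : V → ℝ → ℝ) (x : V) (t : ℝ) :
    UEnv t (fun y => w y t) x = Sol.B t (Sol.T t w) x t := by
  unfold Sol.B UEnv
  refine iInf_congr fun z => ?_
  rw [T_eq_Qs, sub_self, zero_add]

open Crest.Agent.R094 in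
lemma Grow.subQ {w : V → ℝ → ℝ} (h : Sol.Grow w) (t : ℝ) : SubQ (fun y => w y t) := by
  intro ε hε
  obtain ⟨C, hC⟩ := h |t| ε hε
  exact ⟨C, fun y => hC y t le_rfl⟩

end Crest.Agent.R094.Env
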