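import Mathlib

/-!
Row 94, route 7921, step (a): the spatial envelope `Uf t f` (= `|x|²/2t +` concave envelope of
`f - |.|²/2t`), its Hopf–Lax identity, and the envelope `U` of a space-time function.
-/

set_option autoImplicit false
set_option linter.unusedSectionVars false

namespace Crest.Agent.R094.EnvU

open Set Filter Topology
open scoped Pointwise

variable {V : Type*} [NormedAddCommGroup V] [InnerProductSpace ℝ V]

local notation "⟪" x ", " y "⟫" => inner ℝ x y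

/-- subquadratic growth (two-sided) -/
def SubQ (f : V → ℝ) : Prop := ∀ ε : ℝ, 0 < ε → ∃ C : ℝ, ∀ b, |f b| ≤ ε * ‖b‖ ^ 2 + C

/-- values of the finite convex combinations with barycentre `x` -/
def vals (t : ℝ) (f : V → ℝ) (x : V) : Set ℝ :=
  {r | ∃ (ι : Type) (_ : Fintype ι) (μ : ι → ℝ) (b : ι → V), (∀ i, 0 ≤ μ i) ∧ ∑ i, μ i = 1 ∧
    ∑ i, μ i • b i = x ∧ r = ∑ i, μ i * (f (b i) - ‖b i - x‖ ^ 2 / (2 * t))}

/-- the envelope -/
noncomputable def Uf (t : ℝ) (f : V → ℝ) (x : V) : ℝ := sSup (vals t f x)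

/-- the spatial Hopf–Lax operator -/
noncomputable def Hs (s : ℝ) (f : V → ℝ) (x : V) : ℝ := ⨆ y : V, (f y - ‖x - y‖ ^ 2 / (2 * s))

theorem self_mem_vals (t : ℝ) (f : V → ℝ) (x : V) : f x ∈ vals t f x := by
  refine ⟨Unit, inferInstance, fun _ => 1, fun _ => x, ?_, ?_, ?_, ?_⟩ <;> simp

theorem vals_nonempty (t : ℝ) (f : V → ℝ) (x : V) : (vals t f x).Nonempty := ⟨_, self_mem_vals t f x⟩

/-- affine majorant bound -/
theorem vals_le_of_majorant {t : ℝ} {f : V → ℝ} {x q : V} {A : ℝ}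
    (h : ∀ b, f b - ‖b - x‖ ^ 2 / (2 * t) ≤ A + ⟪q, b - x⟫) : ∀ r ∈ vals t f x, r ≤ A := by
  rintro r ⟨ι, _, μ, b, h0, h1, h2, rfl⟩
  calc ∑ i, μ i * (f (b i) - ‖b i - x‖ ^ 2 / (2 * t)) ≤ ∑ i, μ i * (A + ⟪q, b i - x⟫) :=
        Finset.sum_le_sum fun i _ => mul_le_mul_of_nonneg_left (h (b i)) (h0 i)
    _ = A * ∑ i, μ i + ⟪q, ∑ i, μ i • b i - (∑ i, μ i) • x⟫ := by
        rw [inner_sub_right, inner_sum, inner_smul_right, Finset.mul_sum, Finset.sum_mul,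
          ← Finset.sum_sub_distrib, ← Finset.sum_add_distrib]
        refine Finset.sum_congr rfl fun i _ => ?_
        rw [inner_smul_right, inner_sub_right]
        ring
    _ = A := by rw [h1, h2]; simp

theorem Uf_le_of_majorant {t : ℝ} {f : V → ℝ} {x q : V} {A : ℝ}
    (h : ∀ b, f b - ‖b - x‖ ^ 2 / (2 * t) ≤ A + ⟪q, b - x⟫) : Uf t f x ≤ A :=
  csSup_le (vals_nonempty t f x) (vals_le_of_majorant h)

theorem SubQ.upper {f : V → ℝ} (hf : SubQ f) {ε : ℝ} (hε : 0 < ε) (x : V) :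
    ∃ C : ℝ, ∀ b, f b ≤ C + ε * ‖b - x‖ ^ 2 := by
  obtain ⟨C, hC⟩ := hf (ε / 2) (by positivity)
  refine ⟨C + ε * ‖x‖ ^ 2, fun b => ?_⟩
  have h1 : ‖b‖ ≤ ‖b - x‖ + ‖x‖ := by
    calc ‖b‖ = ‖(b - x) + x‖ := by rw [sub_add_cancel]
      _ ≤ _ := norm_add_le _ _
  have h2 : ‖b‖ ^ 2 ≤ 2 * ‖b - x‖ ^ 2 + 2 * ‖x‖ ^ 2 := by
    have := norm_nonneg b
    nlinarith [sq_nonneg (‖b - x‖ - ‖x‖)]
  have h3 := (abs_le.mp (hC b)).2
  nlinarith

theorem SubQ.bddAbove_vals {f : V → ℝ} (hf : SubQ f) {t : ℝ} (ht : 0 < t) (x : V) :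
    BddAbove (vals t f x) := by
  obtain ⟨C, hC⟩ := hf.upper (ε := 1 / (2 * t)) (by positivity) x
  refine ⟨C, vals_le_of_majorant (q := 0) fun b => ?_⟩
  have := hC b
  simp only [inner_zero_left, add_zero]
  have e : ‖b - x‖ ^ 2 / (2 * t) = 1 / (2 * t) * ‖b - x‖ ^ 2 := by ring
  linarith

theorem SubQ.bddAbove_Hs {f : V → ℝ} (hf : SubQ f) {s : ℝ} (hs : 0 < s) (x : V) :
    BddAbove (range fun y : V => f y - ‖x - y‖ ^ 2 / (2 * s)) := by
  obtain ⟨C, hC⟩ := hf.upper (ε := 1 / (2 * s)) (by positivity) x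
  refine ⟨C, ?_⟩
  rintro _ ⟨y, rfl⟩
  have := hC y
  have e : ‖x - y‖ ^ 2 / (2 * s) = 1 / (2 * s) * ‖y - x‖ ^ 2 := by rw [norm_sub_rev]; ring
  simp only
  linarith

theorem le_Uf {f : V → ℝ} (hf : SubQ f) {t : ℝ} (ht : 0 < t) (x : V) : f x ≤ Uf t f x :=
  le_csSup (hf.bddAbove_vals ht x) (self_mem_vals t f x)

theorem combo_le_Uf {f : V → ℝ} (hf : SubQ f) {t : ℝ} (ht : 0 < t) {x : V} {ι : Type} [Fintype ι]
    {μ : ι → ℝ} {b : ι → V} (h0 : ∀ i, 0 ≤ μ i) (h1 : ∑ i, μ i = 1) (h2 : ∑ i, μ i • b i = x) :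
    ∑ i, μ i * (f (b i) - ‖b i - x‖ ^ 2 / (2 * t)) ≤ Uf t f x :=
  le_csSup (hf.bddAbove_vals ht x) ⟨ι, inferInstance, μ, b, h0, h1, h2, rfl⟩

/-- centred version: displacements `a` with `∑ μ a = 0` -/
theorem centred_le_Uf {f : V → ℝ} (hf : SubQ f) {t : ℝ} (ht : 0 < t) {x : V} {ι : Type}
    [Fintype ι] {μ : ι → ℝ} {a : ι → V} (h0 : ∀ i, 0 ≤ μ i) (h1 : ∑ i, μ i = 1)
    (h2 : ∑ i, μ i • a i = 0) :
    ∑ i, μ i * (f (x + a i) - ‖a i‖ ^ 2 / (2 * t)) ≤ Uf t f x := by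
  have h3 : ∑ i, μ i • (x + a i) = x := by
    simp only [smul_add, Finset.sum_add_distrib, h2, add_zero, ← Finset.sum_smul, h1, one_smul]
  have := combo_le_Uf hf ht h0 h1 h3
  simpa only [add_sub_cancel_left] using this

/-- centred near-optimal combination -/
theorem exists_centred {f : V → ℝ} {t : ℝ} {x : V} {c : ℝ} (hc : c < Uf t f x) :
    ∃ (ι : Type) (_ : Fintype ι) (μ : ι → ℝ) (a : ι → V), (∀ i, 0 ≤ μ i) ∧ ∑ i, μ i = 1 ∧
      ∑ i, μ i • a i = 0 ∧ c < ∑ i, μ i * (f (x + a i) - ‖a i‖ ^ 2 / (2 * t)) := by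
  obtain ⟨r, ⟨ι, hι, μ, b, h0, h1, h2, rfl⟩, hr⟩ := exists_lt_of_lt_csSup (vals_nonempty t f x) hc
  refine ⟨ι, hι, μ, fun i => b i - x, h0, h1, ?_, ?_⟩
  · simp only [smul_sub, Finset.sum_sub_distrib, h2, ← Finset.sum_smul, h1, one_smul, sub_self]
  · simpa only [add_sub_cancel] using hr

theorem Uf_le_of_centred {f : V → ℝ} {t : ℝ} {x : V} {A : ℝ}
    (h : ∀ (ι : Type) [Fintype ι] (μ : ι → ℝ) (a : ι → V), (∀ i, 0 ≤ μ i) → ∑ i, μ i = 1 →
      ∑ i, μ i • a i = 0 → ∑ i, μ i * (f (x + a i) - ‖a i‖ ^ 2 / (2 * t)) ≤ A) :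
    Uf t f x ≤ A := by
  by_contra hlt
  push Not at hlt
  obtain ⟨ι, hι, μ, a, h0, h1, h2, h3⟩ := exists_centred hlt
  exact absurd (h ι μ a h0 h1 h2) (not_le.mpr h3)

theorem le_Hs {f : V → ℝ} (hf : SubQ f) {s : ℝ} (hs : 0 < s) (x y : V) :
    f y - ‖x - y‖ ^ 2 / (2 * s) ≤ Hs s f x :=
  le_ciSup (hf.bddAbove_Hs hs x) y

theorem self_le_Hs {f : V → ℝ} (hf : SubQ f) {s : ℝ} (hs : 0 < s) (x : V) : f x ≤ Hs s f x := by
  simpa using le_Hs hf hs x x

theorem Hs_le {f : V → ℝ} {s : ℝ} {x : V} {A : ℝ} (h : ∀ y, f y - ‖x - y‖ ^ 2 / (2 * s) ≤ A) :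
    Hs s f x ≤ A := ciSup_le h

/-- growth of the Hopf–Lax operator -/
theorem SubQ.Hs {f : V → ℝ} (hf : SubQ f) {s : ℝ} (hs : 0 < s) : SubQ (Hs s f) := by
  intro ε hε
  set ε' : ℝ := min (ε / 2) (1 / (4 * s)) with hε'
  have hε'0 : 0 < ε' := by positivity
  obtain ⟨C, hC⟩ := hf ε' hε'0
  refine ⟨C, fun x => ?_⟩
  rw [abs_le]
  constructor
  · have h1 := self_le_Hs hf hs x
    have h2 := (abs_le.mp (hC x)).1
    have h3 : ε' * ‖x‖ ^ 2 ≤ ε * ‖x‖ ^ 2 :=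
      mul_le_mul_of_nonneg_right (by linarith [min_le_left (ε / 2) (1 / (4 * s))]) (by positivity)
    linarith
  · refine Hs_le fun y => ?_
    have h2 := (abs_le.mp (hC y)).2
    have h1 : ‖y‖ ≤ ‖x - y‖ + ‖x‖ := by
      calc ‖y‖ = ‖x - (x - y)‖ := by rw [sub_sub_cancel]
        _ ≤ ‖x‖ + ‖x - y‖ := norm_sub_le _ _
        _ = _ := by ring
    have h4 : ‖y‖ ^ 2 ≤ 2 * ‖x - y‖ ^ 2 + 2 * ‖x‖ ^ 2 := by
      have := norm_nonneg y
      nlinarith [sq_nonneg (‖x - y‖ - ‖x‖)]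
    have h5 : ε' * ‖y‖ ^ 2 ≤ ε' * (2 * ‖x - y‖ ^ 2 + 2 * ‖x‖ ^ 2) :=
      mul_le_mul_of_nonneg_left h4 hε'0.le
    have h6 : ε' * (2 * ‖x - y‖ ^ 2) ≤ ‖x - y‖ ^ 2 / (2 * s) := by
      have : ε' ≤ 1 / (4 * s) := min_le_right _ _
      calc ε' * (2 * ‖x - y‖ ^ 2) ≤ 1 / (4 * s) * (2 * ‖x - y‖ ^ 2) :=
            mul_le_mul_of_nonneg_right this (by positivity)
        _ = ‖x - y‖ ^ 2 / (2 * s) := by field_simp; ring
    have h7 : ε' * (2 * ‖x‖ ^ 2) ≤ ε * ‖x‖ ^ 2 := by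
      have : ε' ≤ ε / 2 := min_le_left _ _
      nlinarith [sq_nonneg ‖x‖]
    linarith

/-! ### The Hopf–Lax identity -/

/-- scalar/quadratic identity behind the splitting -/
theorem quad_split {δ t : ℝ} (hδ : 0 < δ) (ht : 0 < t) (b z : V) :
    ‖(t / (t + δ)) • b‖ ^ 2 / (2 * t) + ‖z + (δ / (t + δ)) • b‖ ^ 2 / (2 * δ)
      = ‖b‖ ^ 2 / (2 * (t + δ)) + ‖z‖ ^ 2 / (2 * δ) + ⟪z, b⟫ / (t + δ) := by
  rw [norm_add_sq_real, norm_smul, norm_smul, inner_smul_right, mul_pow, mul_pow, Real.norm_eq_abs,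
    Real.norm_eq_abs, sq_abs, sq_abs]
  have : t + δ ≠ 0 := by positivity
  field_simp
  ring

theorem sum_inner_eq {ι : Type} [Fintype ι] (μ : ι → ℝ) (b : ι → V) (z : V) :
    ∑ i, μ i * ⟪z, b i⟫ = ⟪z, ∑ i, μ i • b i⟫ := by
  rw [inner_sum]
  exact Finset.sum_congr rfl fun i _ => by rw [inner_smul_right]

theorem Hs_Uf_le {f : V → ℝ} (hf : SubQ f) {t δ : ℝ} (ht : 0 < t) (hδ : 0 < δ) (x : V) :
    Hs δ (Uf (t + δ) f) x ≤ Uf t (Hs δ f) x := by
  refine Hs_le fun y => ?_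
  rw [sub_le_iff_le_add]
  refine Uf_le_of_centred fun ι _ μ b h0 h1 h2 => ?_
  -- `a i = (t/(t+δ)) b i`, `z i = (y-x) + (δ/(t+δ)) b i`
  have h3 : ∑ i, μ i • ((t / (t + δ)) • b i) = 0 := by
    simp only [smul_comm (_ : ℝ) (t / (t + δ)), ← Finset.smul_sum, h2, smul_zero]
  have key := centred_le_Uf (hf.Hs hδ) ht (x := x) h0 h1 h3
  have h4 : ∀ i, f (y + b i) - ‖b i‖ ^ 2 / (2 * (t + δ)) ≤
      (Hs δ f (x + (t / (t + δ)) • b i) - ‖(t / (t + δ)) • b i‖ ^ 2 / (2 * t))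
        + ‖y - x‖ ^ 2 / (2 * δ) + ⟪y - x, b i⟫ / (t + δ) := by
    intro i
    have e1 := quad_split hδ ht (b i) (y - x)
    have e2 := le_Hs hf hδ (x + (t / (t + δ)) • b i) (y + b i)
    have e3 : x + (t / (t + δ)) • b i - (y + b i) = -((y - x) + (δ / (t + δ)) • b i) := by
      have : (δ / (t + δ)) = 1 - t / (t + δ) := by field_simp; ring
      rw [this, sub_smul, one_smul]
      abel
    rw [e3, norm_neg] at e2
    linarith
  calc ∑ i, μ i * (f (y + b i) - ‖b i‖ ^ 2 / (2 * (t + δ)))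
      ≤ ∑ i, μ i * ((Hs δ f (x + (t / (t + δ)) • b i) - ‖(t / (t + δ)) • b i‖ ^ 2 / (2 * t))
        + ‖y - x‖ ^ 2 / (2 * δ) + ⟪y - x, b i⟫ / (t + δ)) :=
        Finset.sum_le_sum fun i _ => mul_le_mul_of_nonneg_left (h4 i) (h0 i)
    _ = ∑ i, μ i * (Hs δ f (x + (t / (t + δ)) • b i) - ‖(t / (t + δ)) • b i‖ ^ 2 / (2 * t))
        + (∑ i, μ i) * (‖y - x‖ ^ 2 / (2 * δ)) + (∑ i, μ i * ⟪y - x, b i⟫) / (t + δ) := by
        rw [Finset.sum_mul, Finset.sum_div, ← Finset.sum_add_distrib, ← Finset.sum_add_distrib]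
        refine Finset.sum_congr rfl fun i _ => ?_
        ring
    _ ≤ Uf t (Hs δ f) x + ‖x - y‖ ^ 2 / (2 * δ) := by
        rw [sum_inner_eq, h2, inner_zero_right, zero_div, add_zero, h1, one_mul, norm_sub_rev y x]
        linarith

theorem Uf_le_Hs {f : V → ℝ} (hf : SubQ f) {t : ℝ} (ht : 0 < t) (x : V) :
    Uf t f x ≤ Hs t f x := by
  refine Uf_le_of_centred fun ι _ μ a h0 h1 _ => ?_
  calc ∑ i, μ i * (f (x + a i) - ‖a i‖ ^ 2 / (2 * t)) ≤ ∑ i, μ i * Hs t f x := by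
        refine Finset.sum_le_sum fun i _ => mul_le_mul_of_nonneg_left ?_ (h0 i)
        have := le_Hs hf ht x (x + a i)
        rwa [sub_add_cancel_left, norm_neg] at this
    _ = Hs t f x := by rw [← Finset.sum_mul, h1, one_mul]

theorem SubQ.Uf {f : V → ℝ} (hf : SubQ f) {t : ℝ} (ht : 0 < t) : SubQ (Uf t f) := by
  intro ε hε
  obtain ⟨C1, h1⟩ := hf ε hε
  obtain ⟨C2, h2⟩ := (hf.Hs ht) ε hε
  refine ⟨max C1 C2, fun x => ?_⟩
  rw [abs_le]
  constructor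
  · have := (abs_le.mp (h1 x)).1
    have h3 := le_Uf hf ht x
    linarith [le_max_left C1 C2]
  · have := (abs_le.mp (h2 x)).2
    have h3 := Uf_le_Hs hf ht x
    linarith [le_max_right C1 C2]

theorem Uf_Hs_le {f : V → ℝ} (hf : SubQ f) {t δ : ℝ}
    (ht : 0 < t) (hδ : 0 < δ) (x : V) :
    Uf t (Hs δ f) x ≤ Hs δ (Uf (t + δ) f) x := by
  have hU' : SubQ (Uf (t + δ) f) := hf.Uf (by positivity)
  refine Uf_le_of_centred fun ι _ μ a h0 h1 h2 => ?_
  -- near-optimal `z i`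
  refine le_of_forall_pos_le_add fun ε hε => ?_
  have hz : ∀ i, ∃ z : V, Hs δ f (x + a i) - ε ≤ f (x + a i + z) - ‖z‖ ^ 2 / (2 * δ) := by
    intro i
    have hlt : Hs δ f (x + a i) - ε < ⨆ y : V, (f y - ‖x + a i - y‖ ^ 2 / (2 * δ)) := by
      have : Hs δ f (x + a i) = ⨆ y : V, (f y - ‖x + a i - y‖ ^ 2 / (2 * δ)) := rfl
      linarith
    obtain ⟨y, hy⟩ := exists_lt_of_lt_ciSup hlt
    refine ⟨y - (x + a i), ?_⟩
    rw [add_sub_cancel, norm_sub_rev]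
    exact hy.le
  choose z hz using hz
  set zb : V := ∑ i, μ i • z i with hzb
  have hb : ∑ i, μ i • (a i + z i - zb) = 0 := by
    simp only [smul_sub, smul_add, Finset.sum_sub_distrib, Finset.sum_add_distrib, h2,
      ← Finset.sum_smul, h1, one_smul, zero_add, ← hzb, sub_self]
  have hft : 0 < t + δ := by positivity
  have key := centred_le_Uf hf hft (x := x + zb) h0 h1 hb
  have e0 := le_Hs hU' hδ x (x + zb)
  have e1 : ‖x - (x + zb)‖ = ‖zb‖ := by rw [sub_add_cancel_left, norm_neg]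
  rw [e1] at e0
  -- pointwise quadratic inequality
  have h4 : ∀ i, ‖a i + z i - zb‖ ^ 2 / (2 * (t + δ)) ≤
      ‖a i‖ ^ 2 / (2 * t) + ‖z i - zb‖ ^ 2 / (2 * δ) := by
    intro i
    have e : a i + z i - zb = a i + (z i - zb) := by abel
    rw [e]
    set A := a i
    set Z := z i - zb
    have hn : ‖A + Z‖ ^ 2 ≤ (‖A‖ + ‖Z‖) ^ 2 :=
      pow_le_pow_left₀ (norm_nonneg _) (norm_add_le _ _) 2
    rw [div_le_iff₀ (by positivity)]
    have : (‖A‖ + ‖Z‖) ^ 2 ≤ (‖A‖ ^ 2 / (2 * t) + ‖Z‖ ^ 2 / (2 * δ)) * (2 * (t + δ)) := by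
      have h : (‖A‖ ^ 2 / (2 * t) + ‖Z‖ ^ 2 / (2 * δ)) * (2 * (t + δ)) - (‖A‖ + ‖Z‖) ^ 2
          = (δ * ‖A‖ - t * ‖Z‖) ^ 2 / (t * δ) := by
        field_simp
        ring
      have : 0 ≤ (δ * ‖A‖ - t * ‖Z‖) ^ 2 / (t * δ) := by positivity
      linarith
    exact hn.trans this
  have h5 : ∑ i, μ i * ‖z i - zb‖ ^ 2 = ∑ i, μ i * ‖z i‖ ^ 2 - ‖zb‖ ^ 2 := by
    have : ∀ i, μ i * ‖z i - zb‖ ^ 2 = μ i * ‖z i‖ ^ 2 - 2 * (μ i * ⟪zb, z i⟫) + μ i * ‖zb‖ ^ 2 := by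
      intro i
      rw [norm_sub_sq_real, real_inner_comm]
      ring
    simp only [this, Finset.sum_add_distrib, Finset.sum_sub_distrib, ← Finset.mul_sum,
      ← Finset.sum_mul, h1, sum_inner_eq, ← hzb, real_inner_self_eq_norm_sq]
    ring
  have h6 : ∑ i, μ i * (Hs δ f (x + a i) - ‖a i‖ ^ 2 / (2 * t)) ≤
      ∑ i, μ i * (f (x + zb + (a i + z i - zb)) - ‖a i + z i - zb‖ ^ 2 / (2 * (t + δ)))
        - ‖zb‖ ^ 2 / (2 * δ) + ε := by
    have : ∀ i, μ i * (Hs δ f (x + a i) - ‖a i‖ ^ 2 / (2 * t)) ≤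
        μ i * (f (x + zb + (a i + z i - zb)) - ‖a i + z i - zb‖ ^ 2 / (2 * (t + δ)))
          + μ i * ‖z i - zb‖ ^ 2 / (2 * δ) - μ i * ‖z i‖ ^ 2 / (2 * δ) + μ i * ε := by
      intro i
      have e : x + zb + (a i + z i - zb) = x + a i + z i := by abel
      rw [e]
      have e1 := hz i
      have e2 := h4 i
      have : μ i * (Hs δ f (x + a i) - ‖a i‖ ^ 2 / (2 * t)) ≤
          μ i * ((f (x + a i + z i) - ‖a i + z i - zb‖ ^ 2 / (2 * (t + δ)))
            + ‖z i - zb‖ ^ 2 / (2 * δ) - ‖z i‖ ^ 2 / (2 * δ) + ε) :=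
        mul_le_mul_of_nonneg_left (by linarith) (h0 i)
      refine this.trans (le_of_eq ?_)
      ring
    refine (Finset.sum_le_sum fun i _ => this i).trans (le_of_eq ?_)
    rw [Finset.sum_add_distrib, Finset.sum_sub_distrib, Finset.sum_add_distrib,
      ← Finset.sum_div, ← Finset.sum_div, ← Finset.sum_mul, h1, h5]
    ring
  linarith

/-- the Hopf–Lax identity for the envelope -/
theorem Hs_Uf {f : V → ℝ} (hf : SubQ f) {t δ : ℝ} (ht : 0 < t) (hδ : 0 < δ) (x : V) :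
    Hs δ (Uf (t + δ) f) x = Uf t (Hs δ f) x :=
  le_antisymm (Hs_Uf_le hf ht hδ x) (Uf_Hs_le hf ht hδ x)

/-! ### monotonicity, convexity in `f`, linear terms -/

theorem Uf_mono {f g : V → ℝ} (hg : SubQ g) {t : ℝ} (ht : 0 < t) (h : ∀ b, f b ≤ g b) (x : V) :
    Uf t f x ≤ Uf t g x := by
  refine Uf_le_of_centred fun ι _ μ a h0 h1 h2 => ?_
  refine le_trans ?_ (centred_le_Uf hg ht (x := x) h0 h1 h2)
  exact Finset.sum_le_sum fun i _ => mul_le_mul_of_nonneg_left (by linarith [h (x + a i)]) (h0 i)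

theorem Uf_convex {f g : V → ℝ} (hf : SubQ f) (hg : SubQ g) {t : ℝ} (ht : 0 < t) {α β : ℝ}
    (hα : 0 ≤ α) (hβ : 0 ≤ β) (hαβ : α + β = 1) (x : V) :
    Uf t (fun b => α * f b + β * g b) x ≤ α * Uf t f x + β * Uf t g x := by
  refine Uf_le_of_centred fun ι _ μ a h0 h1 h2 => ?_
  have e1 := mul_le_mul_of_nonneg_left (centred_le_Uf hf ht (x := x) h0 h1 h2) hα
  have e2 := mul_le_mul_of_nonneg_left (centred_le_Uf hg ht (x := x) h0 h1 h2) hβ
  refine le_trans (le_of_eq ?_) (add_le_add e1 e2)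
  rw [Finset.mul_sum, Finset.mul_sum, ← Finset.sum_add_distrib]
  refine Finset.sum_congr rfl fun i _ => ?_
  linear_combination (μ i * (‖a i‖ ^ 2 / (2 * t))) * hαβ

/-- adding an affine function (constant slope) -/
theorem Uf_add_affine (f : V → ℝ) (t : ℝ) (p : V) (c : ℝ) (x : V) :
    vals t (fun b => f b + ⟪p, b⟫ + c) x = (fun r => r + ⟪p, x⟫ + c) '' vals t f x := by
  ext r
  constructor
  · rintro ⟨ι, _, μ, b, h0, h1, h2, rfl⟩
    refine ⟨_, ⟨ι, inferInstance, μ, b, h0, h1, h2, rfl⟩, ?_⟩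
    simp only
    rw [← h2, ← sum_inner_eq]
    have : c = ∑ i, μ i * c := by rw [← Finset.sum_mul, h1, one_mul]
    conv_lhs => rw [this]
    rw [← Finset.sum_add_distrib, ← Finset.sum_add_distrib]
    refine Finset.sum_congr rfl fun i _ => ?_
    ring
  · rintro ⟨_, ⟨ι, _, μ, b, h0, h1, h2, rfl⟩, rfl⟩
    refine ⟨ι, inferInstance, μ, b, h0, h1, h2, ?_⟩
    simp only
    rw [← h2, ← sum_inner_eq]
    have : c = ∑ i, μ i * c := by rw [← Finset.sum_mul, h1, one_mul]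
    conv_lhs => rw [this]
    rw [← Finset.sum_add_distrib, ← Finset.sum_add_distrib]
    refine Finset.sum_congr rfl fun i _ => ?_
    ring

theorem Uf_add_lin {f : V → ℝ} (hf : SubQ f) {t : ℝ} (ht : 0 < t) (p : V) (c : ℝ) (x : V) :
    Uf t (fun b => f b + ⟪p, b⟫ + c) x = Uf t f x + ⟪p, x⟫ + c := by
  unfold Uf
  rw [Uf_add_affine]
  have hne := vals_nonempty t f x
  have hb := hf.bddAbove_vals ht x
  apply le_antisymm
  · refine csSup_le (hne.image _) ?_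
    rintro _ ⟨r, hr, rfl⟩
    simp only
    linarith [le_csSup hb hr]
  · have : sSup (vals t f x) ≤ sSup ((fun r => r + ⟪p, x⟫ + c) '' vals t f x) - ⟪p, x⟫ - c := by
      refine csSup_le hne fun r hr => ?_
      have hb' : BddAbove ((fun r => r + ⟪p, x⟫ + c) '' vals t f x) := by
        obtain ⟨A, hA⟩ := hb
        refine ⟨A + ⟪p, x⟫ + c, ?_⟩
        rintro _ ⟨r, hr, rfl⟩
        simp only
        linarith [hA hr]
      have : r + ⟪p, x⟫ + c ≤ sSup ((fun r => r + ⟪p, x⟫ + c) '' vals t f x) :=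
        le_csSup hb' ⟨r, hr, rfl⟩
      linarith
    linarith

theorem Uf_translate (t : ℝ) (f : V → ℝ) (a x : V) :
    Uf t (fun b => f (b + a)) x = Uf t f (x + a) := by
  unfold Uf
  congr 1
  ext r
  constructor
  · rintro ⟨ι, _, μ, b, h0, h1, h2, rfl⟩
    refine ⟨ι, inferInstance, μ, fun i => b i + a, h0, h1, ?_, ?_⟩
    · simp only [smul_add, Finset.sum_add_distrib, h2, ← Finset.sum_smul, h1, one_smul]
    · refine Finset.sum_congr rfl fun i _ => ?_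
      have e : b i + a - (x + a) = b i - x := by abel
      simp only [e]
  · rintro ⟨ι, _, μ, b, h0, h1, h2, rfl⟩
    refine ⟨ι, inferInstance, μ, fun i => b i - a, h0, h1, ?_, ?_⟩
    · simp only [smul_sub, Finset.sum_sub_distrib, h2, ← Finset.sum_smul, h1, one_smul,
        add_sub_cancel_right]
    · refine Finset.sum_congr rfl fun i _ => ?_
      have e : b i - a - x = b i - (x + a) := by abel
      simp only [e, sub_add_cancel]

theorem Uf_scale (t : ℝ) (f : V → ℝ) {l : ℝ} (hl : 0 < l) (x : V) :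
    Uf t (fun b => f (l • b) / l) x = Uf (l * t) f (l • x) / l := by
  have key : vals t (fun b => f (l • b) / l) x = (fun r => l⁻¹ * r) '' vals (l * t) f (l • x) := by
    ext r
    constructor
    · rintro ⟨ι, _, μ, b, h0, h1, h2, rfl⟩
      refine ⟨_, ⟨ι, inferInstance, μ, fun i => l • b i, h0, h1, ?_, rfl⟩, ?_⟩
      · rw [← h2, Finset.smul_sum]
        exact Finset.sum_congr rfl fun i _ => smul_comm _ _ _
      · simp only
        rw [Finset.mul_sum]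
        refine Finset.sum_congr rfl fun i _ => ?_
        rw [← smul_sub, norm_smul, Real.norm_eq_abs, mul_pow, sq_abs]
        by_cases h : t = 0
        · subst h; simp; ring
        · field_simp
    · rintro ⟨_, ⟨ι, _, μ, b, h0, h1, h2, rfl⟩, rfl⟩
      refine ⟨ι, inferInstance, μ, fun i => l⁻¹ • b i, h0, h1, ?_, ?_⟩
      · have : ∑ i, μ i • l⁻¹ • b i = l⁻¹ • ∑ i, μ i • b i := by
          rw [Finset.smul_sum]
          exact Finset.sum_congr rfl fun i _ => smul_comm _ _ _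
        rw [this, h2, smul_smul, inv_mul_cancel₀ hl.ne', one_smul]
      · simp only
        rw [Finset.mul_sum]
        refine Finset.sum_congr rfl fun i _ => ?_
        have e : l⁻¹ • b i - x = l⁻¹ • (b i - l • x) := by
          rw [smul_sub, smul_smul, inv_mul_cancel₀ hl.ne', one_smul]
        rw [e, norm_smul, Real.norm_eq_abs, mul_pow, sq_abs, smul_smul, mul_inv_cancel₀ hl.ne',
          one_smul]
        by_cases h : t = 0
        · subst h; simp; ring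
        · field_simp
  unfold Uf
  rw [key]
  have := Real.sSup_smul_of_nonneg (show 0 ≤ l⁻¹ by positivity) (vals (l * t) f (l • x))
  rw [smul_eq_mul, ← div_eq_inv_mul] at this
  exact this

/-- `Uf t f - |.|²/2t` is concave -/
theorem concaveOn_Uf {f : V → ℝ} (hf : SubQ f) {t : ℝ} (ht : 0 < t) :
    ConcaveOn ℝ univ (fun x => Uf t f x - ‖x‖ ^ 2 / (2 * t)) := by
  refine ⟨convex_univ, fun x _ y _ α β hα hβ hαβ => ?_⟩
  simp only [smul_eq_mul]
  refine le_of_forall_pos_le_add fun ε hε => ?_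
  obtain ⟨ι, _, μ, a, h0, h1, h2, h3⟩ := exists_centred (f := f) (t := t) (x := x)
    (c := Uf t f x - ε) (by linarith)
  obtain ⟨ι', _, μ', a', h0', h1', h2', h3'⟩ := exists_centred (f := f) (t := t) (x := y)
    (c := Uf t f y - ε) (by linarith)
  set z := α • x + β • y with hz
  have k := combo_le_Uf hf ht (x := z) (ι := ι ⊕ ι')
    (μ := Sum.elim (fun i => α * μ i) (fun i => β * μ' i))
    (b := Sum.elim (fun i => x + a i) (fun i => y + a' i)) ?_ ?_ ?_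
  · rw [Fintype.sum_sum_type] at k
    simp only [Sum.elim_inl, Sum.elim_inr] at k
    have e1 : ∀ (u : V) (κ : Type) [Fintype κ] (m : κ → ℝ) (d : κ → V), ∑ i, m i = 1 →
        ∑ i, m i • d i = 0 → ∑ i, m i * (f (u + d i) - ‖u + d i - z‖ ^ 2 / (2 * t)) =
        ∑ i, m i * (f (u + d i) - ‖d i‖ ^ 2 / (2 * t)) - ‖u - z‖ ^ 2 / (2 * t) := by
      intro u κ _ m d hm hd
      have : ∀ i, m i * (f (u + d i) - ‖u + d i - z‖ ^ 2 / (2 * t)) =
          m i * (f (u + d i) - ‖d i‖ ^ 2 / (2 * t)) - m i * (‖u - z‖ ^ 2 / (2 * t))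
            - (m i * ⟪u - z, d i⟫) / t := by
        intro i
        have e : u + d i - z = (u - z) + d i := by abel
        rw [e, norm_add_sq_real]
        field_simp
        ring
      simp only [this, Finset.sum_sub_distrib, ← Finset.sum_mul, hm, one_mul, ← Finset.sum_div,
        sum_inner_eq, hd, inner_zero_right, zero_div, sub_zero]
    have f1 := e1 x ι μ a h1 h2
    have f2 := e1 y ι' μ' a' h1' h2'
    have g1 : ∑ i, α * μ i * (f (x + a i) - ‖x + a i - z‖ ^ 2 / (2 * t)) =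
        α * (∑ i, μ i * (f (x + a i) - ‖a i‖ ^ 2 / (2 * t)) - ‖x - z‖ ^ 2 / (2 * t)) := by
      rw [← f1, Finset.mul_sum]
      exact Finset.sum_congr rfl fun i _ => by ring
    have g2 : ∑ i, β * μ' i * (f (y + a' i) - ‖y + a' i - z‖ ^ 2 / (2 * t)) =
        β * (∑ i, μ' i * (f (y + a' i) - ‖a' i‖ ^ 2 / (2 * t)) - ‖y - z‖ ^ 2 / (2 * t)) := by
      rw [← f2, Finset.mul_sum]
      exact Finset.sum_congr rfl fun i _ => by ring
    rw [g1, g2] at k
    have q : α * (‖x - z‖ ^ 2 / (2 * t)) + β * (‖y - z‖ ^ 2 / (2 * t)) =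
        α * (‖x‖ ^ 2 / (2 * t)) + β * (‖y‖ ^ 2 / (2 * t)) - ‖z‖ ^ 2 / (2 * t) := by
      have e3 : α * ‖x - z‖ ^ 2 + β * ‖y - z‖ ^ 2 = α * ‖x‖ ^ 2 + β * ‖y‖ ^ 2 - ‖z‖ ^ 2 := by
        rw [norm_sub_sq_real, norm_sub_sq_real]
        have e4 : α * ⟪x, z⟫ + β * ⟪y, z⟫ = ‖z‖ ^ 2 := by
          rw [← real_inner_self_eq_norm_sq]
          conv_rhs => rw [hz, inner_add_left, inner_smul_left, inner_smul_left]
          simp only [← hz]
          rfl
        linear_combination (-2) * e4 + ‖z‖ ^ 2 * hαβ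
      calc α * (‖x - z‖ ^ 2 / (2 * t)) + β * (‖y - z‖ ^ 2 / (2 * t))
          = (α * ‖x - z‖ ^ 2 + β * ‖y - z‖ ^ 2) / (2 * t) := by ring
        _ = _ := by rw [e3]; ring
    have h3a := mul_le_mul_of_nonneg_left h3.le hα
    have h3b := mul_le_mul_of_nonneg_left h3'.le hβ
    have : ε = α * ε + β * ε := by rw [← add_mul, hαβ, one_mul]
    linarith
  · rintro (i | i)
    · exact mul_nonneg hα (h0 i)
    · exact mul_nonneg hβ (h0' i)
  · rw [Fintype.sum_sum_type]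
    simp only [Sum.elim_inl, Sum.elim_inr, ← Finset.mul_sum, h1, h1', mul_one, hαβ]
  · rw [Fintype.sum_sum_type]
    simp only [Sum.elim_inl, Sum.elim_inr, mul_smul, ← Finset.smul_sum, smul_add,
      Finset.sum_add_distrib, ← Finset.sum_smul, h1, h1', h2, h2', one_smul, smul_zero, add_zero]
    exact hz.symm

/-! ### supergradients, duality, continuity (finite dimension) -/

section FinDim

variable [FiniteDimensional ℝ V]

theorem exists_supergradient {F : V → ℝ} (hF : ConcaveOn ℝ univ F) (x0 : V) :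
    ∃ q : V, ∀ y, F y ≤ F x0 + ⟪q, y - x0⟫ := by
  have hcont : Continuous F := continuousOn_univ.mp (hF.continuousOn isOpen_univ)
  set A : Set (V × ℝ) := {p | p.2 < F p.1} with hA
  have hAo : IsOpen A := isOpen_lt continuous_snd (hcont.comp continuous_fst)
  have hAc : Convex ℝ A := by
    rintro ⟨x, r⟩ hx ⟨y, s⟩ hy α β hα hβ hαβ
    simp only [hA, mem_ofPred_eq] at hx hy ⊢
    have := hF.2 (mem_univ x) (mem_univ y) hα hβ hαβ
    simp only [smul_eq_mul] at this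
    refine lt_of_lt_of_le ?_ this
    simp only [Prod.smul_mk, Prod.mk_add_mk, smul_eq_mul]
    rcases hα.eq_or_lt with h | h
    · have hβ1 : β = 1 := by linarith
      rw [← h, hβ1]; simpa using hy
    · have h1 : α * r < α * F x := mul_lt_mul_of_pos_left hx h
      have h2 : β * s ≤ β * F y := mul_le_mul_of_nonneg_left hy.le hβ
      linarith
  have hp : ((x0, F x0) : V × ℝ) ∉ A := by simp [hA]
  obtain ⟨Λ, hΛ⟩ := geometric_hahn_banach_open_point hAc hAo hp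
  set c : ℝ := Λ (0, 1) with hc
  set L : V →L[ℝ] ℝ := Λ.comp (ContinuousLinearMap.inl ℝ V ℝ) with hL
  have hdec : ∀ (x : V) (r : ℝ), Λ (x, r) = L x + r * c := by
    intro x r
    have : ((x, r) : V × ℝ) = (x, 0) + r • ((0 : V), (1 : ℝ)) := by simp
    rw [this, map_add, map_smul, smul_eq_mul]
    rfl
  have hcpos : 0 < c := by
    have := hΛ (x0, F x0 - 1) (by simp [hA])
    rw [hdec, hdec] at this
    linarith
  have hle : ∀ y, L y + F y * c ≤ L x0 + F x0 * c := by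
    intro y
    refine le_of_forall_pos_le_add fun ε hε => ?_
    have := hΛ (y, F y - ε / c) (by simp [hA]; positivity)
    rw [hdec, hdec] at this
    have e : (F y - ε / c) * c = F y * c - ε := by field_simp
    rw [e] at this
    linarith
  refine ⟨-(c⁻¹ • (InnerProductSpace.toDual ℝ V).symm L), fun y => ?_⟩
  rw [inner_neg_left, inner_smul_left, InnerProductSpace.toDual_symm_apply]
  simp only [map_sub, conj_trivial]
  have h := hle y
  have : (F y - F x0) * c ≤ L x0 - L y := by linarith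
  have h2 : F y - F x0 ≤ (L x0 - L y) / c := by rwa [le_div_iff₀ hcpos]
  have h3 : (L x0 - L y) / c = -(c⁻¹ * (L y - L x0)) := by field_simp; ring
  linarith

/-- supergradient of the envelope = affine-quadratic majorant of `f`, touching at `x` -/
theorem exists_majorant {f : V → ℝ} (hf : SubQ f) {t : ℝ} (ht : 0 < t) (x : V) :
    ∃ q : V, ∀ b, Uf t f b ≤ Uf t f x + ⟪q, b - x⟫ + ‖b - x‖ ^ 2 / (2 * t) := by
  obtain ⟨q, hq⟩ := exists_supergradient (concaveOn_Uf hf ht) x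
  refine ⟨q + t⁻¹ • x, fun b => ?_⟩
  have := hq b
  have e : ‖b - x‖ ^ 2 / (2 * t) = ‖b‖ ^ 2 / (2 * t) - ⟪t⁻¹ • x, b - x⟫ - ‖x‖ ^ 2 / (2 * t) := by
    rw [norm_sub_sq_real, inner_smul_left, inner_sub_right, real_inner_self_eq_norm_sq,
      real_inner_comm x b]
    simp only [conj_trivial]
    field_simp
    ring
  rw [inner_add_left, e]
  linarith

/-- duality: the envelope is the smallest value at `x` of an affine-quadratic majorant -/
theorem Uf_eq_sInf {f : V → ℝ} (hf : SubQ f) {t : ℝ} (ht : 0 < t) (x : V) :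
    Uf t f x = sInf {a : ℝ | ∃ q : V, ∀ y, f y ≤ a + ⟪q, y - x⟫ + ‖y - x‖ ^ 2 / (2 * t)} := by
  obtain ⟨q, hq⟩ := exists_majorant hf ht x
  have hmem : Uf t f x ∈ {a : ℝ | ∃ q : V, ∀ y, f y ≤ a + ⟪q, y - x⟫ + ‖y - x‖ ^ 2 / (2 * t)} :=
    ⟨q, fun y => (le_Uf hf ht y).trans (hq y)⟩
  have hlb : ∀ a ∈ {a : ℝ | ∃ q : V, ∀ y, f y ≤ a + ⟪q, y - x⟫ + ‖y - x‖ ^ 2 / (2 * t)},
      Uf t f x ≤ a := by
    rintro a ⟨q, hq⟩
    exact Uf_le_of_majorant (q := q) fun b => by linarith [hq b]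
  exact le_antisymm (le_csInf ⟨_, hmem⟩ hlb) (csInf_le ⟨_, hlb⟩ hmem)

theorem continuous_Uf {f : V → ℝ} (hf : SubQ f) {t : ℝ} (ht : 0 < t) : Continuous (Uf t f) := by
  have h := continuousOn_univ.mp ((concaveOn_Uf hf ht).continuousOn isOpen_univ)
  have h2 : Continuous fun x : V => (Uf t f x - ‖x‖ ^ 2 / (2 * t)) + ‖x‖ ^ 2 / (2 * t) :=
    h.add (by fun_prop)
  simpa using h2

end FinDim

end Crest.Agent.R094.EnvU
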