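import Crest.Agent.R094.Iface
import Crest.Agent.R094.SolBasic
import Crest.Agent.R094.Env
import Crest.Agent.R094.EnvU

/-!
Row 94, route 7921, steps (a1), (a2), (a4): `EnvSub_stmt`, `Extremal_stmt` and the basic API of the
envelope `env σ f`, `Uf w` (owner helper524).
-/

set_option autoImplicit false
set_option linter.unusedSectionVars false

namespace Crest.Agent.R094.GK

open Sol Set Filter Topology

variable {V : Type*} [NormedAddCommGroup V] [InnerProductSpace ℝ V]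

/-! ### growth -/

theorem rpow32 {a : ℝ} (ha : 0 < a) : a ^ (3 / 2 : ℝ) = a * √a := by
  have : (3 / 2 : ℝ) = 1 + 1 / 2 := by norm_num
  rw [this, Real.rpow_add ha, Real.rpow_one, Real.sqrt_eq_rpow]

theorem rpow32_le {a δ : ℝ} (ha : 0 < a) (hδ : 0 < δ) :
    a ^ (3 / 2 : ℝ) ≤ 2 * δ * a ^ 2 + 1 / (64 * δ ^ 3) := by
  rw [rpow32 ha]
  obtain ⟨b, hb0, hb⟩ : ∃ b : ℝ, 0 ≤ b ∧ √a = b := ⟨√a, Real.sqrt_nonneg _, rfl⟩
  have hb2 : b ^ 2 = a := by rw [← hb, Real.sq_sqrt ha.le]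
  rw [hb]
  have h1 : a * b ≤ δ * a ^ 2 + a / (4 * δ) := by
    have e : δ * a ^ 2 + a / (4 * δ) - a * b = a * ((2 * δ * b - 1) ^ 2 / (4 * δ)) := by
      rw [← hb2]; field_simp; ring
    have : 0 ≤ a * ((2 * δ * b - 1) ^ 2 / (4 * δ)) := by positivity
    linarith
  have h2 : a / (4 * δ) ≤ δ * a ^ 2 + 1 / (64 * δ ^ 3) := by
    have e : δ * a ^ 2 + 1 / (64 * δ ^ 3) - a / (4 * δ) = δ * (a - 1 / (8 * δ ^ 2)) ^ 2 := by
      field_simp; ring
    have : 0 ≤ δ * (a - 1 / (8 * δ ^ 2)) ^ 2 := by positivity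
    linarith
  linarith

theorem nrm_growth (K' R ε : ℝ) (hε : 0 < ε) : ∃ C : ℝ, 0 ≤ C ∧ ∀ w : V → ℝ → ℝ, Nrm K' w →
    ∀ y t, |t| ≤ R → |w y t| ≤ ε * ‖y‖ ^ 2 + C := by
  set K1 : ℝ := |K'| + 1 with hK1
  have hK1p : 0 < K1 := by positivity
  set R1 : ℝ := |R| with hR1
  set δ : ℝ := ε / (4 * K1) with hδ
  have hδp : 0 < δ := by positivity
  refine ⟨K1 * (4 * δ * (1 + R1) ^ 2 + 1 / (64 * δ ^ 3)), by positivity, fun w hw y t ht => ?_⟩
  have h0 : 0 ≤ (1 + (‖y‖ + |t|)) ^ (3 / 2 : ℝ) := by positivity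
  have h1 : |w y t| ≤ K1 * (1 + (‖y‖ + |t|)) ^ (3 / 2 : ℝ) :=
    (hw y t).trans (mul_le_mul_of_nonneg_right (by linarith [le_abs_self K']) h0)
  have ht' : |t| ≤ R1 := ht.trans (le_abs_self _)
  have h2 : (1 + (‖y‖ + |t|)) ^ (3 / 2 : ℝ) ≤ (1 + (‖y‖ + R1)) ^ (3 / 2 : ℝ) :=
    Real.rpow_le_rpow (by positivity) (by linarith) (by norm_num)
  have h3 := rpow32_le (a := 1 + (‖y‖ + R1)) (by positivity) hδp
  have h4 : (1 + (‖y‖ + R1)) ^ 2 ≤ 2 * ‖y‖ ^ 2 + 2 * (1 + R1) ^ 2 := by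
    nlinarith [sq_nonneg (‖y‖ - (1 + R1))]
  have h5 : 2 * δ * (1 + (‖y‖ + R1)) ^ 2 ≤ 2 * δ * (2 * ‖y‖ ^ 2 + 2 * (1 + R1) ^ 2) :=
    mul_le_mul_of_nonneg_left h4 (by positivity)
  calc |w y t| ≤ K1 * (1 + (‖y‖ + |t|)) ^ (3 / 2 : ℝ) := h1
    _ ≤ K1 * (2 * δ * (2 * ‖y‖ ^ 2 + 2 * (1 + R1) ^ 2) + 1 / (64 * δ ^ 3)) :=
        mul_le_mul_of_nonneg_left (by linarith) hK1p.le
    _ = (K1 * 4 * δ) * ‖y‖ ^ 2 + K1 * (4 * δ * (1 + R1) ^ 2 + 1 / (64 * δ ^ 3)) := by ring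
    _ = _ := by
        have : K1 * 4 * δ = ε := by rw [hδ]; field_simp
        rw [this]

theorem Nrm.subQ {K' : ℝ} {w : V → ℝ → ℝ} (h : Nrm K' w) (t : ℝ) :
    Env.SubQ (fun y => w y t) := by
  intro ε hε
  obtain ⟨C, -, hC⟩ := nrm_growth (V := V) K' |t| ε hε
  exact ⟨C, fun a => hC w h a t le_rfl⟩

theorem slice_subQ {w : V → ℝ → ℝ} (h : Grow w) (t : ℝ) : Env.SubQ (fun y => w y t) := by
  intro ε hε
  obtain ⟨C, hC⟩ := h |t| ε hε
  exact ⟨C, fun a => hC a t le_rfl⟩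

theorem slice_cont {w : V → ℝ → ℝ} (h : Continuous (fun p : V × ℝ => w p.1 p.2)) (t : ℝ) :
    Continuous (fun y => w y t) := h.comp (continuous_id.prodMk continuous_const)

/-! ### identification of the envelopes -/

theorem supc_eq_Qs (s : ℝ) (f : V → ℝ) (x : V) : supc s f x = Env.Qs s f x := by
  unfold supc Env.Qs
  exact iSup_congr fun y => by rw [norm_sub_rev]

theorem env_eq_UEnv (σ : ℝ) (f : V → ℝ) (x : V) : env σ f x = Env.UEnv σ f x := by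
  unfold env infc Env.UEnv
  exact iInf_congr fun y => by rw [supc_eq_Qs]

theorem Uf_eq (w : V → ℝ → ℝ) (x : V) (t : ℝ) : Uf w x t = env t (fun y => w y t) x := rfl

variable [FiniteDimensional ℝ V]

theorem envU_eq_env {f : V → ℝ} (hfc : Continuous f) (hf : Env.SubQ f) {t : ℝ} (ht : 0 < t)
    (x : V) : EnvU.Uf t f x = env t f x := by
  rw [env_eq_UEnv]
  apply le_antisymm
  · refine csSup_le (EnvU.vals_nonempty t f x) ?_
    rintro r ⟨ι, _, μ, b, h0, h1, h2, rfl⟩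
    exact Env.sum_le_UEnv hf ht h0 h1 h2
  · obtain ⟨y, ι, _, θ, a, h0, h1, h2, -, h3, -⟩ := Env.exists_contact_UEnv hfc hf ht x
    rw [h3]
    exact EnvU.combo_le_Uf (f := f) hf ht h0 h1 h2

/-! ### basic API -/

theorem self_le_env {f : V → ℝ} (hf : Env.SubQ f) {σ : ℝ} (hσ : 0 < σ) (x : V) :
    f x ≤ env σ f x := by
  rw [env_eq_UEnv]; exact Env.self_le_UEnv hf hσ x

theorem env_le_supc {f : V → ℝ} (hf : Env.SubQ f) {σ : ℝ} (hσ : 0 < σ) (x : V) :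
    env σ f x ≤ supc σ f x := by
  rw [env_eq_UEnv, supc_eq_Qs]; exact Env.UEnv_le_Qs hf hσ x

theorem le_Uf {w : V → ℝ → ℝ} (h : Grow w) {t : ℝ} (ht : 0 < t) (x : V) : w x t ≤ Uf w x t :=
  self_le_env (slice_subQ h t) ht x

theorem Uf_le_supc {w : V → ℝ → ℝ} (h : Grow w) {t : ℝ} (ht : 0 < t) (x : V) :
    Uf w x t ≤ supc t (fun y => w y t) x :=
  env_le_supc (slice_subQ h t) ht x

/-- `|.|²/2σ`-semiconcavity of the envelope -/
theorem concaveOn_env {f : V → ℝ} (hf : Env.SubQ f) {σ : ℝ} (hσ : 0 < σ) :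
    ConcaveOn ℝ univ (fun x => env σ f x - ‖x‖ ^ 2 / (2 * σ)) := by
  simp only [env_eq_UEnv]
  exact Env.UEnv_concave hf hσ

/-- existence of semiconcave supergradients -/
theorem exists_supGrad_env {f : V → ℝ} (hfc : Continuous f) (hf : Env.SubQ f) {σ : ℝ} (hσ : 0 < σ)
    (x : V) : ∃ q : V, SupGrad σ (env σ f) x q := by
  obtain ⟨y, ι, _, θ, a, h0, h1, h2, -, -, h3⟩ := Env.exists_contact_UEnv hfc hf hσ x
  refine ⟨σ⁻¹ • (x - y), fun ξ => ?_⟩
  rw [env_eq_UEnv, env_eq_UEnv]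
  exact Env.UEnv_le_of_contact hf hσ h3 ξ

theorem exists_supGrad_Uf {w : V → ℝ → ℝ} (h : IsSol w) {t : ℝ} (ht : 0 < t) (x : V) :
    ∃ q : V, SupGrad t (fun y => Uf w y t) x q :=
  exists_supGrad_env (slice_cont h.cont t) (slice_subQ h.grow t) ht x

theorem continuous_env {f : V → ℝ} (hfc : Continuous f) (hf : Env.SubQ f) {σ : ℝ} (hσ : 0 < σ) :
    Continuous (env σ f) := by
  have : env σ f = Env.UEnv σ f := funext fun x => env_eq_UEnv σ f x
  rw [this]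
  exact Env.continuous_UEnv hfc hf hσ

theorem env_mono {f g : V → ℝ} (hf : Env.SubQ f) (hg : Env.SubQ g) {σ : ℝ} (hσ : 0 < σ)
    (h : ∀ a, f a ≤ g a) (x : V) : env σ f x ≤ env σ g x := by
  rw [env_eq_UEnv, env_eq_UEnv]; exact Env.UEnv_mono hf hg hσ h x

/-- general covariance: `f' y = (f (x₀ + τ y) - c - τ⟨p,y⟩)/τ` -/
theorem env_affine {f : V → ℝ} (hfc : Continuous f) (hf : Env.SubQ f) {τ σ : ℝ} (hτ : 0 < τ)
    (hσ : 0 < σ) (x₀ p : V) (c : ℝ) (x : V) :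
    env σ (fun y => (f (x₀ + τ • y) - c - τ * inner ℝ p y) / τ) x =
      (env (τ * σ) f (x₀ + τ • x) - c - τ * inner ℝ p x) / τ := by
  have hg : Env.SubQ (fun a => f (a + x₀)) := hf.comp_add x₀
  have hgc : Continuous (fun a => f (a + x₀)) := by fun_prop
  have hh : Env.SubQ (fun a => τ⁻¹ * (fun a => f (a + x₀)) (τ • a)) := by
    intro ε hε
    obtain ⟨C, hC⟩ := hg (ε / τ) (by positivity)
    refine ⟨τ⁻¹ * C, fun a => ?_⟩
    rw [abs_mul, abs_of_pos (inv_pos.mpr hτ)]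
    have h1 := mul_le_mul_of_nonneg_left (hC (τ • a)) (inv_pos.mpr hτ).le
    refine h1.trans (le_of_eq ?_)
    rw [norm_smul, Real.norm_eq_abs, abs_of_pos hτ]
    field_simp
  have e1 : (fun y => (f (x₀ + τ • y) - c - τ * inner ℝ p y) / τ) =
      fun y => ((fun a => τ⁻¹ * (fun a => f (a + x₀)) (τ • a)) y + inner ℝ (-p) y) + (-(c / τ)) := by
    funext y
    simp only [inner_neg_left, add_comm x₀]
    field_simp
    ring
  rw [env_eq_UEnv, env_eq_UEnv, e1, Env.UEnv_add_const (hh.add_linear (-p)) hσ,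
    Env.UEnv_add_linear hh hσ, Env.UEnv_scale (fun a => f (a + x₀)) (inv_pos.mpr hτ) hτ hσ,
    Env.UEnv_comp_add]
  have e2 : τ⁻¹ * τ ^ 2 * σ = τ * σ := by field_simp
  rw [e2, inner_neg_left, add_comm x₀]
  field_simp
  ring

/-- covariance of the envelope under `nrmz` (arbitrary slice) -/
theorem env_nrmz {w : V → ℝ → ℝ} (hw : IsSol w) (x₀ : V) (t₀ : ℝ) {τ σ : ℝ} (hτ : 0 < τ)
    (hσ : 0 < σ) (p : V) (b : ℝ) (x : V) (t : ℝ) :
    env σ (fun y => nrmz w x₀ t₀ τ p b y t) x =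
      (env (τ * σ) (fun y => w y (t₀ + τ * t)) (x₀ + τ • (x + t • p)) - w x₀ t₀
        - τ * inner ℝ p x - τ * b * t) / τ := by
  have h := env_affine (slice_cont hw.cont (t₀ + τ * t)) (slice_subQ hw.grow (t₀ + τ * t)) hτ hσ
    (x₀ + τ • t • p) p (w x₀ t₀ + τ * b * t) x
  have e1 : (fun y => nrmz w x₀ t₀ τ p b y t) = fun y =>
      ((fun y => w y (t₀ + τ * t)) (x₀ + τ • t • p + τ • y) - (w x₀ t₀ + τ * b * t)
        - τ * inner ℝ p y) / τ := by
    funext y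
    unfold nrmz
    have : x₀ + τ • (y + t • p) = x₀ + τ • t • p + τ • y := by rw [smul_add]; abel
    rw [this]
    ring
  rw [e1, h]
  have : x₀ + τ • (x + t • p) = x₀ + τ • t • p + τ • x := by rw [smul_add]; abel
  rw [this]
  ring

/-- covariance of `Uf` when the base point is at the vertex time `0` -/
theorem Uf_nrmz {w : V → ℝ → ℝ} (hw : IsSol w) (x₀ : V) {τ : ℝ} (hτ : 0 < τ) (p : V) (b : ℝ)
    (x : V) {t : ℝ} (ht : 0 < t) :
    Uf (nrmz w x₀ 0 τ p b) x t =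
      (Uf w (x₀ + τ • (x + t • p)) (τ * t) - w x₀ 0 - τ * inner ℝ p x - τ * b * t) / τ := by
  rw [Uf_eq, env_nrmz hw x₀ 0 hτ ht, Uf_eq, zero_add]

/-! ### joint convergence along an ultrafilter -/

theorem JC.unif {ι : Type*} {F : Ultrafilter ι} {w : ι → V → ℝ → ℝ} {W : V → ℝ → ℝ}
    (h : JC F w W) (hW : Continuous (fun p : V × ℝ => W p.1 p.2)) {t : ι → ℝ} {t₀ : ℝ}
    (ht : Tendsto t F (𝓝 t₀)) (R ε : ℝ) (hε : 0 < ε) :
    ∀ᶠ k in (F : Filter ι), ∀ a : V, ‖a‖ ≤ R → |w k a (t k) - W a t₀| < ε := by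
  by_contra hcon
  rw [← Ultrafilter.eventually_not] at hcon
  push Not at hcon
  classical
  let a : ι → V := fun k =>
    if hk : ∃ a : V, ‖a‖ ≤ R ∧ ε ≤ |w k a (t k) - W a t₀| then hk.choose else 0
  have ha : ∀ᶠ k in (F : Filter ι), ‖a k‖ ≤ R ∧ ε ≤ |w k (a k) (t k) - W (a k) t₀| := by
    filter_upwards [hcon] with k hk
    have := hk.choose_spec
    simp only [a, dif_pos hk]
    exact this
  have hball : ∀ᶠ k in (F : Filter ι), a k ∈ Metric.closedBall (0 : V) R := by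
    filter_upwards [ha] with k hk
    simpa using hk.1
  obtain ⟨x, -, hx⟩ := (isCompact_closedBall (0 : V) R).ultrafilter_le_nhds (F.map a)
    (by rw [le_principal_iff]; exact hball)
  have hx' : Tendsto a F (𝓝 x) := hx
  have l1 := h a t x t₀ hx' ht
  have l2 : Tendsto (fun k => W (a k) t₀) F (𝓝 (W x t₀)) :=
    (hW.tendsto (x, t₀)).comp (hx'.prodMk_nhds tendsto_const_nhds)
  have l3 := (l1.sub l2).abs
  rw [sub_self, abs_zero] at l3
  have l4 : ∀ᶠ k in (F : Filter ι), |w k (a k) (t k) - W (a k) t₀| < ε :=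
    l3.eventually (gt_mem_nhds hε)
  obtain ⟨k, hk1, hk2⟩ := (l4.and ha).exists
  linarith [hk2.2]

theorem JC.conv {ι : Type*} {F : Ultrafilter ι} {w : ι → V → ℝ → ℝ} {W : V → ℝ → ℝ} {K' : ℝ}
    (h : JC F w W) (hW : Continuous (fun p : V × ℝ => W p.1 p.2))
    (hn : ∀ᶠ k in (F : Filter ι), Nrm K' (w k)) (hWn : Grow W) {t : ι → ℝ} {t₀ : ℝ}
    (ht : Tendsto t F (𝓝 t₀)) :
    Env.Conv (F : Filter ι) (fun k y => w k y (t k)) (fun y => W y t₀) where
  unif := fun R ε hε => h.unif hW ht R ε hε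
  subq := hn.mono fun k hk => hk.subQ (t k)
  grow := fun ε hε => by
    obtain ⟨C, -, hC⟩ := nrm_growth (V := V) K' (|t₀| + 1) ε hε
    have hb : ∀ᶠ k in (F : Filter ι), |t k| ≤ |t₀| + 1 :=
      (ht.abs.eventually (gt_mem_nhds (lt_add_one _))).mono fun k hk => le_of_lt hk
    refine ⟨C, ?_⟩
    filter_upwards [hn, hb] with k hk1 hk2 a
    exact hC (w k) hk1 a (t k) hk2
  cont := slice_cont hW t₀
  lim := slice_subQ hWn t₀

/-- joint convergence of the envelopes -/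
theorem JC.env {ι : Type*} {F : Ultrafilter ι} {w : ι → V → ℝ → ℝ} {W : V → ℝ → ℝ} {K' : ℝ}
    (h : JC F w W) (hW : Continuous (fun p : V × ℝ => W p.1 p.2))
    (hn : ∀ᶠ k in (F : Filter ι), Nrm K' (w k)) (hWn : Grow W) {t σ : ι → ℝ} {t₀ σ₀ : ℝ}
    {x : ι → V} {x₀ : V} (ht : Tendsto t F (𝓝 t₀)) (hσ : Tendsto σ F (𝓝 σ₀)) (hσ₀ : 0 < σ₀)
    (hx : Tendsto x F (𝓝 x₀)) :
    Tendsto (fun k => env (σ k) (fun y => w k y (t k)) (x k)) F
      (𝓝 (env σ₀ (fun y => W y t₀) x₀)) := by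
  simp only [env_eq_UEnv]
  exact Env.tendsto_UEnv (h.conv hW hn hWn ht) hσ₀ hσ hx

/-- joint convergence of the sup-convolutions -/
theorem JC.supc {ι : Type*} {F : Ultrafilter ι} {w : ι → V → ℝ → ℝ} {W : V → ℝ → ℝ} {K' : ℝ}
    (h : JC F w W) (hW : Continuous (fun p : V × ℝ => W p.1 p.2))
    (hn : ∀ᶠ k in (F : Filter ι), Nrm K' (w k)) (hWn : Grow W) {t σ : ι → ℝ} {t₀ σ₀ : ℝ}
    {x : ι → V} {x₀ : V} (ht : Tendsto t F (𝓝 t₀)) (hσ : Tendsto σ F (𝓝 σ₀)) (hσ₀ : 0 < σ₀)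
    (hx : Tendsto x F (𝓝 x₀)) :
    Tendsto (fun k => Sol.supc (σ k) (fun y => w k y (t k)) (x k)) F
      (𝓝 (Sol.supc σ₀ (fun y => W y t₀) x₀)) := by
  simp only [supc_eq_Qs]
  exact Env.tendsto_Qs (h.conv hW hn hWn ht) hσ₀ hσ hx

/-- joint convergence of `Uf` -/
theorem JC.Uf {ι : Type*} {F : Ultrafilter ι} {w : ι → V → ℝ → ℝ} {W : V → ℝ → ℝ} {K' : ℝ}
    (h : JC F w W) (hW : Continuous (fun p : V × ℝ => W p.1 p.2))
    (hn : ∀ᶠ k in (F : Filter ι), Nrm K' (w k)) (hWn : Grow W) {t : ι → ℝ} {t₀ : ℝ}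
    {x : ι → V} {x₀ : V} (ht : Tendsto t F (𝓝 t₀)) (ht₀ : 0 < t₀)
    (hx : Tendsto x F (𝓝 x₀)) :
    Tendsto (fun k => GK.Uf (w k) (x k) (t k)) F (𝓝 (GK.Uf W x₀ t₀)) :=
  h.env hW hn hWn ht ht ht₀ hx

/-! ### `EnvSub_stmt` -/

theorem Uf_contOn {w : V → ℝ → ℝ} (hw : IsSol w) :
    ContinuousOn (fun q : V × ℝ => GK.Uf w q.1 q.2) {q | 0 < q.2} := by
  rintro ⟨x₀, t₀⟩ ht₀
  have ht₀' : 0 < t₀ := ht₀
  apply ContinuousAt.continuousWithinAt
  have hconv : Env.Conv (𝓝 ((x₀, t₀) : V × ℝ)) (fun q y => w y q.2) (fun y => w y t₀) := by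
    refine ⟨fun R ε hε => ?_, Eventually.of_forall fun q => slice_subQ hw.grow _, fun ε hε => ?_,
      slice_cont hw.cont t₀, slice_subQ hw.grow t₀⟩
    · -- uniform continuity on compact sets
      have hK : IsCompact (Metric.closedBall (0 : V) R ×ˢ Metric.closedBall t₀ 1) :=
        (isCompact_closedBall _ _).prod (isCompact_closedBall _ _)
      have hu := hK.uniformContinuousOn_of_continuous hw.cont.continuousOn
      rw [Metric.uniformContinuousOn_iff] at hu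
      obtain ⟨δ, hδ, hδ'⟩ := hu ε hε
      have : ∀ᶠ q : V × ℝ in 𝓝 (x₀, t₀), dist q.2 t₀ < min δ 1 :=
        (continuous_snd.tendsto (x₀, t₀)).eventually (Metric.ball_mem_nhds t₀ (by positivity))
      filter_upwards [this] with q hq a ha
      have h1 := hδ' (a, q.2) ⟨by simpa using ha, by
          simpa using (hq.le.trans (min_le_right _ _))⟩ (a, t₀) ⟨by simpa using ha, by simp⟩ (by
          rw [Prod.dist_eq, dist_self]
          exact max_lt hδ (lt_of_lt_of_le hq (min_le_left _ _)))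
      rwa [Real.dist_eq] at h1
    · obtain ⟨C, hC⟩ := hw.grow (|t₀| + 1) ε hε
      have : ∀ᶠ q : V × ℝ in 𝓝 (x₀, t₀), |q.2| < |t₀| + 1 :=
        (continuous_snd.abs.tendsto (x₀, t₀)).eventually (gt_mem_nhds (lt_add_one _))
      exact ⟨C, this.mono fun q hq a => hC a q.2 hq.le⟩
  have := Env.tendsto_UEnv hconv ht₀' (r := fun q : V × ℝ => q.2) (x := fun q : V × ℝ => q.1)
    (continuous_snd.tendsto _) (continuous_fst.tendsto _)
  simp only [← env_eq_UEnv] at this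
  exact this

theorem Uf_grow {w : V → ℝ → ℝ} (hw : IsSol w) : ∀ R ε : ℝ, 0 < ε → ∃ C, ∀ y t, 0 < t → t ≤ R →
    |GK.Uf w y t| ≤ ε * ‖y‖ ^ 2 + C := by
  intro R ε hε
  rcases le_or_gt R 0 with hR | hR
  · exact ⟨0, fun y t h1 h2 => absurd (h1.trans_le h2) (not_lt.mpr hR)⟩
  set δ : ℝ := min (ε / 2) (1 / (4 * R)) with hδ
  have hδ0 : 0 < δ := by positivity
  obtain ⟨C, hC⟩ := hw.grow R δ hδ0
  refine ⟨C, fun x t ht htR => ?_⟩
  have htabs : |t| ≤ R := by rwa [abs_of_pos ht]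
  have hδε : δ ≤ ε / 2 := min_le_left _ _
  have hδR : δ ≤ 1 / (4 * R) := min_le_right _ _
  rw [abs_le]
  constructor
  · have h1 := le_Uf hw.grow ht x
    have h2 := (abs_le.mp (hC x t htabs)).1
    nlinarith [sq_nonneg ‖x‖]
  · refine (Uf_le_supc hw.grow ht x).trans (supc_le fun y => ?_)
    have h2 := (abs_le.mp (hC y t htabs)).2
    have h1 : ‖y‖ ≤ ‖x - y‖ + ‖x‖ := by
      calc ‖y‖ = ‖x - (x - y)‖ := by rw [sub_sub_cancel]
        _ ≤ ‖x‖ + ‖x - y‖ := norm_sub_le _ _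
        _ = _ := by ring
    have h4 : ‖y‖ ^ 2 ≤ 2 * ‖x - y‖ ^ 2 + 2 * ‖x‖ ^ 2 := by
      have := norm_nonneg y
      nlinarith [sq_nonneg (‖x - y‖ - ‖x‖)]
    have h5 : δ * ‖y‖ ^ 2 ≤ δ * (2 * ‖x - y‖ ^ 2 + 2 * ‖x‖ ^ 2) :=
      mul_le_mul_of_nonneg_left h4 hδ0.le
    have h6 : δ * (2 * ‖x - y‖ ^ 2) ≤ ‖x - y‖ ^ 2 / (2 * t) := by
      have h7 : 1 / (4 * R) ≤ 1 / (4 * t) :=
        one_div_le_one_div_of_le (by positivity) (by linarith)
      calc δ * (2 * ‖x - y‖ ^ 2) ≤ 1 / (4 * t) * (2 * ‖x - y‖ ^ 2) :=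
            mul_le_mul_of_nonneg_right (hδR.trans h7) (by positivity)
        _ = ‖x - y‖ ^ 2 / (2 * t) := by field_simp; ring
    have h7 : δ * (2 * ‖x‖ ^ 2) ≤ ε * ‖x‖ ^ 2 := by nlinarith [sq_nonneg ‖x‖]
    linarith

theorem supc_eq_Hs (s : ℝ) (f : V → ℝ) : supc s f = EnvU.Hs s f := rfl

/-- the Hopf–Lax identity for `env` -/
theorem supc_env {f : V → ℝ} (hfc : Continuous f) (hf : Env.SubQ f) {t δ : ℝ} (ht : 0 < t)
    (hδ : 0 < δ) (x : V) : Sol.supc δ (GK.env (t + δ) f) x = GK.env t (Sol.supc δ f) x := by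
  have h := EnvU.Hs_Uf (f := f) hf ht hδ x
  have e1 : EnvU.Uf (t + δ) f = GK.env (t + δ) f :=
    funext fun y => envU_eq_env hfc hf (by positivity) y
  have hH : Env.SubQ (EnvU.Hs δ f) := EnvU.SubQ.Hs (f := f) hf hδ
  have hHc : Continuous (EnvU.Hs δ f) := by
    have : EnvU.Hs δ f = Env.Qs δ f := funext fun y => supc_eq_Qs δ f y
    rw [this]; exact Env.continuous_Qs hfc hf hδ
  rw [e1, envU_eq_env hHc hH ht] at h
  exact h

theorem Uf_sub {w : V → ℝ → ℝ} (hw : IsSol w) : ∀ (x : V) (t s s' : ℝ), 0 < t → 0 < s → s ≤ s' →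
    T s (GK.Uf w) x t ≤ (1 - s / s') * GK.Uf w x t + s / s' * T s' (GK.Uf w) x t := by
  intro x t s s' ht hs hss
  have hs' : 0 < s' := lt_of_lt_of_le hs hss
  have hT : ∀ r, 0 < r → T r (GK.Uf w) x t = GK.env t (fun y => T r w y t) x := by
    intro r hr
    have h1 : T r (GK.Uf w) x t = Sol.supc r (GK.env (t + r) (fun y => w y (t + r))) x := rfl
    rw [h1, supc_env (slice_cont hw.cont _) (slice_subQ hw.grow _) ht hr]
    rfl
  rw [hT s hs, hT s' hs']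
  set α := 1 - s / s' with hα
  set β := s / s' with hβ
  have hβ1 : β ≤ 1 := by rw [hβ, div_le_one hs']; exact hss
  have hβ0 : 0 ≤ β := by positivity
  have hα0 : 0 ≤ α := by rw [hα]; linarith
  have hαβ : α + β = 1 := by rw [hα]; ring
  have q0 : Env.SubQ (fun y => w y t) := slice_subQ hw.grow t
  have c0 := slice_cont hw.cont t
  have qT : ∀ r, 0 < r → Env.SubQ (fun y => T r w y t) := fun r hr =>
    EnvU.SubQ.Hs (f := fun y => w y (t + r)) (slice_subQ hw.grow _) hr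
  have cT : ∀ r, 0 < r → Continuous (fun y => T r w y t) := fun r hr => by
    have : (fun y => T r w y t) = Env.Qs r (fun y => w y (t + r)) :=
      funext fun y => supc_eq_Qs r _ y
    rw [this]; exact Env.continuous_Qs (slice_cont hw.cont _) (slice_subQ hw.grow _) hr
  have qC : Env.SubQ (fun y => α * w y t + β * T s' w y t) := by
    intro ε hε
    obtain ⟨C1, h1⟩ := q0 ε hε
    obtain ⟨C2, h2⟩ := qT s' hs' ε hε
    refine ⟨α * C1 + β * C2, fun a => ?_⟩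
    calc |α * w a t + β * T s' w a t| ≤ |α * w a t| + |β * T s' w a t| := abs_add_le _ _
      _ = α * |w a t| + β * |T s' w a t| := by
          rw [abs_mul, abs_mul, abs_of_nonneg hα0, abs_of_nonneg hβ0]
      _ ≤ α * (ε * ‖a‖ ^ 2 + C1) + β * (ε * ‖a‖ ^ 2 + C2) :=
          add_le_add (mul_le_mul_of_nonneg_left (h1 a) hα0) (mul_le_mul_of_nonneg_left (h2 a) hβ0)
      _ = (α + β) * (ε * ‖a‖ ^ 2) + (α * C1 + β * C2) := by ring
      _ = _ := by rw [hαβ, one_mul]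
  have h1 : GK.env t (fun y => T s w y t) x ≤
      GK.env t (fun y => α * w y t + β * T s' w y t) x :=
    env_mono (qT s hs) qC ht (fun y => hw.sub y t s s' hs hss) x
  have h2 := EnvU.Uf_convex (f := fun y => w y t) (g := fun y => T s' w y t) q0 (qT s' hs') ht hα0
    hβ0 hαβ x
  rw [envU_eq_env (by exact (continuous_const.mul c0).add (continuous_const.mul (cT s' hs'))) qC ht,
    envU_eq_env c0 q0 ht, envU_eq_env (cT s' hs') (qT s' hs') ht] at h2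
  exact h1.trans h2

/-- (524, a1+a2) -/
theorem EnvSub : EnvSub_stmt V := fun _ _ hw =>
  ⟨Uf_contOn hw.sol, Uf_grow hw.sol, Uf_sub hw.sol⟩

/-! ### `Extremal_stmt` -/

theorem nrm_nrmz {K : ℝ} {w : V → ℝ → ℝ} {x₀ : V} {t₀ τ : ℝ} {p : V} {b : ℝ} (hτ : 0 < τ)
    (h : FD K w x₀ t₀ τ p b) : Nrm K (nrmz w x₀ t₀ τ p b) := by
  intro x t
  have h1 := h (τ • x) (τ * t)
  have e1 : x₀ + (τ * t) • p + τ • x = x₀ + τ • (x + t • p) := by
    rw [smul_add, smul_smul]; abel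
  have e2 : (‖τ • x‖ + |τ * t|) / τ = ‖x‖ + |t| := by
    rw [norm_smul, Real.norm_eq_abs, abs_mul, abs_of_pos hτ]
    field_simp
  rw [e1, e2, inner_smul_right] at h1
  unfold nrmz
  rw [abs_div, abs_of_pos hτ, div_le_iff₀ hτ]
  have e3 : w (x₀ + τ • (x + t • p)) (t₀ + τ * t) - w x₀ t₀ - τ * inner ℝ p x - τ * b * t =
      w (x₀ + τ • (x + t • p)) (t₀ + τ * t) - w x₀ t₀ - τ * inner ℝ p x - b * (τ * t) := by ring
  rw [e3]
  calc _ ≤ K * τ * (1 + (‖x‖ + |t|)) ^ (3 / 2 : ℝ) := h1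
    _ = _ := by ring

/-- defect at the origin with `σ = 1` -/
noncomputable def dft (w : V → ℝ → ℝ) : ℝ := GK.env 1 (fun y => w y 0) 0 - w 0 0

theorem dft_nrmz {w : V → ℝ → ℝ} (hw : IsSol w) (x₀ : V) (t₀ : ℝ) {τ : ℝ} (hτ : 0 < τ)
    (p : V) (b : ℝ) : dft (nrmz w x₀ t₀ τ p b) =
      (GK.env τ (fun y => w y t₀) x₀ - w x₀ t₀) / τ := by
  unfold dft
  rw [env_nrmz hw x₀ t₀ hτ one_pos]
  simp [nrmz]

theorem Extremal (hC : Compact_stmt V) (hN : ClsNrmz_stmt V) : Extremal_stmt V := by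
  intro K
  by_cases hex : ∃ w : V → ℝ → ℝ, Cls K w
  swap
  · left
    intro w hw
    exact absurd ⟨w, hw⟩ hex
  set S : Set ℝ := {d | ∃ w : V → ℝ → ℝ, Cls K w ∧ Nrm K w ∧ d = dft w} with hS
  -- every defect is a normalised defect
  have hred : ∀ w : V → ℝ → ℝ, Cls K w → ∀ (x : V) (t σ : ℝ), 0 < σ →
      (GK.env σ (fun y => w y t) x - w x t) / σ ∈ S := by
    intro w hw x t σ hσ
    obtain ⟨p, b, hpb⟩ := hw.flat x t σ hσ
    exact ⟨nrmz w x t σ p b, hN K w hw x t σ p b hσ, nrm_nrmz hσ hpb,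
      (dft_nrmz hw.sol x t hσ p b).symm⟩
  have hSne : S.Nonempty := by
    obtain ⟨w, hw⟩ := hex
    exact ⟨_, hred w hw 0 0 1 one_pos⟩
  have hSbdd : BddAbove S := by
    obtain ⟨C, hC0, hC⟩ := nrm_growth (V := V) K 0 (1 / 2) (by norm_num)
    refine ⟨C + C, ?_⟩
    rintro d ⟨w, hw, hwn, rfl⟩
    unfold dft
    have h1 : GK.env 1 (fun y => w y 0) 0 ≤ C := by
      refine (env_le_supc (hwn.subQ 0) one_pos 0).trans (supc_le fun y => ?_)
      have := (abs_le.mp (hC w hwn y 0 (by simp))).2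
      rw [zero_sub, norm_neg]
      linarith
    have h2 := (abs_le.mp (hC w hwn 0 0 (by simp))).1
    simp only [norm_zero, ne_eq, OfNat.ofNat_ne_zero, not_false_eq_true, zero_pow, mul_zero,
      zero_add] at h2
    linarith
  set κ := sSup S with hκ
  have hle : ∀ w : V → ℝ → ℝ, Cls K w → ∀ (x : V) (t σ : ℝ), 0 < σ →
      GK.env σ (fun y => w y t) x ≤ w x t + κ * σ := by
    intro w hw x t σ hσ
    have h := le_csSup hSbdd (hred w hw x t σ hσ)
    rw [div_le_iff₀ hσ] at h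
    linarith
  rcases le_or_gt κ 0 with hk | hk
  · left
    intro w hw x t σ hσ
    apply le_antisymm
    · have := hle w hw x t σ hσ
      nlinarith
    · exact self_le_env (slice_subQ hw.sol.grow t) hσ x
  · right
    refine ⟨κ, hk, hle, ?_⟩
    -- maximising sequence
    have hseq : ∀ n : ℕ, ∃ w : V → ℝ → ℝ, Cls K w ∧ Nrm K w ∧ κ - 1 / (n + 1) < dft w := by
      intro n
      obtain ⟨d, ⟨w, h1, h2, rfl⟩, h3⟩ := exists_lt_of_lt_csSup hSne
        (show κ - 1 / ((n : ℝ) + 1) < sSup S by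
          have : (0 : ℝ) < 1 / ((n : ℝ) + 1) := by positivity
          linarith)
      exact ⟨w, h1, h2, h3⟩
    choose w hw1 hw2 hw3 using hseq
    obtain ⟨W, hW1, hW2, hJC⟩ := hC (hyperfilter ℕ) K K w (Eventually.of_forall hw1)
      (Eventually.of_forall hw2)
    have hlim : Tendsto (fun n => dft (w n)) (hyperfilter ℕ) (𝓝 (dft W)) := by
      unfold dft
      refine Tendsto.sub ?_ ?_
      · exact hJC.env hW1.sol.cont (Eventually.of_forall hw2) hW1.sol.grow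
          (t := fun _ => 0) (σ := fun _ => 1) (x := fun _ => 0)
          tendsto_const_nhds tendsto_const_nhds one_pos tendsto_const_nhds
      · exact hJC (fun _ => 0) (fun _ => 0) 0 0 tendsto_const_nhds tendsto_const_nhds
    have hlim2 : Tendsto (fun n : ℕ => κ - 1 / ((n : ℝ) + 1)) (hyperfilter ℕ) (𝓝 (κ - 0)) :=
      (tendsto_const_nhds.sub tendsto_one_div_add_atTop_nhds_zero_nat).mono_left
        Nat.hyperfilter_le_atTop
    have hge : κ ≤ dft W := by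
      have := le_of_tendsto_of_tendsto hlim2 hlim (Eventually.of_forall fun n => (hw3 n).le)
      simpa using this
    have hle' : dft W ≤ κ := le_csSup hSbdd ⟨W, hW1, hW2, rfl⟩
    have heq : dft W = κ := le_antisymm hle' hge
    refine ⟨nrmz W 0 (-1) 1 0 0, 0, hN K W hW1 0 (-1) 1 0 0 one_pos, ?_⟩
    rw [Uf_eq, env_nrmz hW1.sol 0 (-1) one_pos one_pos]
    unfold dft at heq
    simp only [mul_one, neg_add_cancel, smul_zero, add_zero, inner_zero_right, mul_zero, sub_zero,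
      div_one, nrmz, one_smul, zero_mul, zero_add]
    linarith

end Crest.Agent.R094.GK
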