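import Mathlib
import Crest.Prelude.Def_InfHarmonic

/-!
# Row 94 (S0124): end game

* invariance of `IsInfinityHarmonicOn` under restriction and under `u ↦ a * u (x₀ + L ·) + b`
  where `L` is `r` times a linear isometry;
* `S0124_of_centred`: the statement S0124 from the centred first order expansion at `0`
  for normalised functions.
-/

set_option autoImplicit false

open scoped Gradient RealInnerProductSpace Topology
open Crest.AnalysisR.PDE

namespace Crest.Agent.R094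

variable {ι : Type*} [Fintype ι]

local notation "E" => EuclideanSpace ℝ ι

/-- second derivative form of the infinity Laplacian -/
theorem infLaplacian_eq (φ : EuclideanSpace ℝ ι → ℝ) (z : EuclideanSpace ℝ ι) :
    infLaplacian φ z = fderiv ℝ (fderiv ℝ φ) z (∇ φ z) (∇ φ z) := by
  unfold infLaplacian
  rw [iteratedFDeriv_two_apply]
  simp

/-- the infinity Laplacian only depends on the germ -/
theorem infLaplacian_congr {φ ψ : EuclideanSpace ℝ ι → ℝ} {z : EuclideanSpace ℝ ι}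
    (h : φ =ᶠ[𝓝 z] ψ) : infLaplacian φ z = infLaplacian ψ z := by
  rw [infLaplacian_eq, infLaplacian_eq, h.gradient_eq, (h.fderiv).fderiv_eq]

theorem infHarm_mono {u : EuclideanSpace ℝ ι → ℝ} {Ω Ω' : Set (EuclideanSpace ℝ ι)}
    (hu : IsInfinityHarmonicOn u Ω) (h : Ω' ⊆ Ω) : IsInfinityHarmonicOn u Ω' :=
  ⟨hu.1.mono h, fun z hz φ hφ => hu.2 z (h hz) φ hφ⟩

theorem infHarm_congr {u v : EuclideanSpace ℝ ι → ℝ} {Ω : Set (EuclideanSpace ℝ ι)}
    (hΩ : IsOpen Ω) (hu : IsInfinityHarmonicOn u Ω) (h : ∀ x ∈ Ω, v x = u x) :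
    IsInfinityHarmonicOn v Ω := by
  refine ⟨hu.1.congr h, fun z hz φ hφ => ?_⟩
  have hev : (fun x => v x - φ x) =ᶠ[𝓝 z] (fun x => u x - φ x) := by
    filter_upwards [hΩ.mem_nhds hz] with x hx
    rw [h x hx]
  constructor
  · intro hm
    exact (hu.2 z hz φ hφ).1 ((hev.isLocalMax_iff).1 hm)
  · intro hm
    exact (hu.2 z hz φ hφ).2 ((hev.isLocalMin_iff).1 hm)

/-- gradient of `c * φ (x₀ + L x) + b` for `L = r • R`, `R` a linear isometry equivalence. -/
theorem fderiv_comp_affine {φ : EuclideanSpace ℝ ι → ℝ} (R : E →L[ℝ] E) (x₀ z : E) (c b : ℝ)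
    (h : DifferentiableAt ℝ φ (x₀ + R z)) :
    fderiv ℝ (fun x => c * φ (x₀ + R x) + b) z = c • (fderiv ℝ φ (x₀ + R z)).comp R := by
  have h1 : HasFDerivAt (fun x => x₀ + R x) R z := by
    simpa using (R.hasFDerivAt (x := z)).const_add x₀
  have h2 : HasFDerivAt (fun x => φ (x₀ + R x)) ((fderiv ℝ φ (x₀ + R z)).comp R) z :=
    h.hasFDerivAt.comp z h1
  exact ((h2.const_mul c).add_const b).fderiv

/-- infinity Laplacian of `c * φ (x₀ + r • R x) + b`. -/
theorem infLaplacian_comp_affine {φ : EuclideanSpace ℝ ι → ℝ} (R : E ≃ₗᵢ[ℝ] E) (x₀ z : E)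
    (c b r : ℝ) (h : ContDiffAt ℝ 2 φ (x₀ + r • R z)) :
    infLaplacian (fun x => c * φ (x₀ + r • R x) + b) z
      = c ^ 3 * r ^ 4 * infLaplacian φ (x₀ + r • R z) := by
  set L : E →L[ℝ] E := r • (R.toContinuousLinearEquiv : E →L[ℝ] E) with hL
  have hLa : ∀ x, L x = r • R x := fun x => by simp [hL]
  set ψ : E → ℝ := fun x => c * φ (x₀ + r • R x) + b with hψ
  have hψ' : ψ = fun x => c * φ (x₀ + L x) + b := by
    funext x; simp [hψ, hLa]
  have hcont : ContinuousAt (fun x : E => x₀ + L x) z := by fun_prop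
  have hz : x₀ + L z = x₀ + r • R z := by rw [hLa]
  -- first derivative near z
  have hd : ∀ᶠ y in 𝓝 (x₀ + r • R z), DifferentiableAt ℝ φ y := by
    have := h.eventually (by simp)
    filter_upwards [this] with y hy
    exact hy.differentiableAt (by norm_num)
  have hd1 : ∀ᶠ x in 𝓝 z, fderiv ℝ ψ x = c • (fderiv ℝ φ (x₀ + L x)).comp L := by
    have h2 : ∀ᶠ x in 𝓝 z, DifferentiableAt ℝ φ (x₀ + L x) := by
      rw [← hz] at hd
      exact hcont.eventually hd
    filter_upwards [h2] with x hx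
    rw [hψ']
    exact fderiv_comp_affine L x₀ x c b hx
  have hgz : fderiv ℝ ψ z = c • (fderiv ℝ φ (x₀ + L z)).comp L := hd1.self_of_nhds
  -- second derivative
  have hdd : DifferentiableAt ℝ (fderiv ℝ φ) (x₀ + L z) := by
    rw [hz]
    exact (h.fderiv_right (m := 1) (by norm_num)).differentiableAt (by norm_num)
  have h2z : ∀ v w : E, fderiv ℝ (fderiv ℝ ψ) z v w
      = c * fderiv ℝ (fderiv ℝ φ) (x₀ + L z) (L v) (L w) := by
    intro v w
    have e1 : fderiv ℝ (fderiv ℝ ψ) z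
        = fderiv ℝ (fun x => c • (fderiv ℝ φ (x₀ + L x)).comp L) z :=
      Filter.EventuallyEq.fderiv_eq hd1
    rw [e1]
    have h1 : HasFDerivAt (fun x => x₀ + L x) L z := by
      simpa using (L.hasFDerivAt (x := z)).const_add x₀
    have h3 : HasFDerivAt (fun x => fderiv ℝ φ (x₀ + L x))
        ((fderiv ℝ (fderiv ℝ φ) (x₀ + L z)).comp L) z := hdd.hasFDerivAt.comp z h1
    have h4 : HasFDerivAt (fun x => c • (fderiv ℝ φ (x₀ + L x)).comp L)
        (c • (((ContinuousLinearMap.compL ℝ E E ℝ).flip L).comp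
          ((fderiv ℝ (fderiv ℝ φ) (x₀ + L z)).comp L))) z := by
      have := (((ContinuousLinearMap.compL ℝ E E ℝ).flip L).hasFDerivAt
        (x := fderiv ℝ φ (x₀ + L z))).comp z h3
      exact this.const_smul c
    rw [h4.fderiv]
    simp
  -- gradient
  have hgrad : L (∇ ψ z) = (c * r ^ 2) • ∇ φ (x₀ + L z) := by
    apply ext_inner_right ℝ
    intro w
    -- ⟪L g, w⟫ = r ⟪R g, w⟫ = r ⟪g, R⁻¹ w⟫ = r * fderiv ψ z (R⁻¹ w) = r c fderiv φ (L R⁻¹ w)
    have e1 : ⟪L (∇ ψ z), w⟫ = r * ⟪∇ ψ z, R.symm w⟫ := by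
      rw [hLa, inner_smul_left]
      have : ⟪R (∇ ψ z), w⟫ = ⟪∇ ψ z, R.symm w⟫ := by
        conv_lhs => rw [← R.apply_symm_apply w]
        rw [R.inner_map_map]
      rw [this]; simp
    rw [e1, inner_gradient_left, hgz, inner_smul_left, inner_gradient_left]
    simp [hLa]
    ring
  rw [infLaplacian_eq, infLaplacian_eq, h2z, hgrad, hz]
  simp
  ring

theorem infLaplacian_eq_zero_of_gradient {φ : EuclideanSpace ℝ ι → ℝ} {z : EuclideanSpace ℝ ι}
    (h : ∇ φ z = 0) : infLaplacian φ z = 0 := by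
  rw [infLaplacian_eq, h]; simp

/-- constants are infinity harmonic -/
theorem isInfinityHarmonicOn_const (b : ℝ) (Ω : Set (EuclideanSpace ℝ ι)) :
    IsInfinityHarmonicOn (fun _ : EuclideanSpace ℝ ι => b) Ω := by
  refine ⟨continuousOn_const, fun z _ φ hφ => ?_⟩
  have hd : DifferentiableAt ℝ φ z := hφ.differentiableAt (by norm_num)
  constructor
  · intro hm
    have hm' : IsLocalMin φ z := by
      filter_upwards [hm] with x hx
      linarith
    have : fderiv ℝ φ z = 0 := hm'.fderiv_eq_zero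
    rw [infLaplacian_eq_zero_of_gradient]
    rw [gradient, this]; simp
  · intro hm
    have hm' : IsLocalMax φ z := by
      filter_upwards [hm] with x hx
      linarith
    have : fderiv ℝ φ z = 0 := hm'.fderiv_eq_zero
    rw [infLaplacian_eq_zero_of_gradient]
    rw [gradient, this]; simp

/-- Invariance of infinity harmonicity under `u ↦ a * u (x₀ + r • R ·) + b`. -/
theorem infHarm_comp_affine {u : EuclideanSpace ℝ ι → ℝ}
    {Ω Ω' : Set (EuclideanSpace ℝ ι)} (hu : IsInfinityHarmonicOn u Ω) (R : E ≃ₗᵢ[ℝ] E)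
    (x₀ : E) (a b : ℝ) {r : ℝ} (hr : 0 < r) (hΩ : ∀ x ∈ Ω', x₀ + r • R x ∈ Ω) :
    IsInfinityHarmonicOn (fun x => a * u (x₀ + r • R x) + b) Ω' := by
  rcases eq_or_ne a 0 with ha | ha
  · subst ha
    simpa using isInfinityHarmonicOn_const b Ω'
  have hTc : Continuous (fun x : E => x₀ + r • R x) := by fun_prop
  refine ⟨?_, fun z hz φ hφ => ?_⟩
  · have h1 : ContinuousOn (fun x : E => u (x₀ + r • R x)) Ω' :=
      hu.1.comp hTc.continuousOn (fun x hx => hΩ x hx)
    exact (continuousOn_const.mul h1).add continuousOn_const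
  set x₁ : E := - (r⁻¹ • R.symm x₀) with hx₁
  set ψ : E → ℝ := fun y => a⁻¹ * φ (x₁ + r⁻¹ • R.symm y) + (-a⁻¹ * b) with hψ
  set Tz : E := x₀ + r • R z with hTz
  have hinv : ∀ y : E, x₀ + r • R (x₁ + r⁻¹ • R.symm y) = y := by
    intro y
    simp only [hx₁, map_add, map_neg, map_smul, LinearIsometryEquiv.apply_symm_apply, smul_add,
      smul_neg, smul_smul, mul_inv_cancel₀ hr.ne', one_smul]
    abel
  have hinv' : x₁ + r⁻¹ • R.symm Tz = z := by
    simp only [hx₁, hTz, map_add, map_smul, LinearIsometryEquiv.symm_apply_apply, smul_add,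
      smul_smul, inv_mul_cancel₀ hr.ne', one_smul]
    abel
  have hφ' : ContDiffAt ℝ 2 φ (x₁ + r⁻¹ • R.symm Tz) := by rwa [hinv']
  have hψc : ContDiffAt ℝ 2 ψ Tz := by
    have h1 : ContDiffAt ℝ 2 (fun y : E => x₁ + r⁻¹ • R.symm y) Tz := by
      have h0 : ContDiff ℝ 2 (fun y : E => R.symm y) := R.symm.toContinuousLinearEquiv.contDiff
      exact (contDiff_const.add (h0.const_smul r⁻¹)).contDiffAt
    have h2 : ContDiffAt ℝ 2 (fun y => φ (x₁ + r⁻¹ • R.symm y)) Tz :=
      ContDiffAt.comp Tz hφ' h1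
    exact (contDiffAt_const.mul h2).add contDiffAt_const
  have hlap : infLaplacian ψ Tz = (a⁻¹) ^ 3 * (r⁻¹) ^ 4 * infLaplacian φ z := by
    have := infLaplacian_comp_affine (φ := φ) R.symm x₁ Tz a⁻¹ (-a⁻¹ * b) r⁻¹ hφ'
    rw [hinv'] at this
    exact this
  have hcomp : ∀ y : E, u y - ψ y = a⁻¹ * ((a * u (x₀ + r • R (x₁ + r⁻¹ • R.symm y)) + b)
      - φ (x₁ + r⁻¹ • R.symm y)) := by
    intro y
    rw [hinv y]
    simp only [hψ]
    field_simp
    ring
  have hSc : Filter.Tendsto (fun y : E => x₁ + r⁻¹ • R.symm y) (𝓝 Tz) (𝓝 z) := by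
    have : Continuous (fun y : E => x₁ + r⁻¹ • R.symm y) := by fun_prop
    have h := this.tendsto Tz
    rwa [hinv'] at h
  have hcompz : u Tz - ψ Tz = a⁻¹ * ((a * u (x₀ + r • R z) + b) - φ z) := by
    rw [hcomp, hinv']
  have hr4 : 0 < (r⁻¹) ^ 4 := by positivity
  rcases lt_or_gt_of_ne ha with hneg | hpos
  · have hai : a⁻¹ < 0 := inv_lt_zero.2 hneg
    have ha3 : (a⁻¹) ^ 3 < 0 := by
      have : (a⁻¹) ^ 3 = a⁻¹ * (a⁻¹) ^ 2 := by ring
      rw [this]; exact mul_neg_of_neg_of_pos hai (by positivity)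
    constructor
    · intro hm
      have hmin : IsLocalMin (fun y => u y - ψ y) Tz := by
        filter_upwards [hSc.eventually hm] with y hy
        rw [hcomp y, hcompz]
        exact mul_le_mul_of_nonpos_left hy hai.le
      have := (hu.2 Tz (hΩ z hz) ψ hψc).2 hmin
      rw [hlap] at this
      by_contra hcon
      push Not at hcon
      have : 0 < (a⁻¹) ^ 3 * (r⁻¹) ^ 4 * infLaplacian φ z :=
        mul_pos_of_neg_of_neg (mul_neg_of_neg_of_pos ha3 hr4) hcon
      linarith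
    · intro hm
      have hmax : IsLocalMax (fun y => u y - ψ y) Tz := by
        filter_upwards [hSc.eventually hm] with y hy
        rw [hcomp y, hcompz]
        exact mul_le_mul_of_nonpos_left hy hai.le
      have := (hu.2 Tz (hΩ z hz) ψ hψc).1 hmax
      rw [hlap] at this
      by_contra hcon
      push Not at hcon
      have : (a⁻¹) ^ 3 * (r⁻¹) ^ 4 * infLaplacian φ z < 0 :=
        mul_neg_of_neg_of_pos (mul_neg_of_neg_of_pos ha3 hr4) hcon
      linarith
  · have hai : 0 < a⁻¹ := inv_pos.2 hpos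
    have ha3 : 0 < (a⁻¹) ^ 3 := by positivity
    constructor
    · intro hm
      have hmax : IsLocalMax (fun y => u y - ψ y) Tz := by
        filter_upwards [hSc.eventually hm] with y hy
        rw [hcomp y, hcompz]
        exact mul_le_mul_of_nonneg_left hy hai.le
      have := (hu.2 Tz (hΩ z hz) ψ hψc).1 hmax
      rw [hlap] at this
      by_contra hcon
      push Not at hcon
      have : (a⁻¹) ^ 3 * (r⁻¹) ^ 4 * infLaplacian φ z < 0 :=
        mul_neg_of_pos_of_neg (mul_pos ha3 hr4) hcon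
      linarith
    · intro hm
      have hmin : IsLocalMin (fun y => u y - ψ y) Tz := by
        filter_upwards [hSc.eventually hm] with y hy
        rw [hcomp y, hcompz]
        exact mul_le_mul_of_nonneg_left hy hai.le
      have := (hu.2 Tz (hΩ z hz) ψ hψc).2 hmin
      rw [hlap] at this
      by_contra hcon
      push Not at hcon
      have : 0 < (a⁻¹) ^ 3 * (r⁻¹) ^ 4 * infLaplacian φ z :=
        mul_pos (mul_pos ha3 hr4) hcon
      linarith

/-- Special case: translation, dilation, normalisation. -/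
theorem infHarm_comp_homothety {u : EuclideanSpace ℝ ι → ℝ}
    {Ω Ω' : Set (EuclideanSpace ℝ ι)} (hu : IsInfinityHarmonicOn u Ω)
    (x₀ : E) (a b : ℝ) {r : ℝ} (hr : 0 < r) (hΩ : ∀ x ∈ Ω', x₀ + r • x ∈ Ω) :
    IsInfinityHarmonicOn (fun x => a * u (x₀ + r • x) + b) Ω' := by
  simpa using infHarm_comp_affine hu (LinearIsometryEquiv.refl ℝ E) x₀ a b hr (by simpa using hΩ)

theorem infHarm_neg {u : EuclideanSpace ℝ ι → ℝ}
    {Ω : Set (EuclideanSpace ℝ ι)} (hu : IsInfinityHarmonicOn u Ω) :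
    IsInfinityHarmonicOn (fun x => - u x) Ω := by
  have := infHarm_comp_homothety (Ω' := Ω) hu 0 (-1) 0 one_pos (by simp)
  simpa using this

/-! ### The end game -/

/-- The centred first order expansion at `0` for normalised infinity harmonic functions. -/
def CentredExpansion (d : ℕ) : Prop :=
  ∃ α : ℝ, 0 < α ∧ α ≤ 1 / 3 ∧ ∃ C ρ : ℝ, 0 < ρ ∧ ρ ≤ 1 ∧
    ∀ v : EuclideanSpace ℝ (Fin d) → ℝ,
      IsInfinityHarmonicOn v (Metric.ball 0 1) →
      (∀ x ∈ Metric.ball (0 : EuclideanSpace ℝ (Fin d)) 1, |v x| ≤ 1) →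
      ∃ p : EuclideanSpace ℝ (Fin d), ‖p‖ ≤ C ∧
        ∀ y : EuclideanSpace ℝ (Fin d), ‖y‖ < ρ →
          |v y - v 0 - ⟪p, y⟫| ≤ C * ‖y‖ ^ (1 + α)

/-- A first order expansion with error `O(‖z‖^(1+α))` gives the gradient. -/
theorem hasGradientAt_of_expansion {u : EuclideanSpace ℝ ι → ℝ} {x P : EuclideanSpace ℝ ι}
    {A ρ α : ℝ} (hρ : 0 < ρ) (hα : 0 < α)
    (h : ∀ z : EuclideanSpace ℝ ι, ‖z‖ < ρ → |u (x + z) - u x - ⟪P, z⟫| ≤ A * ‖z‖ ^ (1 + α)) :
    HasGradientAt u P x := by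
  rw [hasGradientAt_iff_hasFDerivAt, hasFDerivAt_iff_isLittleO_nhds_zero]
  have h1 : (fun z : EuclideanSpace ℝ ι => u (x + z) - u x - (InnerProductSpace.toDual ℝ _ P) z)
      =O[𝓝 0] (fun z => ‖z‖ ^ (1 + α)) := by
    refine Asymptotics.IsBigO.of_bound |A| ?_
    filter_upwards [Metric.ball_mem_nhds (0 : EuclideanSpace ℝ ι) hρ] with z hz
    have hz' : ‖z‖ < ρ := by simpa using hz
    have h2 := h z hz'
    rw [Real.norm_eq_abs, InnerProductSpace.toDual_apply_apply]
    refine h2.trans ?_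
    have h3 : 0 ≤ ‖z‖ ^ (1 + α) := Real.rpow_nonneg (norm_nonneg _) _
    rw [Real.norm_of_nonneg h3]
    exact mul_le_mul_of_nonneg_right (le_abs_self A) h3
  refine h1.trans_isLittleO ?_
  rw [Asymptotics.isLittleO_iff]
  intro c hc
  have h5 : Filter.Tendsto (fun z : EuclideanSpace ℝ ι => ‖z‖ ^ α) (𝓝 0) (𝓝 0) := by
    have : Filter.Tendsto (fun z : EuclideanSpace ℝ ι => ‖z‖) (𝓝 0) (𝓝 0) := by
      have h0 : Continuous (fun z : EuclideanSpace ℝ ι => ‖z‖) := continuous_norm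
      simpa using h0.tendsto 0
    have h6 := this.rpow_const (p := α) (Or.inr hα.le)
    simpa [Real.zero_rpow hα.ne'] using h6
  have h7 : ∀ᶠ z : EuclideanSpace ℝ ι in 𝓝 0, ‖z‖ ^ α < c := h5.eventually (gt_mem_nhds hc)
  filter_upwards [h7] with z hz
  have h3 : 0 ≤ ‖z‖ ^ (1 + α) := Real.rpow_nonneg (norm_nonneg _) _
  rw [Real.norm_of_nonneg h3]
  rcases eq_or_ne z 0 with rfl | hne
  · simp [Real.zero_rpow (by linarith : (1 + α) ≠ 0)]
  · have hpos : 0 < ‖z‖ := norm_pos_iff.2 hne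
    rw [Real.rpow_add hpos, Real.rpow_one]
    nlinarith [norm_nonneg z]

/-- **End game**: the statement of S0124 from the centred expansion. -/
theorem S0124_of_centred (d : ℕ) (hcen : CentredExpansion d) :
    ∃ α : ℝ, 0 < α ∧ α ≤ 1 / 3 ∧ ∃ C : ℝ,
      ∀ u : EuclideanSpace ℝ (Fin d) → ℝ,
        Crest.AnalysisR.PDE.IsInfinityHarmonicOn u (Metric.ball 0 1) →
        ∀ M : ℝ, (∀ x ∈ Metric.ball (0 : EuclideanSpace ℝ (Fin d)) 1,
            ∀ y ∈ Metric.ball (0 : EuclideanSpace ℝ (Fin d)) 1, u x - u y ≤ M) →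
          (∀ x ∈ Metric.ball (0 : EuclideanSpace ℝ (Fin d)) 2⁻¹, DifferentiableAt ℝ u x) ∧
          ∀ x ∈ Metric.ball (0 : EuclideanSpace ℝ (Fin d)) 2⁻¹,
            ∀ y ∈ Metric.ball (0 : EuclideanSpace ℝ (Fin d)) 2⁻¹,
              ‖∇ u x‖ ≤ C * M ∧ ‖∇ u x - ∇ u y‖ ≤ C * M * ‖x - y‖ ^ α := by
  obtain ⟨α, hα0, hα1, C, ρ, hρ0, hρ1, H⟩ := hcen
  have hC : 0 ≤ C := by
    obtain ⟨p, hp, _⟩ := H (fun _ => 0) (isInfinityHarmonicOn_const 0 _) (by simp)
    exact (norm_nonneg p).trans hp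
  refine ⟨α, hα0, hα1, 4 * C * (6 + 16 / ρ), fun u hu M hM => ?_⟩
  have hM0 : 0 ≤ M := by
    have := hM 0 (by simp) 0 (by simp)
    simpa using this
  set A : ℝ := 4 * C * M with hA
  have hA0 : 0 ≤ A := by positivity
  have hρ16 : 0 ≤ 16 / ρ := by positivity
  have h2α : (2 : ℝ) ^ (1 + α) ≤ 4 := by
    calc (2 : ℝ) ^ (1 + α) ≤ (2 : ℝ) ^ (2 : ℝ) :=
          Real.rpow_le_rpow_of_exponent_le (by norm_num) (by linarith)
      _ = 4 := by norm_num
  -- expansion at every point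
  have key : ∀ x ∈ Metric.ball (0 : EuclideanSpace ℝ (Fin d)) 2⁻¹,
      ∃ P : EuclideanSpace ℝ (Fin d), ‖P‖ ≤ A ∧ ∀ z : EuclideanSpace ℝ (Fin d), ‖z‖ < ρ / 2 →
        |u (x + z) - u x - ⟪P, z⟫| ≤ A * ‖z‖ ^ (1 + α) := by
    intro x hx
    have hx' : ‖x‖ < 2⁻¹ := by simpa using hx
    have hxb : x ∈ Metric.ball (0 : EuclideanSpace ℝ (Fin d)) 1 := by
      simp; linarith
    have hin : ∀ y ∈ Metric.ball (0 : EuclideanSpace ℝ (Fin d)) 1,
        x + (2⁻¹ : ℝ) • y ∈ Metric.ball (0 : EuclideanSpace ℝ (Fin d)) 1 := by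
      intro y hy
      have hy' : ‖y‖ < 1 := by simpa using hy
      have : ‖x + (2⁻¹ : ℝ) • y‖ ≤ ‖x‖ + 2⁻¹ * ‖y‖ := by
        refine (norm_add_le _ _).trans ?_
        rw [norm_smul]; norm_num
      simp only [Metric.mem_ball, dist_zero_right]
      linarith
    rcases hM0.eq_or_lt with h0 | hMpos
    · -- M = 0 : u is constant on the ball
      refine ⟨0, by simpa using hA0, fun z hz => ?_⟩
      have hz1 : ‖z‖ < 2⁻¹ := by linarith
      have hxz : x + z ∈ Metric.ball (0 : EuclideanSpace ℝ (Fin d)) 1 := by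
        simp only [Metric.mem_ball, dist_zero_right]
        have := norm_add_le x z
        linarith
      have h1 := hM _ hxz _ hxb
      have h2 := hM _ hxb _ hxz
      have h3 : u (x + z) - u x = 0 := by linarith
      rw [h3]
      simp only [inner_zero_left, sub_zero, abs_zero]
      positivity
    · set v : EuclideanSpace ℝ (Fin d) → ℝ :=
        fun y => M⁻¹ * u (x + (2⁻¹ : ℝ) • y) + (-(M⁻¹ * u x)) with hv
      have hvh : IsInfinityHarmonicOn v (Metric.ball 0 1) :=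
        infHarm_comp_homothety hu x M⁻¹ (-(M⁻¹ * u x)) (by norm_num) hin
      have hvb : ∀ y ∈ Metric.ball (0 : EuclideanSpace ℝ (Fin d)) 1, |v y| ≤ 1 := by
        intro y hy
        have h1 := hM _ (hin y hy) _ hxb
        have h2 := hM _ hxb _ (hin y hy)
        have h3 : v y = M⁻¹ * (u (x + (2⁻¹ : ℝ) • y) - u x) := by simp only [hv]; ring
        rw [h3, abs_mul, abs_of_pos (inv_pos.2 hMpos)]
        rw [inv_mul_le_iff₀ hMpos, mul_one, abs_le]
        constructor <;> linarith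
      obtain ⟨p, hp, hexp⟩ := H v hvh hvb
      refine ⟨(2 * M) • p, ?_, fun z hz => ?_⟩
      · rw [norm_smul, Real.norm_of_nonneg (by positivity)]
        calc 2 * M * ‖p‖ ≤ 2 * M * C := by gcongr
          _ ≤ A := by rw [hA]; nlinarith [mul_nonneg hC hM0]
      · have h2z : ‖(2 : ℝ) • z‖ = 2 * ‖z‖ := by rw [norm_smul]; norm_num
        have h1 := hexp ((2 : ℝ) • z) (by rw [h2z]; linarith)
        have h2 : v ((2 : ℝ) • z) - v 0 - ⟪p, (2 : ℝ) • z⟫
            = M⁻¹ * (u (x + z) - u x - ⟪(2 * M) • p, z⟫) := by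
          simp only [hv, smul_smul, inner_smul_left, inner_smul_right, smul_zero, add_zero]
          norm_num
          field_simp
          ring
        rw [h2, abs_mul, abs_of_pos (inv_pos.2 hMpos), inv_mul_le_iff₀ hMpos, h2z,
          Real.mul_rpow (by norm_num) (norm_nonneg _)] at h1
        refine h1.trans ?_
        have h3 : 0 ≤ ‖z‖ ^ (1 + α) := Real.rpow_nonneg (norm_nonneg _) _
        have h4 : C * ((2 : ℝ) ^ (1 + α) * ‖z‖ ^ (1 + α)) ≤ C * (4 * ‖z‖ ^ (1 + α)) := by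
          gcongr
        calc M * (C * ((2 : ℝ) ^ (1 + α) * ‖z‖ ^ (1 + α)))
            ≤ M * (C * (4 * ‖z‖ ^ (1 + α))) := by gcongr
          _ = A * ‖z‖ ^ (1 + α) := by rw [hA]; ring
  choose! P hP hexp using key
  have hgrad : ∀ x ∈ Metric.ball (0 : EuclideanSpace ℝ (Fin d)) 2⁻¹, HasGradientAt u (P x) x :=
    fun x hx => hasGradientAt_of_expansion (by positivity : 0 < ρ / 2) hα0 (hexp x hx)
  refine ⟨fun x hx => (hgrad x hx).differentiableAt, fun x hx y hy => ?_⟩
  have hCM : 4 * C * (6 + 16 / ρ) * M = A * (6 + 16 / ρ) := by rw [hA]; ring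
  rw [(hgrad x hx).gradient, (hgrad y hy).gradient, hCM]
  constructor
  · refine (hP x hx).trans ?_
    nlinarith [mul_nonneg hA0 hρ16]
  set r : ℝ := ‖x - y‖ with hr
  have hr0 : 0 ≤ r := norm_nonneg _
  rcases hr0.eq_or_lt with h0 | hrpos
  · have hxy : x = y := by
      rw [← sub_eq_zero, ← norm_eq_zero, ← hr, ← h0]
    rw [hxy, sub_self, norm_zero]
    have : 0 ≤ r ^ α := Real.rpow_nonneg hr0 _
    positivity
  have hrα : 0 < r ^ α := Real.rpow_pos_of_pos hrpos _
  rcases lt_or_ge r (ρ / 8) with hsmall | hlarge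
  · -- small distances
    set D := P x - P y with hD
    rcases eq_or_ne D 0 with hD0 | hD0
    · rw [hD0, norm_zero]; positivity
    have hDn : 0 < ‖D‖ := norm_pos_iff.2 hD0
    set z : EuclideanSpace ℝ (Fin d) := (r / ‖D‖) • D with hz
    have hzn : ‖z‖ = r := by
      rw [hz, norm_smul, Real.norm_of_nonneg (by positivity)]
      field_simp
    have hyx : ‖y - x‖ = r := by rw [hr, norm_sub_rev]
    have e1 : |u (x + ((y - x) + z)) - u x - ⟪P x, (y - x) + z⟫|
        ≤ A * ‖(y - x) + z‖ ^ (1 + α) := by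
      apply hexp x hx
      have := norm_add_le (y - x) z
      rw [hzn, hyx] at this
      linarith
    have e1' : ‖(y - x) + z‖ ^ (1 + α) ≤ 4 * r ^ (1 + α) := by
      have h1 : ‖(y - x) + z‖ ≤ 2 * r := by
        have := norm_add_le (y - x) z
        rw [hzn, hyx] at this
        linarith
      calc ‖(y - x) + z‖ ^ (1 + α) ≤ (2 * r) ^ (1 + α) :=
            Real.rpow_le_rpow (norm_nonneg _) h1 (by linarith)
        _ = (2 : ℝ) ^ (1 + α) * r ^ (1 + α) := Real.mul_rpow (by norm_num) hr0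
        _ ≤ 4 * r ^ (1 + α) := by gcongr
    have e2 : |u (y + z) - u y - ⟪P y, z⟫| ≤ A * r ^ (1 + α) := by
      have := hexp y hy z (by rw [hzn]; linarith)
      rwa [hzn] at this
    have e3 : |u (x + (y - x)) - u x - ⟪P x, y - x⟫| ≤ A * r ^ (1 + α) := by
      have := hexp x hx (y - x) (by rw [hyx]; linarith)
      rwa [hyx] at this
    have hxyz : x + ((y - x) + z) = y + z := by abel
    have hxy : x + (y - x) = y := by abel
    rw [hxyz, inner_add_right] at e1
    rw [hxy] at e3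
    have hDz : ⟪P x, z⟫ - ⟪P y, z⟫ = r * ‖D‖ := by
      rw [← inner_sub_left, ← hD, hz, inner_smul_right, real_inner_self_eq_norm_sq]
      field_simp
    have hr1 : 0 ≤ r ^ (1 + α) := Real.rpow_nonneg hr0 _
    have e1'' : |u (y + z) - u x - (⟪P x, y - x⟫ + ⟪P x, z⟫)| ≤ 4 * A * r ^ (1 + α) := by
      refine e1.trans ?_
      calc A * ‖(y - x) + z‖ ^ (1 + α) ≤ A * (4 * r ^ (1 + α)) := by gcongr
        _ = 4 * A * r ^ (1 + α) := by ring
    have hsum : r * ‖D‖ ≤ 6 * A * r ^ (1 + α) := by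
      rw [← hDz]
      have a1 := abs_le.1 e1''
      have a2 := abs_le.1 e2
      have a3 := abs_le.1 e3
      linarith [a1.1, a1.2, a2.1, a2.2, a3.1, a3.2]
    rw [Real.rpow_add hrpos, Real.rpow_one] at hsum
    have h6 : ‖D‖ ≤ 6 * A * r ^ α := by
      have : r * ‖D‖ ≤ r * (6 * A * r ^ α) := by linarith
      exact le_of_mul_le_mul_left this hrpos
    calc ‖D‖ ≤ 6 * A * r ^ α := h6
      _ ≤ A * (6 + 16 / ρ) * r ^ α := by
        have : 6 * A ≤ A * (6 + 16 / ρ) := by nlinarith [mul_nonneg hA0 hρ16]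
        gcongr
  · -- large distances
    have h1 : ‖P x - P y‖ ≤ 2 * A := by
      have := norm_sub_le (P x) (P y)
      have := hP x hx
      have := hP y hy
      linarith
    have h2 : 1 ≤ 8 / ρ * r ^ α := by
      have h3 : (ρ / 8) ≤ (ρ / 8) ^ α := by
        have : ρ / 8 ≤ 1 := by linarith
        calc ρ / 8 = (ρ / 8) ^ (1 : ℝ) := (Real.rpow_one _).symm
          _ ≤ (ρ / 8) ^ α :=
            Real.rpow_le_rpow_of_exponent_ge (by positivity) this (by linarith)
      have h4 : (ρ / 8) ^ α ≤ r ^ α := Real.rpow_le_rpow (by positivity) hlarge hα0.le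
      have h5 : ρ / 8 ≤ r ^ α := h3.trans h4
      calc (1 : ℝ) = 8 / ρ * (ρ / 8) := by field_simp
        _ ≤ 8 / ρ * r ^ α := by gcongr
    calc ‖P x - P y‖ ≤ 2 * A := h1
      _ ≤ 2 * A * (8 / ρ * r ^ α) := by nlinarith
      _ = A * (16 / ρ) * r ^ α := by ring
      _ ≤ A * (6 + 16 / ρ) * r ^ α := by gcongr; linarith

end Crest.Agent.R094
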