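import Crest.Agent.R094.Iface
import Crest.Agent.R094.SolBasic
import Crest.Agent.R094.Flat

set_option autoImplicit false

/-!
Row 94 (S0124), route 7921 (helper240).  Flat part of the class `Cls`, slope bounds,
convergence along ultrafilters, compactness.
-/

namespace Crest.Agent.R094.FlatCpt

open Sol GK Filter Topology Set
open scoped InnerProductSpace

variable {V : Type*} [NormedAddCommGroup V] [InnerProductSpace ℝ V]

/-! ### FD: invariances -/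

theorem _root_.Crest.Agent.R094.GK.FD.nonneg {K : ℝ} {w : V → ℝ → ℝ} {x₀ : V} {t₀ τ : ℝ} {p : V} {b : ℝ} (hτ : 0 < τ)
    (h : FD K w x₀ t₀ τ p b) : 0 ≤ K := by
  have h1 := (abs_nonneg _).trans (h 0 0)
  simp only [norm_zero, abs_zero, add_zero, zero_div, Real.one_rpow, mul_one] at h1
  by_contra hK
  push Not at hK
  nlinarith

theorem _root_.Crest.Agent.R094.GK.FD.win {K : ℝ} {w : V → ℝ → ℝ} {x₀ : V} {t₀ τ : ℝ} {p : V} {b : ℝ} (hτ : 0 < τ)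
    (h : FD K w x₀ t₀ τ p b) : Flat.Win (1 + K * Flat.g 2) w x₀ t₀ τ p b := by
  intro x t hx ht
  have hK := h.nonneg hτ
  refine (h x t).trans ?_
  have h1 : (‖x‖ + |t|) / τ ≤ 2 := by rw [div_le_iff₀ hτ]; linarith
  have h2 := Flat.g_mono (by positivity) h1
  unfold Flat.g at h2 ⊢
  calc K * τ * (1 + (‖x‖ + |t|) / τ) ^ (3 / 2 : ℝ) ≤ K * τ * (1 + 2) ^ (3 / 2 : ℝ) := by gcongr
    _ ≤ (1 + K * (1 + 2) ^ (3 / 2 : ℝ)) * τ := by nlinarith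

/-! ### Growth -/

theorem _root_.Crest.Agent.R094.GK.Nrm.nonneg {K' : ℝ} {w : V → ℝ → ℝ} (h : Nrm K' w) : 0 ≤ K' := by
  have h1 := (abs_nonneg _).trans (h 0 0)
  simpa using h1

theorem _root_.Crest.Agent.R094.GK.Nrm.bound {K' R : ℝ} {w : V → ℝ → ℝ} (h : Nrm K' w) {x : V} {t : ℝ}
    (hx : ‖x‖ + |t| ≤ R) : |w x t| ≤ K' * (1 + R) ^ (3 / 2 : ℝ) := by
  refine (h x t).trans ?_
  have := h.nonneg
  have h2 : 0 ≤ ‖x‖ + |t| := by positivity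
  gcongr

theorem _root_.Crest.Agent.R094.GK.Nrm.rev {K' : ℝ} {w : V → ℝ → ℝ} (h : Nrm K' w) : Nrm K' (Sol.rev w) := by
  intro x t
  have := h x (-t)
  simp only [Sol.rev, abs_neg] at this ⊢
  exact this

/-- subquadratic growth, uniform over `Nrm K'`. -/
theorem nrm_quad (K' R : ℝ) {ε : ℝ} (hε : 0 < ε) : ∃ C : ℝ, 0 ≤ C ∧ ∀ w : V → ℝ → ℝ, Nrm K' w →
    ∀ y t, |t| ≤ R → |w y t| ≤ ε * ‖y‖ ^ 2 + C := by
  rcases lt_or_ge K' 0 with hK | hK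
  · refine ⟨0, le_rfl, fun w hw => ?_⟩
    exact absurd hw.nonneg (not_le.2 hK)
  set c : ℝ := ε / (2 * (K' + 1)) with hc
  have hc0 : 0 < c := by positivity
  obtain ⟨C₀, hC₀⟩ := Flat.g_le_quad hc0
  refine ⟨|K' * (2 * c * R ^ 2 + C₀)|, abs_nonneg _, fun w hw y t ht => ?_⟩
  have h1 := hw y t
  have h2 := hC₀ (‖y‖ + |t|) (by positivity)
  unfold Flat.g at h2
  have hR : 0 ≤ R := (abs_nonneg t).trans ht
  have h3 : (‖y‖ + |t|) ^ 2 ≤ 2 * ‖y‖ ^ 2 + 2 * R ^ 2 := by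
    have h4 : ‖y‖ + |t| ≤ ‖y‖ + R := by linarith
    have h5 : (‖y‖ + |t|) ^ 2 ≤ (‖y‖ + R) ^ 2 := by gcongr
    nlinarith [sq_nonneg (‖y‖ - R)]
  have h6 : K' * (c * (2 * ‖y‖ ^ 2)) ≤ ε * ‖y‖ ^ 2 := by
    have h7 : K' * (c * 2) ≤ ε := by
      have : K' * (c * 2) = ε * (K' / (K' + 1)) := by rw [hc]; field_simp
      rw [this]
      have h8 : K' / (K' + 1) ≤ 1 := by rw [div_le_one (by positivity)]; linarith
      nlinarith
    nlinarith [sq_nonneg ‖y‖]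
  calc |w y t| ≤ K' * (1 + (‖y‖ + |t|)) ^ (3 / 2 : ℝ) := h1
    _ ≤ K' * (c * (‖y‖ + |t|) ^ 2 + C₀) := by gcongr
    _ ≤ K' * (c * (2 * ‖y‖ ^ 2 + 2 * R ^ 2) + C₀) := by gcongr
    _ = K' * (c * (2 * ‖y‖ ^ 2)) + K' * (2 * c * R ^ 2 + C₀) := by ring
    _ ≤ ε * ‖y‖ ^ 2 + |K' * (2 * c * R ^ 2 + C₀)| := add_le_add h6 (le_abs_self _)

theorem _root_.Crest.Agent.R094.GK.Nrm.grow {K' : ℝ} {w : V → ℝ → ℝ} (h : Nrm K' w) : Grow w := by
  intro R ε hε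
  obtain ⟨C, _, hC⟩ := nrm_quad (V := V) K' R hε
  exact ⟨C, hC w h⟩

/-! ### Limits along ultrafilters -/

section limits

variable {ι : Type*}

theorem exists_limit (F : Ultrafilter ι) (f : ι → ℝ) (M : ℝ) (h : ∀ᶠ k in F, |f k| ≤ M) :
    ∃ a, |a| ≤ M ∧ Tendsto f F (𝓝 a) := by
  have h1 : Icc (-M) M ∈ F.map f := by
    rw [Ultrafilter.mem_map]
    filter_upwards [h] with k hk
    exact abs_le.1 hk
  obtain ⟨a, ha, hle⟩ := isCompact_Icc.ultrafilter_le_nhds' (F.map f) h1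
  exact ⟨a, abs_le.2 ha, hle⟩

omit [InnerProductSpace ℝ V] in
theorem exists_limitV [ProperSpace V] (F : Ultrafilter ι) (f : ι → V) (M : ℝ)
    (h : ∀ᶠ k in F, ‖f k‖ ≤ M) : ∃ a, ‖a‖ ≤ M ∧ Tendsto f F (𝓝 a) := by
  have h1 : Metric.closedBall (0:V) M ∈ F.map f := by
    rw [Ultrafilter.mem_map]
    filter_upwards [h] with k hk
    simpa using hk
  obtain ⟨a, ha, hle⟩ := (isCompact_closedBall (0:V) M).ultrafilter_le_nhds' (F.map f) h1
  exact ⟨a, by simpa using ha, hle⟩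

/-- uniform equicontinuity of `Flat K ∩ Nrm K'` on bounded sets. -/
theorem equi (K K' R : ℝ) {ε : ℝ} (hε : 0 < ε) : ∃ δ : ℝ, 0 < δ ∧ δ ≤ 1 ∧ ∀ w : V → ℝ → ℝ,
    GK.Flat K w → Nrm K' w → ∀ (x₀ : V) (t₀ : ℝ), ‖x₀‖ + |t₀| ≤ R → ∀ x t, ‖x‖ ≤ δ → |t| ≤ δ →
      |w (x₀ + x) (t₀ + t) - w x₀ t₀| ≤ ε := by
  by_cases hK : 0 ≤ K
  swap
  · refine ⟨1, one_pos, le_rfl, fun w hw => ?_⟩
    obtain ⟨p, b, hp⟩ := hw 0 0 1 one_pos
    exact absurd (hp.nonneg one_pos) hK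
  by_cases hK' : 0 ≤ K'
  swap
  · exact ⟨1, one_pos, le_rfl, fun w _ hn => absurd hn.nonneg hK'⟩
  have hg2 : 0 ≤ Flat.g 2 := Flat.g_nonneg (by norm_num)
  have hκ : 1 ≤ 1 + K * Flat.g 2 := by nlinarith [mul_nonneg hK hg2]
  have hM : 0 ≤ K' * (1 + (|R| + 2)) ^ (3 / 2 : ℝ) := by positivity
  obtain ⟨δ, hδ0, hδ1, N, hN⟩ := Flat.modulus (V := V) hκ hM hε
  refine ⟨δ, hδ0, hδ1, fun w hw hn x₀ t₀ hR x t hx ht => ?_⟩
  refine hN w x₀ t₀ ?_ ?_ x t hx ht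
  · intro y s hy hs
    apply hn.bound
    have h1 := norm_add_le x₀ y
    have h2 := abs_add_le t₀ s
    have h3 := le_abs_self R
    linarith
  · intro j _
    obtain ⟨p, b, hp⟩ := hw x₀ t₀ (2 ^ j * (1 / 2 ^ N)) (by positivity)
    exact ⟨p, b, hp.win (by positivity)⟩

/-- compactness of the flat part. -/
theorem compact_flat [FiniteDimensional ℝ V] (F : Ultrafilter ι) (K K' : ℝ) (w : ι → V → ℝ → ℝ)
    (hf : ∀ᶠ k in (F : Filter ι), GK.Flat K (w k)) (hn : ∀ᶠ k in (F : Filter ι), Nrm K' (w k)) :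
    ∃ W : V → ℝ → ℝ, GK.Flat K W ∧ Nrm K' W ∧ JC F w W ∧
      Continuous (fun p : V × ℝ => W p.1 p.2) := by
  have := FiniteDimensional.proper_real V
  have hlim : ∀ (x : V) (t : ℝ), ∃ a, |a| ≤ K' * (1 + (‖x‖ + |t|)) ^ (3 / 2 : ℝ) ∧
      Tendsto (fun k => w k x t) F (𝓝 a) := fun x t =>
    exists_limit F (fun k => w k x t) _ (hn.mono fun k hk => hk x t)
  choose W hW1 hW2 using hlim
  -- equicontinuity
  have hequi : ∀ (R ε : ℝ), 0 < ε → ∃ δ : ℝ, 0 < δ ∧ δ ≤ 1 ∧ ∀ᶠ k in (F : Filter ι),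
      ∀ (x₀ : V) (t₀ : ℝ), ‖x₀‖ + |t₀| ≤ R → ∀ x t, ‖x‖ ≤ δ → |t| ≤ δ →
        |w k (x₀ + x) (t₀ + t) - w k x₀ t₀| ≤ ε := by
    intro R ε hε
    obtain ⟨δ, hδ0, hδ1, hδ⟩ := equi (V := V) K K' R hε
    refine ⟨δ, hδ0, hδ1, ?_⟩
    filter_upwards [hf, hn] with k hk1 hk2
    exact hδ (w k) hk1 hk2
  -- joint convergence
  have hJ : JC F w W := by
    intro x t x₀ t₀ hx ht
    rw [Metric.tendsto_nhds]
    intro ε hε
    obtain ⟨δ, hδ0, _, hδ⟩ := hequi (‖x₀‖ + |t₀|) (ε / 2) (by linarith)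
    have h1 := (Metric.tendsto_nhds.1 hx) δ hδ0
    have h2 := (Metric.tendsto_nhds.1 ht) δ hδ0
    have h3 := (Metric.tendsto_nhds.1 (hW2 x₀ t₀)) (ε / 2) (by linarith)
    filter_upwards [hδ, h1, h2, h3] with k hk hk1 hk2 hk3
    have h4 := hk x₀ t₀ le_rfl (x k - x₀) (t k - t₀)
      (by rw [← dist_eq_norm]; exact hk1.le) (by rw [← Real.dist_eq]; exact hk2.le)
    rw [add_sub_cancel, add_sub_cancel] at h4
    rw [Real.dist_eq] at hk3 ⊢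
    calc |w k (x k) (t k) - W x₀ t₀|
        = |(w k (x k) (t k) - w k x₀ t₀) + (w k x₀ t₀ - W x₀ t₀)| := by congr 1; ring
      _ ≤ |w k (x k) (t k) - w k x₀ t₀| + |w k x₀ t₀ - W x₀ t₀| := abs_add_le _ _
      _ < ε := by linarith
  -- continuity of `W`
  have hWc : Continuous (fun p : V × ℝ => W p.1 p.2) := by
    rw [continuous_iff_continuousAt]
    rintro ⟨x₀, t₀⟩
    rw [ContinuousAt, Metric.tendsto_nhds]
    intro ε hε
    obtain ⟨δ, hδ0, _, hδ⟩ := hequi (‖x₀‖ + |t₀|) (ε / 2) (by linarith)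
    filter_upwards [Metric.ball_mem_nhds (x₀, t₀) hδ0] with q hq
    obtain ⟨y, s⟩ := q
    rw [Metric.mem_ball, Prod.dist_eq, max_lt_iff] at hq
    have h5 : Tendsto (fun k => |w k y s - w k x₀ t₀|) F (𝓝 |W y s - W x₀ t₀|) :=
      ((hW2 y s).sub (hW2 x₀ t₀)).abs
    have h6 : |W y s - W x₀ t₀| ≤ ε / 2 := by
      refine le_of_tendsto h5 ?_
      filter_upwards [hδ] with k hk
      have h4 := hk x₀ t₀ le_rfl (y - x₀) (s - t₀)
        (by rw [← dist_eq_norm]; exact hq.1.le) (by rw [← Real.dist_eq]; exact hq.2.le)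
      rwa [add_sub_cancel, add_sub_cancel] at h4
    simp only
    rw [Real.dist_eq]
    linarith
  refine ⟨W, ?_, hW1, hJ, hWc⟩
  -- flatness of `W`
  intro x₀ t₀ τ hτ
  obtain ⟨k₀, hk₀⟩ := hf.exists
  have hK : 0 ≤ K := by
    obtain ⟨p, b, hp⟩ := hk₀ 0 0 1 one_pos
    exact hp.nonneg one_pos
  obtain ⟨k₁, hk₁⟩ := hn.exists
  have hK' : 0 ≤ K' := hk₁.nonneg
  have hg2 : 0 ≤ Flat.g 2 := Flat.g_nonneg (by norm_num)
  set κ : ℝ := 1 + K * Flat.g 2 with hκdef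
  have hκ0 : 0 ≤ κ := by positivity
  set M : ℝ := K' * (1 + (‖x₀‖ + |t₀| + 2 * τ)) ^ (3 / 2 : ℝ) with hMdef
  have hM : 0 ≤ M := by positivity
  set A : ℝ := κ + 2 * M / τ with hA
  have hA0 : 0 ≤ A := by positivity
  have hex : ∀ᶠ k in (F : Filter ι), ∃ q : V × ℝ, FD K (w k) x₀ t₀ τ q.1 q.2 ∧ ‖q.1‖ ≤ A ∧
      |q.2| ≤ 2 * (1 + κ + 2 * M / τ) ^ 2 + A ^ 2 / 2 := by
    filter_upwards [hf, hn] with k hk1 hk2
    obtain ⟨p, b, hp⟩ := hk1 x₀ t₀ τ hτ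
    have hb := (hp.win hτ).bounds hκ0 hM hτ (fun x t hx ht => by
      apply hk2.bound
      have h1 := norm_add_le x₀ x
      have h2 := abs_add_le t₀ t
      linarith)
    refine ⟨(p, b), hp, hb.1, ?_⟩
    simp only
    have h1 : |b| ≤ |b - ‖p‖ ^ 2 / 2| + ‖p‖ ^ 2 / 2 := by
      have : b = (b - ‖p‖ ^ 2 / 2) + ‖p‖ ^ 2 / 2 := by ring
      calc |b| = |(b - ‖p‖ ^ 2 / 2) + ‖p‖ ^ 2 / 2| := by rw [← this]
        _ ≤ |b - ‖p‖ ^ 2 / 2| + |‖p‖ ^ 2 / 2| := abs_add_le _ _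
        _ = _ := by rw [abs_of_nonneg (by positivity : 0 ≤ ‖p‖ ^ 2 / 2)]
    have h2 : ‖p‖ ^ 2 ≤ A ^ 2 := by have := hb.1; gcongr
    linarith [hb.2]
  obtain ⟨q, hq⟩ := hex.choice
  obtain ⟨p, _, hp⟩ := exists_limitV F (fun k => (q k).1) A (hq.mono fun k hk => hk.2.1)
  obtain ⟨b, _, hb⟩ := exists_limit F (fun k => (q k).2) _ (hq.mono fun k hk => hk.2.2)
  refine ⟨p, b, fun x t => ?_⟩
  have h1 : Tendsto (fun k => w k (x₀ + t • (q k).1 + x) (t₀ + t)) F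
      (𝓝 (W (x₀ + t • p + x) (t₀ + t))) := by
    apply hJ
    · exact (tendsto_const_nhds.add (hp.const_smul t)).add tendsto_const_nhds
    · exact tendsto_const_nhds
  have h2 : Tendsto (fun k => ⟪(q k).1, x⟫_ℝ) F (𝓝 ⟪p, x⟫_ℝ) := hp.inner tendsto_const_nhds
  have h3 : Tendsto (fun k => |w k (x₀ + t • (q k).1 + x) (t₀ + t) - w k x₀ t₀ - ⟪(q k).1, x⟫_ℝ
      - (q k).2 * t|) F (𝓝 |W (x₀ + t • p + x) (t₀ + t) - W x₀ t₀ - ⟪p, x⟫_ℝ - b * t|) :=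
    (((h1.sub (hW2 x₀ t₀)).sub h2).sub (hb.mul_const t)).abs
  exact le_of_tendsto h3 (hq.mono fun k hk => hk.1 x t)

/-! ### Convergence of sup- and inf-convolutions -/

/-- joint convergence of functions on `V` -/
def JS (F : Ultrafilter ι) (f : ι → V → ℝ) (f₀ : V → ℝ) : Prop :=
  ∀ (x : ι → V) (x₀ : V), Tendsto x F (𝓝 x₀) → Tendsto (fun k => f k (x k)) F (𝓝 (f₀ x₀))

/-- uniform subquadratic growth -/
def UQ (F : Ultrafilter ι) (f : ι → V → ℝ) : Prop :=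
  ∀ ε : ℝ, 0 < ε → ∃ C : ℝ, ∀ᶠ k in (F : Filter ι), ∀ y, f k y ≤ ε * ‖y‖ ^ 2 + C

omit [InnerProductSpace ℝ V] in
theorem JS.neg {F : Ultrafilter ι} {f : ι → V → ℝ} {f₀ : V → ℝ} (h : JS F f f₀) :
    JS F (fun k y => - f k y) (fun y => - f₀ y) := fun x x₀ hx => (h x x₀ hx).neg

omit [InnerProductSpace ℝ V] in
theorem JS.qup {F : Ultrafilter ι} {f : ι → V → ℝ} {f₀ : V → ℝ} (h : JS F f f₀) (hq : UQ F f) :
    QUp f₀ := by
  intro ε hε
  obtain ⟨C, hC⟩ := hq ε hε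
  refine ⟨C, fun y => ?_⟩
  exact le_of_tendsto (h (fun _ => y) y tendsto_const_nhds) (hC.mono fun k hk => hk y)

/-- maximisers stay bounded and subconverge; the sup-convolutions converge. -/
theorem JS.supc_aux [FiniteDimensional ℝ V] {F : Ultrafilter ι} {f : ι → V → ℝ} {f₀ : V → ℝ}
    (h : JS F f f₀) (hq : UQ F f) {s : ι → ℝ} {s₀ : ℝ} (hs₀ : 0 < s₀) (hs : Tendsto s F (𝓝 s₀))
    {x y : ι → V} {x₀ : V} (hx : Tendsto x F (𝓝 x₀))
    (hy : ∀ᶠ k in (F : Filter ι), ∀ z, f k z - ‖x k - z‖ ^ 2 / (2 * s k)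
      ≤ f k (y k) - ‖x k - y k‖ ^ 2 / (2 * s k)) :
    ∃ y₀, Tendsto y F (𝓝 y₀) ∧ supc s₀ f₀ x₀ = f₀ y₀ - ‖x₀ - y₀‖ ^ 2 / (2 * s₀) ∧
      Tendsto (fun k => f k (y k) - ‖x k - y k‖ ^ 2 / (2 * s k)) F (𝓝 (supc s₀ f₀ x₀)) := by
  have := FiniteDimensional.proper_real V
  obtain ⟨C, hC⟩ := hq (1 / (8 * (2 * s₀))) (by positivity)
  have hs1 : ∀ᶠ k in (F : Filter ι), s k ≤ 2 * s₀ := hs.eventually (ge_mem_nhds (by linarith))
  have hs2 : ∀ᶠ k in (F : Filter ι), s₀ / 2 ≤ s k := hs.eventually (le_mem_nhds (by linarith))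
  have hx1 : ∀ᶠ k in (F : Filter ι), ‖x k‖ ≤ ‖x₀‖ + 1 :=
    hx.norm.eventually (ge_mem_nhds (by linarith))
  have hf1 : ∀ᶠ k in (F : Filter ι), f₀ x₀ - 1 ≤ f k (x k) :=
    (h x x₀ hx).eventually (le_mem_nhds (by linarith))
  set D : ℝ := (C + (‖x₀‖ + 1) ^ 2 / s₀ - (f₀ x₀ - 1)) * (16 * s₀) with hD
  have hyb : ∀ᶠ k in (F : Filter ι), ‖y k‖ ≤ Real.sqrt |D| := by
    filter_upwards [hy, hC, hs1, hs2, hx1, hf1] with k h1 h2 h3 h4 h5 h6
    have hsk : 0 < s k := by linarith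
    have h7 := coer hsk h3 h2 (x k) (y k)
    have h8 := h1 (x k)
    rw [sub_self, norm_zero] at h8
    have h9 : ‖x k‖ ^ 2 / (2 * s k) ≤ (‖x₀‖ + 1) ^ 2 / s₀ := by
      rw [div_le_div_iff₀ (by positivity) hs₀]
      have : ‖x k‖ ^ 2 ≤ (‖x₀‖ + 1) ^ 2 := by gcongr
      have h10 : 0 ≤ ‖x k‖ ^ 2 := by positivity
      nlinarith
    have h10 : ‖y k‖ ^ 2 / (8 * s k) ≤ C + (‖x₀‖ + 1) ^ 2 / s₀ - (f₀ x₀ - 1) := by
      simp only [ne_eq, OfNat.ofNat_ne_zero, not_false_eq_true, zero_pow, zero_div, sub_zero] at h8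
      linarith
    have h11 : ‖y k‖ ^ 2 ≤ D := by
      rw [div_le_iff₀ (by positivity)] at h10
      have h12 : 0 ≤ C + (‖x₀‖ + 1) ^ 2 / s₀ - (f₀ x₀ - 1) := by
        by_contra hneg
        push Not at hneg
        nlinarith [sq_nonneg ‖y k‖]
      refine h10.trans ?_
      rw [hD]
      have h13 : 8 * s k ≤ 16 * s₀ := by linarith
      exact mul_le_mul_of_nonneg_left h13 h12
    calc ‖y k‖ = Real.sqrt (‖y k‖ ^ 2) := (Real.sqrt_sq (norm_nonneg _)).symm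
      _ ≤ Real.sqrt |D| := Real.sqrt_le_sqrt (h11.trans (le_abs_self _))
  obtain ⟨y₀, _, hy₀⟩ := exists_limitV F y _ hyb
  have hlim : ∀ (z : ι → V) (z₀ : V), Tendsto z F (𝓝 z₀) →
      Tendsto (fun k => f k (z k) - ‖x k - z k‖ ^ 2 / (2 * s k)) F
        (𝓝 (f₀ z₀ - ‖x₀ - z₀‖ ^ 2 / (2 * s₀))) := by
    intro z z₀ hz
    refine (h z z₀ hz).sub (Tendsto.div ((hx.sub hz).norm.pow 2) (hs.const_mul 2) ?_)
    positivity
  have hsup : supc s₀ f₀ x₀ = f₀ y₀ - ‖x₀ - y₀‖ ^ 2 / (2 * s₀) := by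
    apply le_antisymm
    · apply supc_le
      intro z
      refine le_of_tendsto_of_tendsto (hlim (fun _ => z) z tendsto_const_nhds) (hlim y y₀ hy₀) ?_
      filter_upwards [hy] with k hk
      exact hk z
    · exact le_supc (h.qup hq) hs₀ x₀ y₀
  refine ⟨y₀, hy₀, hsup, ?_⟩
  rw [hsup]
  exact hlim y y₀ hy₀

/-- sup-convolutions converge jointly (also in `s`) -/
theorem JS.supc [FiniteDimensional ℝ V] {F : Ultrafilter ι} {f : ι → V → ℝ} {f₀ : V → ℝ}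
    (h : JS F f f₀) (hc : ∀ᶠ k in (F : Filter ι), Continuous (f k)) (hq : UQ F f)
    {s : ι → ℝ} {s₀ : ℝ} (hs₀ : 0 < s₀) (hs : Tendsto s F (𝓝 s₀)) :
    JS F (fun k => Sol.supc (s k) (f k)) (Sol.supc s₀ f₀) := by
  intro x x₀ hx
  obtain ⟨C, hC⟩ := hq (1 / (8 * (2 * s₀))) (by positivity)
  have hs1 : ∀ᶠ k in (F : Filter ι), 0 < s k := hs.eventually (lt_mem_nhds hs₀)
  -- eventually `QUp`
  have hex : ∀ᶠ k in (F : Filter ι), ∃ y, (∀ z, f k z - ‖x k - z‖ ^ 2 / (2 * s k)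
      ≤ f k y - ‖x k - y‖ ^ 2 / (2 * s k)) ∧
      Sol.supc (s k) (f k) (x k) = f k y - ‖x k - y‖ ^ 2 / (2 * s k) := by
    have hs2 : ∀ᶠ k in (F : Filter ι), s k ≤ 2 * s₀ := hs.eventually (ge_mem_nhds (by linarith))
    filter_upwards [hc, hC, hs1, hs2] with k h1 h2 h3 h4
    -- a version of `exists_supc` with the weaker growth hypothesis
    have hcont : Continuous fun y => f k y - ‖x k - y‖ ^ 2 / (2 * s k) := by fun_prop
    have hev : ∀ᶠ y in cocompact V, f k y - ‖x k - y‖ ^ 2 / (2 * s k)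
        ≤ f k (x k) - ‖x k - x k‖ ^ 2 / (2 * s k) := by
      have i1 : Tendsto (fun y : V => ‖y‖) (cocompact V) atTop := tendsto_norm_cocompact_atTop
      have i2 : Tendsto (fun y : V => ‖y‖ ^ 2) (cocompact V) atTop :=
        (tendsto_pow_atTop (by norm_num)).comp i1
      filter_upwards [i2.eventually_ge_atTop
        ((C + ‖x k‖ ^ 2 / (2 * s k) - f k (x k)) * (8 * s k))] with y hy
      have i3 := coer h3 h4 h2 (x k) y
      have i4 : C + ‖x k‖ ^ 2 / (2 * s k) - f k (x k) ≤ ‖y‖ ^ 2 / (8 * s k) := by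
        rw [le_div_iff₀ (by positivity)]; exact hy
      simp only [sub_self, norm_zero]
      norm_num
      linarith
    obtain ⟨y, hy⟩ := hcont.exists_forall_ge' (x k) hev
    refine ⟨y, hy, le_antisymm (supc_le hy) ?_⟩
    exact le_ciSup (f := fun y => f k y - ‖x k - y‖ ^ 2 / (2 * s k))
      ⟨_, by rintro _ ⟨z, rfl⟩; exact hy z⟩ y
  obtain ⟨y, hy⟩ := hex.choice
  obtain ⟨y₀, _, _, h3⟩ := h.supc_aux hq hs₀ hs hx (hy.mono fun k hk => hk.1)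
  refine h3.congr' ?_
  filter_upwards [hy] with k hk
  exact hk.2.symm

theorem JS.infc [FiniteDimensional ℝ V] {F : Ultrafilter ι} {f : ι → V → ℝ} {f₀ : V → ℝ}
    (h : JS F f f₀) (hc : ∀ᶠ k in (F : Filter ι), Continuous (f k))
    (hq : UQ F (fun k y => - f k y))
    {s : ι → ℝ} {s₀ : ℝ} (hs₀ : 0 < s₀) (hs : Tendsto s F (𝓝 s₀)) :
    JS F (fun k => Sol.infc (s k) (f k)) (Sol.infc s₀ f₀) := by
  have h1 := (h.neg).supc (hc.mono fun k hk => hk.neg) hq hs₀ hs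
  intro x x₀ hx
  have h2 := (h1 x x₀ hx).neg
  simp only [infc_eq_neg_supc]
  exact h2

/-! ### Convergence of the operators, closedness of the class, compactness -/

omit [InnerProductSpace ℝ V] in
theorem _root_.Crest.Agent.R094.GK.JC.slice {F : Ultrafilter ι} {w : ι → V → ℝ → ℝ}
    {W : V → ℝ → ℝ} (h : JC F w W) {t : ι → ℝ} {t₀ : ℝ} (ht : Tendsto t F (𝓝 t₀)) :
    JS F (fun k y => w k y (t k)) (fun y => W y t₀) := fun x x₀ hx => h x t x₀ t₀ hx ht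

omit [InnerProductSpace ℝ V] in
theorem _root_.Crest.Agent.R094.GK.JC.rev {F : Ultrafilter ι} {w : ι → V → ℝ → ℝ}
    {W : V → ℝ → ℝ} (h : JC F w W) : JC F (fun k => Sol.rev (w k)) (Sol.rev W) :=
  fun x t x₀ t₀ hx ht => (h x (fun k => - t k) x₀ (-t₀) hx ht.neg).neg

theorem uq_slice {F : Ultrafilter ι} {w : ι → V → ℝ → ℝ} {K' : ℝ}
    (hn : ∀ᶠ k in (F : Filter ι), Nrm K' (w k)) {t : ι → ℝ} {t₀ : ℝ} (ht : Tendsto t F (𝓝 t₀)) :
    UQ F (fun k y => w k y (t k)) ∧ UQ F (fun k y => - w k y (t k)) := by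
  have h1 : ∀ᶠ k in (F : Filter ι), |t k| ≤ |t₀| + 1 :=
    ht.abs.eventually (ge_mem_nhds (by linarith))
  constructor
  · intro ε hε
    obtain ⟨C, _, hC⟩ := nrm_quad (V := V) K' (|t₀| + 1) hε
    refine ⟨C, ?_⟩
    filter_upwards [hn, h1] with k h2 h3 y
    exact (le_abs_self _).trans (hC (w k) h2 y (t k) h3)
  · intro ε hε
    obtain ⟨C, _, hC⟩ := nrm_quad (V := V) K' (|t₀| + 1) hε
    refine ⟨C, ?_⟩
    filter_upwards [hn, h1] with k h2 h3 y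
    exact (neg_le_abs _).trans (hC (w k) h2 y (t k) h3)

/-- the forward operator converges jointly -/
theorem _root_.Crest.Agent.R094.GK.JC.T [FiniteDimensional ℝ V] {F : Ultrafilter ι}
    {w : ι → V → ℝ → ℝ} {W : V → ℝ → ℝ} (h : JC F w W) {K' : ℝ}
    (hn : ∀ᶠ k in (F : Filter ι), Nrm K' (w k))
    (hc : ∀ᶠ k in (F : Filter ι), Continuous (fun p : V × ℝ => w k p.1 p.2))
    {s t : ι → ℝ} {s₀ t₀ : ℝ} {x : ι → V} {x₀ : V} (hs₀ : 0 < s₀) (hs : Tendsto s F (𝓝 s₀))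
    (ht : Tendsto t F (𝓝 t₀)) (hx : Tendsto x F (𝓝 x₀)) :
    Tendsto (fun k => Sol.T (s k) (w k) (x k) (t k)) F (𝓝 (Sol.T s₀ W x₀ t₀)) := by
  have hts : Tendsto (fun k => t k + s k) F (𝓝 (t₀ + s₀)) := ht.add hs
  have h1 := (h.slice hts).supc (hc.mono fun k hk => hk.comp (Continuous.prodMk_left (t k + s k)))
    (uq_slice hn hts).1 hs₀ hs
  exact h1 x x₀ hx

/-- the backward operator converges jointly -/
theorem _root_.Crest.Agent.R094.GK.JC.B [FiniteDimensional ℝ V] {F : Ultrafilter ι}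
    {w : ι → V → ℝ → ℝ} {W : V → ℝ → ℝ} (h : JC F w W) {K' : ℝ}
    (hn : ∀ᶠ k in (F : Filter ι), Nrm K' (w k))
    (hc : ∀ᶠ k in (F : Filter ι), Continuous (fun p : V × ℝ => w k p.1 p.2))
    {s t : ι → ℝ} {s₀ t₀ : ℝ} {x : ι → V} {x₀ : V} (hs₀ : 0 < s₀) (hs : Tendsto s F (𝓝 s₀))
    (ht : Tendsto t F (𝓝 t₀)) (hx : Tendsto x F (𝓝 x₀)) :
    Tendsto (fun k => Sol.B (s k) (w k) (x k) (t k)) F (𝓝 (Sol.B s₀ W x₀ t₀)) := by
  have hts : Tendsto (fun k => t k - s k) F (𝓝 (t₀ - s₀)) := ht.sub hs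
  have h1 := (h.slice hts).infc (hc.mono fun k hk => hk.comp (Continuous.prodMk_left (t k - s k)))
    (uq_slice hn hts).2 hs₀ hs
  exact h1 x x₀ hx

theorem isSub_limit [FiniteDimensional ℝ V] {F : Ultrafilter ι}
    {w : ι → V → ℝ → ℝ} {W : V → ℝ → ℝ} (h : JC F w W) {K' : ℝ}
    (hn : ∀ᶠ k in (F : Filter ι), Nrm K' (w k))
    (hc : ∀ᶠ k in (F : Filter ι), Continuous (fun p : V × ℝ => w k p.1 p.2))
    (hsub : ∀ᶠ k in (F : Filter ι), IsSub (w k)) : IsSub W := by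
  intro x t s s' hs hss
  have hs' : 0 < s' := hs.trans_le hss
  have h1 := h.T hn hc hs (tendsto_const_nhds (x := s)) (tendsto_const_nhds (x := t))
    (tendsto_const_nhds (x := x))
  have h2 := h.T hn hc hs' (tendsto_const_nhds (x := s')) (tendsto_const_nhds (x := t))
    (tendsto_const_nhds (x := x))
  have h3 := h (fun _ => x) (fun _ => t) x t tendsto_const_nhds tendsto_const_nhds
  refine le_of_tendsto_of_tendsto h1 ((h3.const_mul (1 - s / s')).add (h2.const_mul (s / s'))) ?_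
  filter_upwards [hsub] with k hk
  exact hk x t s s' hs hss

theorem isSol_limit [FiniteDimensional ℝ V] {F : Ultrafilter ι}
    {w : ι → V → ℝ → ℝ} {W : V → ℝ → ℝ} (h : JC F w W) {K' : ℝ}
    (hn : ∀ᶠ k in (F : Filter ι), Nrm K' (w k)) (hN : Nrm K' W)
    (hWc : Continuous (fun p : V × ℝ => W p.1 p.2))
    (hsol : ∀ᶠ k in (F : Filter ι), IsSol (w k)) : IsSol W := by
  refine ⟨hWc, hN.grow, ?_, ?_⟩
  · exact isSub_limit h hn (hsol.mono fun k hk => hk.cont) (hsol.mono fun k hk => hk.sub)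
  · have h1 : IsSub (Sol.rev W) := isSub_limit (w := fun k => Sol.rev (w k)) h.rev
      (hn.mono fun k hk => hk.rev) (hsol.mono fun k hk => hk.rev.cont)
      (hsol.mono fun k hk => hk.rev.sub)
    have h2 := h1.rev
    rwa [rev_rev] at h2

/-- compactness of the normalised class, for any ultrafilter on any type -/
theorem compact' [FiniteDimensional ℝ V] (F : Ultrafilter ι) (K K' : ℝ) (w : ι → V → ℝ → ℝ)
    (hw : ∀ᶠ k in (F : Filter ι), Cls K (w k)) (hn : ∀ᶠ k in (F : Filter ι), Nrm K' (w k)) :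
    ∃ W : V → ℝ → ℝ, Cls K W ∧ Nrm K' W ∧ JC F w W := by
  obtain ⟨W, h1, h2, h3, h4⟩ := compact_flat F K K' w (hw.mono fun k hk => hk.flat) hn
  obtain ⟨k, hk⟩ := hw.exists
  exact ⟨W, ⟨hk.pos, isSol_limit h3 hn h2 h4 (hw.mono fun k hk => hk.sol), h1⟩, h2, h3⟩

end limits

/-- `Compact_stmt` -/
theorem compact [FiniteDimensional ℝ V] : Compact_stmt V := fun F K K' w hw hn =>
  compact' F K K' w hw hn

end Crest.Agent.R094.FlatCpt
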