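import Crest.Agent.R094.FlatCpt

set_option autoImplicit false

/-!
Row 94 (S0124), route 7921 (helper240).  Slope bounds (`Slope_stmt`).
-/

namespace Crest.Agent.R094.FlatCpt

open Sol GK Filter Topology Set
open scoped InnerProductSpace

variable {V : Type*} [NormedAddCommGroup V] [InnerProductSpace ℝ V]

/-! ### Slope bounds -/

theorem nat_le_sqrt (n : ℕ) : (n:ℝ) ≤ 5 / 2 * Real.sqrt (2 ^ n) := by
  have h1 : 1 + (n:ℝ) * (2 / 5) ≤ (7 / 5 : ℝ) ^ n := by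
    have := one_add_mul_le_pow (a := (2/5:ℝ)) (by norm_num) n
    calc 1 + (n:ℝ) * (2 / 5) ≤ (1 + 2 / 5 : ℝ) ^ n := this
      _ = (7 / 5 : ℝ) ^ n := by norm_num
  have h2 : (7 / 5 : ℝ) ^ n ≤ Real.sqrt (2 ^ n) := by
    apply Real.le_sqrt_of_sq_le
    rw [← pow_mul, mul_comm, pow_mul]
    exact pow_le_pow_left₀ (by norm_num) (by norm_num) n
  linarith

set_option maxHeartbeats 1000000 in
theorem slope_bound (K K' : ℝ) : ∃ C, 0 ≤ C ∧ ∀ w : V → ℝ → ℝ, GK.Flat K w → Nrm K' w →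
    ∀ (x₀ : V) (t₀ τ : ℝ) (p : V) (b : ℝ), 0 < τ → τ ≤ 1 → FD K w x₀ t₀ τ p b →
      ‖p‖ ≤ C * Real.sqrt ((1 + ‖x₀‖ + |t₀|) / τ) ∧ |b| ≤ C * (1 + ‖x₀‖ + |t₀|) ^ 2 / τ := by
  by_cases hK : 0 ≤ K
  swap
  · refine ⟨0, le_rfl, fun w _ _ x₀ t₀ τ p b hτ _ hFD => absurd (hFD.nonneg hτ) hK⟩
  by_cases hK' : 0 ≤ K'
  swap
  · exact ⟨0, le_rfl, fun w _ hn => absurd hn.nonneg hK'⟩
  have hg2 : 0 ≤ Flat.g 2 := Flat.g_nonneg (by norm_num)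
  set κ : ℝ := 1 + K * Flat.g 2 with hκdef
  have hκ : 1 ≤ κ := by rw [hκdef]; linarith [mul_nonneg hK hg2]
  have hκ0 : 0 < κ := by linarith
  set c5 : ℝ := (5:ℝ) ^ (3 / 2 : ℝ) with hc5
  have hc50 : 0 ≤ c5 := by positivity
  set c1 : ℝ := κ + 2 * (K' * c5) with hc1
  have hc10 : 0 ≤ c1 := by positivity
  set c2 : ℝ := c1 + 12 * κ with hc2
  have hc20 : 0 ≤ c2 := by positivity
  refine ⟨c2 + (2 * (1 + c1) ^ 2 + 36 * κ ^ 2 + c2 ^ 2 / 2), by positivity, ?_⟩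
  intro w hf hn x₀ t₀ τ p b hτ hτ1 hFD
  set R : ℝ := 1 + ‖x₀‖ + |t₀| with hR
  have hR1 : 1 ≤ R := by rw [hR]; linarith [norm_nonneg x₀, abs_nonneg t₀]
  have hR0 : 0 < R := by linarith
  -- the scale
  obtain ⟨N, hN1, hN2⟩ : ∃ N : ℕ, R ≤ 2 ^ N * τ ∧ 2 ^ N * τ ≤ 2 * R := by
    classical
    have hex : ∃ n : ℕ, R ≤ (2:ℝ) ^ n * τ := by
      obtain ⟨n, hn⟩ := pow_unbounded_of_one_lt (R / τ) (by norm_num : (1:ℝ) < 2)
      exact ⟨n, by rw [div_lt_iff₀ hτ] at hn; exact hn.le⟩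
    refine ⟨Nat.find hex, Nat.find_spec hex, ?_⟩
    rcases Nat.eq_zero_or_pos (Nat.find hex) with h0 | h0
    · rw [h0, pow_zero, one_mul]; linarith
    · obtain ⟨m, hm⟩ := Nat.exists_eq_succ_of_ne_zero h0.ne'
      have h1 : ¬ (R ≤ (2:ℝ) ^ m * τ) := Nat.find_min hex (by omega)
      push Not at h1
      rw [hm, Nat.succ_eq_add_one, pow_succ]
      linarith
  set σ : ℝ := 2 ^ N * τ with hσ
  have hσ0 : 0 < σ := by positivity
  set S : ℝ := Real.sqrt R with hS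
  have hS1 : 1 ≤ S := by rw [hS]; exact Real.one_le_sqrt.2 hR1
  have hS2 : S ^ 2 = R := Real.sq_sqrt hR0.le
  have h5R : (5 * R) ^ (3 / 2 : ℝ) = c5 * S ^ 3 := by
    rw [Real.mul_rpow (by norm_num) hR0.le, hc5]
    congr 1
    rw [hS, Real.sqrt_eq_rpow, ← Real.rpow_natCast, ← Real.rpow_mul hR0.le]
    norm_num
  set M : ℝ := K' * (c5 * S ^ 3) with hM
  have hM0 : 0 ≤ M := by positivity
  have hwM : ∀ x t, ‖x‖ ≤ σ → |t| ≤ σ → |w (x₀ + x) (t₀ + t)| ≤ M := by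
    intro x t hx ht
    have h1 : ‖x₀ + x‖ + |t₀ + t| ≤ 5 * R - 1 := by
      have := norm_add_le x₀ x
      have := abs_add_le t₀ t
      linarith
    have := hn.bound h1
    rwa [show 1 + (5 * R - 1) = 5 * R by ring, h5R] at this
  -- windows at all dyadic scales
  have hwin : ∀ n : ℕ, ∃ p b, Flat.Win κ w x₀ t₀ (2 ^ n * τ) p b := by
    intro n
    obtain ⟨p, b, hp⟩ := hf x₀ t₀ (2 ^ n * τ) (by positivity)
    exact ⟨p, b, hp.win (by positivity)⟩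
  choose P B hPB using hwin
  let P' : ℕ → V := fun n => if n = 0 then p else P n
  let B' : ℕ → ℝ := fun n => if n = 0 then b else B n
  have hW : ∀ j ≤ N, Flat.Win κ w x₀ t₀ (2 ^ j * τ) (P' j) (B' j) := by
    intro j hjN
    rcases Nat.eq_zero_or_pos j with hj | hj
    · subst hj; simpa [P', B'] using hFD.win hτ
    · have : j ≠ 0 := hj.ne'
      simpa [P', B', this] using hPB j
  obtain ⟨h1, h2⟩ := Flat.drift_seq hκ hτ P' B' N hW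
  obtain ⟨h3, h4⟩ := (hW N le_rfl).bounds hκ0.le hM0 hσ0 hwM
  have eP : P' 0 = p := by simp [P']
  have eB : B' 0 = b := by simp [B']
  rw [eP] at h1
  rw [eP, eB] at h2
  have hMσ : 2 * M / σ ≤ 2 * (K' * c5) * S := by
    rw [div_le_iff₀ hσ0, hM]
    have : S ^ 2 ≤ σ := by rw [hS2]; exact hN1
    calc 2 * (K' * (c5 * S ^ 3)) = 2 * (K' * c5) * S * S ^ 2 := by ring
      _ ≤ 2 * (K' * c5) * S * σ := by gcongr
  set Q : ℝ := Real.sqrt (R / τ) with hQ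
  have hQ2 : Q ^ 2 = R / τ := Real.sq_sqrt (by positivity)
  have hSQ : S ≤ Q := by
    rw [hS, hQ]; apply Real.sqrt_le_sqrt
    rw [le_div_iff₀ hτ]
    have := mul_le_mul_of_nonneg_left hτ1 hR0.le
    linarith
  have hQ1 : 1 ≤ Q := hS1.trans hSQ
  have hNQ : (N:ℝ) ≤ 4 * Q := by
    have h5 : Real.sqrt (2 ^ N) ≤ 3 / 2 * Q := by
      have e : (2:ℝ) ^ N ≤ (3 / 2 * Q) ^ 2 := by
        rw [mul_pow, hQ2]
        have : (2:ℝ) ^ N ≤ 2 * R / τ := by rw [le_div_iff₀ hτ]; exact hN2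
        have h6 : 0 ≤ R / τ := by positivity
        calc (2:ℝ) ^ N ≤ 2 * R / τ := this
          _ = 2 * (R / τ) := by ring
          _ ≤ (3 / 2) ^ 2 * (R / τ) := by
            rw [show ((3:ℝ) / 2) ^ 2 = 9 / 4 by norm_num]; linarith
      exact (Real.sqrt_le_sqrt e).trans_eq (Real.sqrt_sq (by positivity))
    have := nat_le_sqrt N
    linarith
  have hp1 : ‖P' N‖ ≤ c1 * S := by
    have : κ ≤ κ * S := le_mul_of_one_le_right hκ0.le hS1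
    rw [hc1]; linarith
  have hp : ‖p‖ ≤ c2 * Q := by
    have e : p = P' N - (P' N - p) := by abel
    have h5 : ‖p‖ ≤ ‖P' N‖ + ‖P' N - p‖ := by
      calc ‖p‖ = ‖P' N - (P' N - p)‖ := by rw [← e]
        _ ≤ _ := norm_sub_le _ _
    have h6 : c1 * S ≤ c1 * Q := by gcongr
    have h7 : 3 * κ * N ≤ 12 * κ * Q := by
      have := mul_le_mul_of_nonneg_left hNQ (by positivity : 0 ≤ 3 * κ)
      linarith
    rw [hc2]; linarith
  have hh : |b - ‖p‖ ^ 2 / 2| ≤ 2 * (1 + c1) ^ 2 * R + 36 * κ ^ 2 * Q := by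
    have h5 : 2 * (1 + κ + 2 * M / σ) ^ 2 ≤ 2 * (1 + c1) ^ 2 * R := by
      have h6 : 1 + κ + 2 * M / σ ≤ (1 + c1) * S := by
        have h60 : κ ≤ κ * S := le_mul_of_one_le_right hκ0.le hS1
        rw [hc1]; linarith
      have h7 : (1 + κ + 2 * M / σ) ^ 2 ≤ ((1 + c1) * S) ^ 2 := by gcongr
      rw [mul_pow, hS2] at h7
      linarith
    have h8 : 9 * κ ^ 2 * N ≤ 36 * κ ^ 2 * Q := by
      have := mul_le_mul_of_nonneg_left hNQ (by positivity : 0 ≤ 9 * κ ^ 2)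
      linarith
    rw [abs_le] at h2 h4 ⊢
    constructor <;> linarith [h2.1, h2.2, h4.1, h4.2]
  have hRR0 : R ≤ R ^ 2 := by
    have := mul_le_mul_of_nonneg_left hR1 hR0.le
    rw [sq]; linarith
  have hRR : R ≤ R ^ 2 / τ := by
    rw [le_div_iff₀ hτ]
    have := mul_le_mul_of_nonneg_left hτ1 hR0.le
    linarith
  have hQR : Q ^ 2 ≤ R ^ 2 / τ := by
    rw [hQ2]; gcongr
  refine ⟨?_, ?_⟩
  · have h9 : 0 ≤ (2 * (1 + c1) ^ 2 + 36 * κ ^ 2 + c2 ^ 2 / 2) := by positivity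
    have h10 : 0 ≤ Q := by linarith
    have h11 := mul_nonneg h9 h10
    calc ‖p‖ ≤ c2 * Q := hp
      _ ≤ c2 * Q + (2 * (1 + c1) ^ 2 + 36 * κ ^ 2 + c2 ^ 2 / 2) * Q := by linarith
      _ = _ := by ring
  · have h10 : |b| ≤ |b - ‖p‖ ^ 2 / 2| + ‖p‖ ^ 2 / 2 := by
      have : b = (b - ‖p‖ ^ 2 / 2) + ‖p‖ ^ 2 / 2 := by ring
      calc |b| = |(b - ‖p‖ ^ 2 / 2) + ‖p‖ ^ 2 / 2| := by rw [← this]
        _ ≤ |b - ‖p‖ ^ 2 / 2| + |‖p‖ ^ 2 / 2| := abs_add_le _ _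
        _ = _ := by rw [abs_of_nonneg (by positivity : 0 ≤ ‖p‖ ^ 2 / 2)]
    have h11 : ‖p‖ ^ 2 ≤ c2 ^ 2 * Q ^ 2 := by rw [← mul_pow]; gcongr
    have h12 : Q ≤ Q ^ 2 := by
      have := mul_le_mul_of_nonneg_left hQ1 (by linarith : (0:ℝ) ≤ Q)
      rw [sq]; linarith
    have h13 : |b| ≤ (2 * (1 + c1) ^ 2 + 36 * κ ^ 2 + c2 ^ 2 / 2) * (R ^ 2 / τ) := by
      calc |b| ≤ 2 * (1 + c1) ^ 2 * R + 36 * κ ^ 2 * Q + c2 ^ 2 * Q ^ 2 / 2 := by linarith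
        _ ≤ 2 * (1 + c1) ^ 2 * (R ^ 2 / τ) + 36 * κ ^ 2 * (R ^ 2 / τ)
            + c2 ^ 2 * (R ^ 2 / τ) / 2 := by
          have := h12.trans hQR
          gcongr
        _ = _ := by ring
    have h14 : 0 ≤ c2 * (R ^ 2 / τ) := by positivity
    calc |b| ≤ (2 * (1 + c1) ^ 2 + 36 * κ ^ 2 + c2 ^ 2 / 2) * (R ^ 2 / τ) := h13
      _ ≤ (c2 + (2 * (1 + c1) ^ 2 + 36 * κ ^ 2 + c2 ^ 2 / 2)) * (R ^ 2 / τ) := by linarith
      _ = _ := by ring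

theorem slope [FiniteDimensional ℝ V] : Slope_stmt V := by
  intro K K'
  obtain ⟨C, hC0, hC⟩ := slope_bound (V := V) K K'
  exact ⟨C, hC0, fun w hw hn x₀ t₀ τ p b hτ hτ1 h => hC w hw.flat hn x₀ t₀ τ p b hτ hτ1 h⟩

end Crest.Agent.R094.FlatCpt
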