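import Crest.Agent.R094.StaticSub
import Crest.Agent.R094.SolDefs

/-!
Row 94: locally uniform limits (along any filter) of boosted and rescaled static
infinity-harmonic functions satisfy (Sub) and (Sup).
-/

set_option autoImplicit false
open scoped Topology RealInnerProductSpace
open Set Filter Metric

namespace Crest.Agent.R094.LocSub

open Crest.Agent.R094.Cones Crest.Agent.R094.Sol

section General

variable {V : Type*} [NormedAddCommGroup V] [InnerProductSpace ℝ V]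

omit [InnerProductSpace ℝ V] in
theorem bddAbove_T {W : V → ℝ → ℝ} (hW : Grow W) {s : ℝ} (hs : 0 < s) (x : V) (t : ℝ) :
    BddAbove (range fun y => W y (t + s) - ‖x - y‖ ^ 2 / (2 * s)) := by
  obtain ⟨C, hC⟩ := hW (|t + s|) (1 / (4 * s)) (by positivity)
  refine ⟨C + ‖x‖ ^ 2 / (2 * s), ?_⟩
  rintro _ ⟨y, rfl⟩
  have h1 := (abs_le.1 (hC y (t + s) le_rfl)).2
  have h2 : ‖y‖ ≤ ‖x‖ + ‖x - y‖ := by
    have := norm_sub_le x (x - y)
    simpa using this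
  have h3 : ‖y‖ ^ 2 ≤ 2 * ‖x‖ ^ 2 + 2 * ‖x - y‖ ^ 2 := by
    nlinarith [norm_nonneg y, norm_nonneg x, norm_nonneg (x - y), sq_nonneg (‖x‖ - ‖x - y‖)]
  have h4 : 1 / (4 * s) * ‖y‖ ^ 2 ≤ ‖x‖ ^ 2 / (2 * s) + ‖x - y‖ ^ 2 / (2 * s) := by
    calc 1 / (4 * s) * ‖y‖ ^ 2 ≤ 1 / (4 * s) * (2 * ‖x‖ ^ 2 + 2 * ‖x - y‖ ^ 2) := by gcongr
      _ = _ := by field_simp; ring
  dsimp only
  linarith

/-- (Sub) with a competitor of norm at most `R`. -/
def SubAt (w : V → ℝ → ℝ) (x : V) (t : ℝ) (y : V) (s s' R : ℝ) : Prop :=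
  ∃ y' : V, ‖y'‖ ≤ R ∧ w y (t + s) - ‖x - y‖ ^ 2 / (2 * s) ≤
    (1 - s / s') * w x t + (s / s') * (w y' (t + s') - ‖x - y'‖ ^ 2 / (2 * s'))

theorem isSub_of_subAt {W : V → ℝ → ℝ} (hW : Grow W)
    (h : ∀ x t y s s', 0 < s → s ≤ s' → ∃ R, SubAt W x t y s s' R) : IsSub W := by
  intro x t s s' hs hss
  have hs' : 0 < s' := hs.trans_le hss
  unfold T
  refine ciSup_le fun y => ?_
  obtain ⟨R, y', -, hy'⟩ := h x t y s s' hs hss
  refine hy'.trans ?_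
  have h1 := le_ciSup (bddAbove_T hW hs' x t) y'
  have h2 : 0 ≤ s / s' := by positivity
  have := mul_le_mul_of_nonneg_left h1 h2
  linarith

omit [InnerProductSpace ℝ V] in
theorem T_rev (W : V → ℝ → ℝ) (x : V) (t r : ℝ) : T r (rev W) x (-t) = - B r W x t := by
  unfold T B rev
  simp only [iSup, iInf]
  rw [← Real.sSup_neg]
  congr 1
  ext a
  simp only [Set.mem_range, Set.mem_neg]
  refine exists_congr fun y => ?_
  rw [show -(-t + r) = t - r by ring]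
  constructor <;> intro h <;> linarith

theorem isSup_of_rev {W : V → ℝ → ℝ} (h : IsSub (rev W)) : IsSup W := by
  intro x t s s' hs hss
  have h1 := h x (-t) s s' hs hss
  rw [T_rev, T_rev] at h1
  simp only [rev, neg_neg] at h1
  linarith

omit [InnerProductSpace ℝ V] in
/-- stability of the pointwise inequality under locally uniform convergence -/
theorem subAt_of_limit [ProperSpace V] {κ : Type*} {l : Filter κ} [l.NeBot]
    {w : κ → V → ℝ → ℝ} {W : V → ℝ → ℝ} (hcont : Continuous fun q : V × ℝ => W q.1 q.2)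
    (hconv : ∀ R ε : ℝ, 0 < ε → ∀ᶠ k in l, ∀ y t, ‖y‖ ≤ R → |t| ≤ R → |w k y t - W y t| ≤ ε)
    {x y : V} {t s s' R : ℝ} (hs : 0 < s) (hss : s ≤ s')
    (h : ∀ᶠ k in l, SubAt (w k) x t y s s' R) : SubAt W x t y s s' R := by
  have hs' : 0 < s' := hs.trans_le hss
  have hθ0 : 0 ≤ s / s' := by positivity
  have hθ1 : s / s' ≤ 1 := (div_le_one hs').2 hss
  -- maximiser of the competitor functional on the closed ball
  have hne : (closedBall (0 : V) R).Nonempty := by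
    obtain ⟨k, y', hy', -⟩ := h.exists
    exact ⟨y', by simpa using hy'⟩
  have hc : ContinuousOn (fun z : V => W z (t + s') - ‖x - z‖ ^ 2 / (2 * s')) (closedBall 0 R) := by
    have h1 : Continuous fun z : V => W z (t + s') :=
      hcont.comp (continuous_id.prodMk continuous_const)
    fun_prop
  obtain ⟨z, hz, hmax⟩ := (isCompact_closedBall (0 : V) R).exists_isMaxOn hne hc
  refine ⟨z, by simpa using hz, ?_⟩
  refine le_of_forall_pos_le_add fun ε hε => ?_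
  set M : ℝ := max R (max (max ‖x‖ ‖y‖) (|t| + s')) with hM
  have hcv := hconv M (ε / 3) (by positivity)
  obtain ⟨k, hk1, y', hy', hk2⟩ := (hcv.and h).exists
  have a1 : |t| ≤ M := by
    have : |t| ≤ |t| + s' := by linarith
    exact this.trans ((le_max_right _ _).trans (le_max_right _ _))
  have a2 : |t + s'| ≤ M := by
    have : |t + s'| ≤ |t| + s' := by
      have := abs_add_le t s'
      rwa [abs_of_pos hs'] at this
    exact this.trans ((le_max_right _ _).trans (le_max_right _ _))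
  have a3 : |t + s| ≤ M := by
    have : |t + s| ≤ |t| + s' := by
      have := abs_add_le t s
      rw [abs_of_pos hs] at this
      linarith
    exact this.trans ((le_max_right _ _).trans (le_max_right _ _))
  have a4 : ‖x‖ ≤ M := (le_max_left _ _).trans ((le_max_left _ _).trans (le_max_right _ _))
  have a5 : ‖y‖ ≤ M := (le_max_right _ _).trans ((le_max_left _ _).trans (le_max_right _ _))
  have a6 : ‖y'‖ ≤ M := hy'.trans (le_max_left _ _)
  have b1 := abs_le.1 (hk1 y (t + s) a5 a3)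
  have b2 := abs_le.1 (hk1 x t a4 a1)
  have b3 := abs_le.1 (hk1 y' (t + s') a6 a2)
  have hy'mem : y' ∈ closedBall (0 : V) R := by simpa using hy'
  have b4 : W y' (t + s') - ‖x - y'‖ ^ 2 / (2 * s') ≤ W z (t + s') - ‖x - z‖ ^ 2 / (2 * s') :=
    hmax hy'mem
  have c1 : (1 - s / s') * w k x t ≤ (1 - s / s') * W x t + ε / 3 := by
    have : (1 - s / s') * w k x t ≤ (1 - s / s') * (W x t + ε / 3) :=
      mul_le_mul_of_nonneg_left (by linarith [b2.2]) (by linarith)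
    nlinarith
  have c2 : (s / s') * (w k y' (t + s') - ‖x - y'‖ ^ 2 / (2 * s'))
      ≤ (s / s') * (W z (t + s') - ‖x - z‖ ^ 2 / (2 * s')) + ε / 3 := by
    have : (s / s') * (w k y' (t + s') - ‖x - y'‖ ^ 2 / (2 * s'))
        ≤ (s / s') * (W z (t + s') - ‖x - z‖ ^ 2 / (2 * s') + ε / 3) :=
      mul_le_mul_of_nonneg_left (by linarith [b3.2]) hθ0
    nlinarith
  linarith [b1.1, b1.2]

end General

section Static

variable {ι : Type*} [Fintype ι]

local notation "E" => EuclideanSpace ℝ ι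

/-- time reversal of the boosted function -/
theorem bst_neg (u : E → ℝ) (x0 p : E) (σ τ η b : ℝ) (x : E) (t : ℝ) :
    bst (fun y => - u y) x0 (-p) σ τ η b x t = rev (bst u x0 p σ τ η b) x t := by
  unfold bst rev
  have : x0 + σ • x + (τ * t) • (-p) = x0 + σ • x + (τ * (-t)) • p := by
    rw [smul_neg, mul_neg, neg_smul]
  rw [this, inner_neg_left]
  ring

set_option maxHeartbeats 1000000 in
/-- growth on the window localises the competitors -/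
theorem subAt_bst {κ : Type*} {l : Filter κ} {Ω : κ → Set E} {u : κ → E → ℝ} {x0 p : κ → E}
    {σ τ η b Λ : κ → ℝ}
    (hu : ∀ᶠ k in l, CC (u k) (Ω k))
    (hpos : ∀ᶠ k in l, 0 < σ k ∧ 0 < τ k ∧ 0 < η k ∧ σ k ^ 2 = η k * τ k)
    (hdom : ∀ R : ℝ, ∀ᶠ k in l, closedBall (x0 k) (R * (σ k + τ k * ‖p k‖)) ⊆ Ω k)
    (hwin : ∀ M : ℝ, ∀ᶠ k in l, M * (1 + τ k * ‖p k‖ / σ k) ≤ Λ k)
    (hgrow : ∀ R ε : ℝ, 0 < ε → ∃ C : ℝ, ∀ᶠ k in l, ∀ y t, ‖y‖ ≤ Λ k → |t| ≤ R →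
      |bst (u k) (x0 k) (p k) (σ k) (τ k) (η k) (b k) y t| ≤ ε * ‖y‖ ^ 2 + C)
    (x : E) (t : ℝ) (y : E) {s s' : ℝ} (hs : 0 < s) (hss : s ≤ s') :
    ∃ R : ℝ, ∀ᶠ k in l,
      SubAt (bst (u k) (x0 k) (p k) (σ k) (τ k) (η k) (b k)) x t y s s' R := by
  have hs' : 0 < s' := hs.trans_le hss
  have hθ0 : 0 < s / s' := by positivity
  have hθ1 : s / s' ≤ 1 := (div_le_one hs').2 hss
  have hss1 : 1 ≤ s' / s := (one_le_div hs).2 hss
  obtain ⟨C, hC⟩ := hgrow (|t| + s') (1 / (8 * s')) (by positivity)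
  -- constants
  set m1 : ℝ := ‖x‖ + |t| + s' / s * (‖y - x‖ + s) with hm1
  set m2 : ℝ := ‖x‖ + 2 * s' + s' / s * ‖y - x‖ + ‖y‖ with hm2
  set K : ℝ := 4 * s' * ((2 * ‖x‖ ^ 2) / (8 * s') + |C|
      + (s' / s) * (((1 / (8 * s')) * ‖x‖ ^ 2 + |C|) + ((1 / (8 * s')) * ‖y‖ ^ 2 + |C|)
        + ‖x - y‖ ^ 2 / (2 * s))) with hK
  have hK0 : 0 ≤ K := by positivity
  refine ⟨‖x‖ + (1 + K), ?_⟩
  filter_upwards [hu, hpos, hdom m1, hwin m2, hC] with k hk1 ⟨hσ, hτ, hη, hst⟩ hk3 hk4 hk5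
  have hball : closedBall (x0 k + σ k • x + (τ k * t) • p k)
      (s' / s * ‖σ k • (y - x) + (τ k * s) • p k‖) ⊆ Ω k := by
    refine Subset.trans ?_ hk3
    refine closedBall_subset_closedBall' ?_
    have e1 : dist (x0 k + σ k • x + (τ k * t) • p k) (x0 k) ≤ σ k * ‖x‖ + τ k * |t| * ‖p k‖ := by
      rw [dist_eq_norm, show x0 k + σ k • x + (τ k * t) • p k - x0 k
        = σ k • x + (τ k * t) • p k by abel]
      refine (norm_add_le _ _).trans ?_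
      rw [norm_smul, norm_smul, Real.norm_eq_abs, Real.norm_eq_abs, abs_mul, abs_of_pos hσ,
        abs_of_pos hτ]
    have e2 : ‖σ k • (y - x) + (τ k * s) • p k‖ ≤ σ k * ‖y - x‖ + τ k * s * ‖p k‖ := by
      refine (norm_add_le _ _).trans ?_
      rw [norm_smul, norm_smul, Real.norm_eq_abs, Real.norm_eq_abs, abs_mul, abs_of_pos hσ,
        abs_of_pos hτ, abs_of_pos hs]
    have e3 : s' / s * ‖σ k • (y - x) + (τ k * s) • p k‖
        ≤ s' / s * (σ k * ‖y - x‖ + τ k * s * ‖p k‖) :=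
      mul_le_mul_of_nonneg_left e2 (by positivity)
    have e4 : s' / s * (σ k * ‖y - x‖ + τ k * s * ‖p k‖) + (σ k * ‖x‖ + τ k * |t| * ‖p k‖)
        ≤ m1 * (σ k + τ k * ‖p k‖) := by
      have q1 : 0 ≤ τ k * ‖p k‖ := by positivity
      have q2 : 0 ≤ s' / s := by positivity
      have : m1 * (σ k + τ k * ‖p k‖) - (s' / s * (σ k * ‖y - x‖ + τ k * s * ‖p k‖)
          + (σ k * ‖x‖ + τ k * |t| * ‖p k‖))
          = σ k * (|t| + s' / s * s) + τ k * ‖p k‖ * (‖x‖ + s' / s * ‖y - x‖) := by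
        rw [hm1]; ring
      have : 0 ≤ σ k * (|t| + s' / s * s) + τ k * ‖p k‖ * (‖x‖ + s' / s * ‖y - x‖) := by
        positivity
      linarith
    linarith
  obtain ⟨y', hy1, hy2⟩ := sub_boost hk1 (x0 := x0 k) (p := p k) (b := b k) hσ hτ hη hst hs hss hball
  -- size of y' a priori: in the window
  have hy3 : ‖y' - x‖ ≤ 2 * s' * (τ k * ‖p k‖ / σ k) + s' / s * ‖y - x‖ := by
    have e0 : σ k • (y' - x) = (σ k • (y' - x) + (τ k * s') • p k) - (τ k * s') • p k := by abel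
    have e1 : σ k * ‖y' - x‖ ≤ ‖σ k • (y' - x) + (τ k * s') • p k‖ + τ k * s' * ‖p k‖ := by
      have h1 : ‖σ k • (y' - x)‖ ≤ ‖σ k • (y' - x) + (τ k * s') • p k‖ + ‖(τ k * s') • p k‖ := by
        calc ‖σ k • (y' - x)‖ = ‖(σ k • (y' - x) + (τ k * s') • p k) - (τ k * s') • p k‖ := by
              rw [← e0]
          _ ≤ _ := norm_sub_le _ _
      rw [norm_smul, norm_smul, Real.norm_eq_abs, Real.norm_eq_abs, abs_mul, abs_of_pos hσ,
        abs_of_pos hτ, abs_of_pos hs'] at h1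
      exact h1
    have e2 : ‖σ k • (y - x) + (τ k * s) • p k‖ ≤ σ k * ‖y - x‖ + τ k * s * ‖p k‖ := by
      refine (norm_add_le _ _).trans ?_
      rw [norm_smul, norm_smul, Real.norm_eq_abs, Real.norm_eq_abs, abs_mul, abs_of_pos hσ,
        abs_of_pos hτ, abs_of_pos hs]
    have e3 : s' / s * ‖σ k • (y - x) + (τ k * s) • p k‖
        ≤ s' / s * (σ k * ‖y - x‖ + τ k * s * ‖p k‖) :=
      mul_le_mul_of_nonneg_left e2 (by positivity)
    have e4 : s' / s * (σ k * ‖y - x‖ + τ k * s * ‖p k‖)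
        = σ k * (s' / s * ‖y - x‖) + τ k * s' * ‖p k‖ := by field_simp
    have e5 : σ k * ‖y' - x‖ ≤ σ k * (2 * s' * (τ k * ‖p k‖ / σ k) + s' / s * ‖y - x‖) := by
      have : σ k * (2 * s' * (τ k * ‖p k‖ / σ k) + s' / s * ‖y - x‖)
          = 2 * (τ k * s' * ‖p k‖) + σ k * (s' / s * ‖y - x‖) := by field_simp
      rw [this]; linarith
    exact le_of_mul_le_mul_left e5 hσ
  have hq : 0 ≤ τ k * ‖p k‖ / σ k := by positivity
  have hy'n : ‖y'‖ ≤ ‖x‖ + ‖y' - x‖ := by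
    have := norm_add_le x (y' - x)
    simpa using this
  have hwy' : ‖y'‖ ≤ Λ k := by
    refine le_trans ?_ hk4
    have : m2 * (1 + τ k * ‖p k‖ / σ k) = ‖x‖ + 2 * s' + s' / s * ‖y - x‖ + ‖y‖
        + 2 * s' * (τ k * ‖p k‖ / σ k)
        + (‖x‖ + s' / s * ‖y - x‖ + ‖y‖) * (τ k * ‖p k‖ / σ k) := by rw [hm2]; ring
    have : 0 ≤ (‖x‖ + s' / s * ‖y - x‖ + ‖y‖) * (τ k * ‖p k‖ / σ k) := by positivity
    have := norm_nonneg y
    linarith
  have hm2Λ : m2 ≤ Λ k := by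
    refine le_trans ?_ hk4
    have : 0 ≤ m2 := by positivity
    nlinarith
  have hwx : ‖x‖ ≤ Λ k := by
    refine le_trans ?_ hm2Λ
    have : 0 ≤ s' / s * ‖y - x‖ := by positivity
    have := norm_nonneg y
    rw [hm2]; linarith
  have hwy : ‖y‖ ≤ Λ k := by
    refine le_trans ?_ hm2Λ
    have : 0 ≤ s' / s * ‖y - x‖ := by positivity
    have := norm_nonneg x
    rw [hm2]; linarith
  have ht1 : |t| ≤ |t| + s' := by linarith
  have ht2 : |t + s| ≤ |t| + s' := by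
    have := abs_add_le t s
    rw [abs_of_pos hs] at this
    linarith
  have ht3 : |t + s'| ≤ |t| + s' := by
    have := abs_add_le t s'
    rwa [abs_of_pos hs'] at this
  have g1 := abs_le.1 (hk5 x t hwx ht1)
  have g2 := abs_le.1 (hk5 y (t + s) hwy ht2)
  have g3 := abs_le.1 (hk5 y' (t + s') hwy' ht3)
  have hCa := le_abs_self C
  set wk := bst (u k) (x0 k) (p k) (σ k) (τ k) (η k) (b k) with hwk
  refine ⟨y', ?_, by rw [norm_sub_rev x y, norm_sub_rev x y']; exact hy2⟩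
  -- bound for `r = ‖y' - x‖`
  set r := ‖y' - x‖ with hr
  have hr0 : 0 ≤ r := norm_nonneg _
  have h1 : (s / s') * (r ^ 2 / (2 * s')) ≤ (s / s') * wk y' (t + s') + (1 - s / s') * wk x t
      - wk y (t + s) + ‖x - y‖ ^ 2 / (2 * s) := by
    rw [norm_sub_rev x y]
    have : (s / s') * (wk y' (t + s') - r ^ 2 / (2 * s'))
      = (s / s') * wk y' (t + s') - (s / s') * (r ^ 2 / (2 * s')) := by ring
    linarith [hy2]
  have h2 : (1 - s / s') * wk x t ≤ (1 / (8 * s')) * ‖x‖ ^ 2 + |C| := by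
    have h0 : 0 ≤ (1 / (8 * s')) * ‖x‖ ^ 2 + |C| := by positivity
    calc (1 - s / s') * wk x t ≤ (1 - s / s') * ((1 / (8 * s')) * ‖x‖ ^ 2 + |C|) :=
          mul_le_mul_of_nonneg_left (by linarith [g1.2]) (by linarith)
      _ ≤ 1 * ((1 / (8 * s')) * ‖x‖ ^ 2 + |C|) := by
          gcongr; linarith
      _ = _ := one_mul _
  have h3 : - wk y (t + s) ≤ (1 / (8 * s')) * ‖y‖ ^ 2 + |C| := by linarith [g2.1]
  have h4 : wk y' (t + s') ≤ (1 / (8 * s')) * (2 * ‖x‖ ^ 2 + 2 * r ^ 2) + |C| := by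
    have h5 : ‖y'‖ ^ 2 ≤ 2 * ‖x‖ ^ 2 + 2 * r ^ 2 := by
      nlinarith [norm_nonneg y', norm_nonneg x, sq_nonneg (‖x‖ - r)]
    have : (1 / (8 * s')) * ‖y'‖ ^ 2 ≤ (1 / (8 * s')) * (2 * ‖x‖ ^ 2 + 2 * r ^ 2) := by gcongr
    linarith [g3.2]
  have h5 : (s / s') * (r ^ 2 / (2 * s')) ≤ (s / s') * ((1 / (8 * s')) * (2 * ‖x‖ ^ 2 + 2 * r ^ 2)
      + |C|) + (((1 / (8 * s')) * ‖x‖ ^ 2 + |C|) + ((1 / (8 * s')) * ‖y‖ ^ 2 + |C|)
        + ‖x - y‖ ^ 2 / (2 * s)) := by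
    have := mul_le_mul_of_nonneg_left h4 hθ0.le
    linarith
  have h6 : r ^ 2 / (2 * s') ≤ ((1 / (8 * s')) * (2 * ‖x‖ ^ 2 + 2 * r ^ 2)
      + |C|) + (s' / s) * (((1 / (8 * s')) * ‖x‖ ^ 2 + |C|) + ((1 / (8 * s')) * ‖y‖ ^ 2 + |C|)
        + ‖x - y‖ ^ 2 / (2 * s)) := by
    have h7 := mul_le_mul_of_nonneg_left h5 (by positivity : 0 ≤ s' / s)
    have e1 : s' / s * ((s / s') * (r ^ 2 / (2 * s'))) = r ^ 2 / (2 * s') := by field_simp
    have e2 : s' / s * ((s / s') * ((1 / (8 * s')) * (2 * ‖x‖ ^ 2 + 2 * r ^ 2) + |C|))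
      = (1 / (8 * s')) * (2 * ‖x‖ ^ 2 + 2 * r ^ 2) + |C| := by field_simp
    rw [mul_add, e1, e2] at h7
    exact h7
  have h8 : r ^ 2 ≤ K := by
    have e1 : r ^ 2 / (2 * s') - (1 / (8 * s')) * (2 * r ^ 2) = r ^ 2 / (4 * s') := by
      field_simp; ring
    have e2 : r ^ 2 / (4 * s') ≤ K / (4 * s') := by
      have e3 : K / (4 * s') = (2 * ‖x‖ ^ 2) / (8 * s') + |C|
        + (s' / s) * (((1 / (8 * s')) * ‖x‖ ^ 2 + |C|) + ((1 / (8 * s')) * ‖y‖ ^ 2 + |C|)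
        + ‖x - y‖ ^ 2 / (2 * s)) := by
        rw [hK]; field_simp
      rw [e3, ← e1]
      have e4 : (1 / (8 * s')) * (2 * ‖x‖ ^ 2 + 2 * r ^ 2)
        = (2 * ‖x‖ ^ 2) / (8 * s') + (1 / (8 * s')) * (2 * r ^ 2) := by ring
      linarith
    exact (div_le_div_iff_of_pos_right (by positivity)).1 e2
  have h9 : r ≤ 1 + K := by
    have h10 := sq_nonneg (r - 1 / 2)
    have h11 : (r - 1 / 2) ^ 2 = r ^ 2 - r + 1 / 4 := by ring
    rw [h11] at h10
    linarith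
  linarith

/-- **Limits of boosted rescaled infinity-harmonic functions are subsolutions.** -/
theorem isSub_limit {κ : Type*} {l : Filter κ} [l.NeBot] {Ω : κ → Set E} {u : κ → E → ℝ}
    {x0 p : κ → E} {σ τ η b Λ : κ → ℝ} {W : E → ℝ → ℝ}
    (hu : ∀ᶠ k in l, CC (u k) (Ω k))
    (hpos : ∀ᶠ k in l, 0 < σ k ∧ 0 < τ k ∧ 0 < η k ∧ σ k ^ 2 = η k * τ k)
    (hdom : ∀ R : ℝ, ∀ᶠ k in l, closedBall (x0 k) (R * (σ k + τ k * ‖p k‖)) ⊆ Ω k)
    (hwin : ∀ M : ℝ, ∀ᶠ k in l, M * (1 + τ k * ‖p k‖ / σ k) ≤ Λ k)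
    (hgrow : ∀ R ε : ℝ, 0 < ε → ∃ C : ℝ, ∀ᶠ k in l, ∀ y t, ‖y‖ ≤ Λ k → |t| ≤ R →
      |bst (u k) (x0 k) (p k) (σ k) (τ k) (η k) (b k) y t| ≤ ε * ‖y‖ ^ 2 + C)
    (hcont : Continuous fun q : E × ℝ => W q.1 q.2)
    (hconv : ∀ R ε : ℝ, 0 < ε → ∀ᶠ k in l, ∀ y t, ‖y‖ ≤ R → |t| ≤ R →
      |bst (u k) (x0 k) (p k) (σ k) (τ k) (η k) (b k) y t - W y t| ≤ ε) :
    Grow W ∧ IsSub W := by
  have hG : Grow W := by
    intro R ε hε
    obtain ⟨C, hC⟩ := hgrow R ε hε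
    refine ⟨C + 1, fun y t ht => ?_⟩
    have h1 := hconv (max ‖y‖ |t|) 1 one_pos
    have h2 : ∀ᶠ k in l, ‖y‖ ≤ Λ k := by
      filter_upwards [hwin ‖y‖, hpos] with k hk ⟨hσ, hτ, _, _⟩
      refine le_trans ?_ hk
      have : 0 ≤ τ k * ‖p k‖ / σ k := by positivity
      nlinarith [norm_nonneg y]
    obtain ⟨k, hk1, hk2, hk3⟩ := (hC.and (h1.and h2)).exists
    have a1 := abs_le.1 (hk1 y t hk3 ht)
    have a2 := abs_le.1 (hk2 y t (le_max_left _ _) (le_max_right _ _))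
    rw [abs_le]
    constructor <;> linarith [a1.1, a1.2, a2.1, a2.2]
  refine ⟨hG, isSub_of_subAt hG fun x t y s s' hs hss => ?_⟩
  obtain ⟨R, hR⟩ := subAt_bst hu hpos hdom hwin hgrow x t y hs hss
  exact ⟨R, subAt_of_limit hcont hconv hs hss hR⟩

/-- **Limits of boosted rescaled infinity-harmonic functions are solutions of the model.** -/
theorem isSol_limit {κ : Type*} {l : Filter κ} [l.NeBot] {Ω : κ → Set E} {u : κ → E → ℝ}
    {x0 p : κ → E} {σ τ η b Λ : κ → ℝ} {W : E → ℝ → ℝ}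
    (hu : ∀ᶠ k in l, CC (u k) (Ω k))
    (hpos : ∀ᶠ k in l, 0 < σ k ∧ 0 < τ k ∧ 0 < η k ∧ σ k ^ 2 = η k * τ k)
    (hdom : ∀ R : ℝ, ∀ᶠ k in l, closedBall (x0 k) (R * (σ k + τ k * ‖p k‖)) ⊆ Ω k)
    (hwin : ∀ M : ℝ, ∀ᶠ k in l, M * (1 + τ k * ‖p k‖ / σ k) ≤ Λ k)
    (hgrow : ∀ R ε : ℝ, 0 < ε → ∃ C : ℝ, ∀ᶠ k in l, ∀ y t, ‖y‖ ≤ Λ k → |t| ≤ R →
      |bst (u k) (x0 k) (p k) (σ k) (τ k) (η k) (b k) y t| ≤ ε * ‖y‖ ^ 2 + C)
    (hcont : Continuous fun q : E × ℝ => W q.1 q.2)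
    (hconv : ∀ R ε : ℝ, 0 < ε → ∀ᶠ k in l, ∀ y t, ‖y‖ ≤ R → |t| ≤ R →
      |bst (u k) (x0 k) (p k) (σ k) (τ k) (η k) (b k) y t - W y t| ≤ ε) :
    IsSol W := by
  obtain ⟨hG, hS⟩ := isSub_limit hu hpos hdom hwin hgrow hcont hconv
  refine ⟨hcont, hG, hS, isSup_of_rev ?_⟩
  have h2 := isSub_limit (l := l) (Ω := Ω) (u := fun k y => - u k y) (x0 := x0)
    (p := fun k => - p k) (σ := σ) (τ := τ) (η := η) (b := b) (Λ := Λ) (W := rev W)
    (by filter_upwards [hu] with k hk using hk.neg) hpos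
    (by simpa using hdom) (by simpa using hwin)
    (by
      intro R ε hε
      obtain ⟨C, hC⟩ := hgrow R ε hε
      refine ⟨C, ?_⟩
      filter_upwards [hC] with k hk y t hy ht
      rw [bst_neg]
      simpa [rev] using hk y (-t) hy (by simpa using ht))
    (by
      have : Continuous fun q : E × ℝ => (q.1, -q.2) := by fun_prop
      exact (hcont.comp this).neg)
    (by
      intro R ε hε
      filter_upwards [hconv R ε hε] with k hk y t hy ht
      rw [bst_neg]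
      have := hk y (-t) hy (by simpa using ht)
      simp only [rev]
      rw [show -bst (u k) (x0 k) (p k) (σ k) (τ k) (η k) (b k) y (-t) - -W y (-t)
        = -(bst (u k) (x0 k) (p k) (σ k) (τ k) (η k) (b k) y (-t) - W y (-t)) by ring, abs_neg]
      exact this)
  exact h2.2

end Static

end Crest.Agent.R094.LocSub
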