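import Crest.Agent.R094.Defs

set_option autoImplicit false

namespace Crest.Agent.R094

open Filter Topology Set Metric
open scoped RealInnerProductSpace
open Crest.AnalysisR.PDE

/-- comparison with cones from above (positive slope), Euclidean version -/
theorem cc_up {d : ℕ} {u : EuclideanSpace ℝ (Fin d) → ℝ} {Ω : Set (EuclideanSpace ℝ (Fin d))}
    (hu : IsInfinityHarmonicOn u Ω) {V : Set (EuclideanSpace ℝ (Fin d))} (hV : IsOpen V)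
    (hb : Bornology.IsBounded V) (hcl : closure V ⊆ Ω) (z : EuclideanSpace ℝ (Fin d)) (a b : ℝ)
    (ha : 0 < a) (hf : ∀ p ∈ frontier V, u p ≤ b + a * ‖p - z‖) (hz : z ∈ V → u z ≤ b) :
    ∀ p ∈ V, u p ≤ b + a * ‖p - z‖ := by
  sorry

theorem infHarmonic_neg {d : ℕ} {u : EuclideanSpace ℝ (Fin d) → ℝ}
    {Ω : Set (EuclideanSpace ℝ (Fin d))} (hu : IsInfinityHarmonicOn u Ω) :
    IsInfinityHarmonicOn (fun p => - u p) Ω := by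
  sorry

theorem infHarmonic_mono {d : ℕ} {u : EuclideanSpace ℝ (Fin d) → ℝ}
    {Ω Ω' : Set (EuclideanSpace ℝ (Fin d))} (hu : IsInfinityHarmonicOn u Ω) (h : Ω' ⊆ Ω) :
    IsInfinityHarmonicOn u Ω' := by
  sorry

/-- orthonormal frames: tangential isometry for a unit vector -/
theorem exists_frame {m : ℕ} (ξ : EuclideanSpace ℝ (Fin (m + 1))) (hξ : ‖ξ‖ = 1) :
    ∃ ι : EuclideanSpace ℝ (Fin m) →ₗᵢ[ℝ] EuclideanSpace ℝ (Fin (m + 1)),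
      (∀ y, ⟪ξ, ι y⟫ = 0) ∧ ∀ p, ∃ y, p = ι y + ⟪ξ, p⟫ • ξ := by
  sorry

/-- comparison with cones in adapted coordinates `g(y,t) = (u(x₀ + r (ι y + t ξ)) - c)/a` -/
theorem cce_of_infHarmonic {m : ℕ} {u : EuclideanSpace ℝ (Fin (m + 1)) → ℝ}
    {Ω : Set (EuclideanSpace ℝ (Fin (m + 1)))} (hu : IsInfinityHarmonicOn u Ω)
    (x₀ ξ : EuclideanSpace ℝ (Fin (m + 1))) (hξ : ‖ξ‖ = 1)
    (ι : EuclideanSpace ℝ (Fin m) →ₗᵢ[ℝ] EuclideanSpace ℝ (Fin (m + 1)))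
    (hι : ∀ y, ⟪ξ, ι y⟫ = 0) (hι' : ∀ p, ∃ y, p = ι y + ⟪ξ, p⟫ • ξ) {r a : ℝ} (hr : 0 < r)
    (ha : 0 < a) (c : ℝ) :
    CCE (fun y t => (u (x₀ + r • (ι y + t • ξ)) - c) / a)
      {P | x₀ + r • (ι P.1 + P.2 • ξ) ∈ Ω} := by
  sorry

theorem cce_rev_of_infHarmonic {m : ℕ} {u : EuclideanSpace ℝ (Fin (m + 1)) → ℝ}
    {Ω : Set (EuclideanSpace ℝ (Fin (m + 1)))} (hu : IsInfinityHarmonicOn u Ω)
    (x₀ ξ : EuclideanSpace ℝ (Fin (m + 1))) (hξ : ‖ξ‖ = 1)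
    (ι : EuclideanSpace ℝ (Fin m) →ₗᵢ[ℝ] EuclideanSpace ℝ (Fin (m + 1)))
    (hι : ∀ y, ⟪ξ, ι y⟫ = 0) (hι' : ∀ p, ∃ y, p = ι y + ⟪ξ, p⟫ • ξ) {r a : ℝ} (hr : 0 < r)
    (ha : 0 < a) (c : ℝ) :
    CCE (rev (fun y t => (u (x₀ + r • (ι y + t • ξ)) - c) / a))
      {P | x₀ + r • (ι P.1 - P.2 • ξ) ∈ Ω} := by
  sorry

end Crest.Agent.R094
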