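import Crest.Agent.R094.M04_Cone

set_option autoImplicit false

namespace Crest.Agent.R094

open Filter Topology Set Metric
open scoped RealInnerProductSpace

variable {E : Type*} [NormedAddCommGroup E] [InnerProductSpace ℝ E] [FiniteDimensional ℝ E]

theorem CCE.scale {g : E → ℝ → ℝ} {Ω : Set (E × ℝ)} (h : CCE g Ω) (x₁ : E) (t₁ c : ℝ) {τ : ℝ}
    (hτ : 0 < τ) :
    CCE (fun y t => (g (x₁ + τ • y) (t₁ + τ * t) - c) / τ)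
      {P | (x₁ + τ • P.1, t₁ + τ * P.2) ∈ Ω} := by
  sorry

theorem CCE.mono {g : E → ℝ → ℝ} {Ω Ω' : Set (E × ℝ)} (h : CCE g Ω) (hs : Ω' ⊆ Ω) : CCE g Ω' := by
  sorry

/-- approximate cone comparison in flat coordinates for small `lam` -/
theorem ac_of_cce (δ₀ ω : ℝ) (hδ : 0 < δ₀) (hω : 0 < ω) : ∃ lam₀ : ℝ, 0 < lam₀ ∧
    ∀ lam : ℝ, 0 < lam → lam ≤ lam₀ → ∀ g : E → ℝ → ℝ,
      CCE g {P | ‖P.1‖ < 10 * Real.sqrt lam ∧ |P.2| < 1} →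
      (∀ (x : E) (t : ℝ), ‖x‖ < 10 → |t| < 1 → |(g (Real.sqrt lam • x) t - t) / lam| ≤ 1) →
      AC δ₀ ω (fun x t => (g (Real.sqrt lam • x) t - t) / lam) := by
  sorry

/-- exact cone comparison in the limit `lam → 0`, on a general open set -/
theorem coneUp_limit_of_cce {l : Filter ℕ} [l.NeBot] {lam : ℕ → ℝ} {g : ℕ → E → ℝ → ℝ}
    {w : E → ℝ → ℝ} {Ω : Set (E × ℝ)} (hΩ : IsOpen Ω) (hlam : ∀ k, 0 < lam k)
    (hlam0 : Tendsto lam l (𝓝 0))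
    (hcc : ∀ᶠ k in l, CCE (g k) {P | ((Real.sqrt (lam k))⁻¹ • P.1, P.2) ∈ Ω})
    (hbd : ∀ᶠ k in l, ∀ P ∈ Ω, |(g k (Real.sqrt (lam k) • P.1) P.2 - P.2) / lam k| ≤ 1)
    (hlim : ∀ K : Set (E × ℝ), IsCompact K → K ⊆ Ω → ∀ ε > 0, ∀ᶠ k in l, ∀ P ∈ K,
      |(g k (Real.sqrt (lam k) • P.1) P.2 - P.2) / lam k - w P.1 P.2| ≤ ε) :
    ConeUp w Ω := by
  sorry

end Crest.Agent.R094
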