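import Crest.Agent.R094.Defs

set_option autoImplicit false

namespace Crest.Agent.R094

open Filter Topology Set Metric
open scoped RealInnerProductSpace

variable {E : Type*} [NormedAddCommGroup E] [InnerProductSpace ℝ E]

/-- Quantitative equicontinuity from approximate cone comparison. -/
theorem equicontinuity (δ : ℝ) (hδ : 0 < δ) :
    ∃ δ₀ ω r : ℝ, 0 < δ₀ ∧ 0 < ω ∧ 0 < r ∧ ∀ w : E → ℝ → ℝ,
      (∀ (x : E) (t : ℝ), ‖x‖ < 10 → |t| < 1 → |w x t| ≤ 1) → AC δ₀ ω w →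
      ∀ (x x' : E) (t t' : ℝ), ‖x‖ ≤ 1 → |t| ≤ 1 / 8 → ‖x' - x‖ ≤ r → |t' - t| ≤ r →
        |w x t - w x' t'| ≤ δ := by
  sorry

end Crest.Agent.R094
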