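import Crest.Agent.R094.Defs

set_option autoImplicit false

namespace Crest.Agent.R094

open Filter Topology Set Metric
open scoped RealInnerProductSpace

variable {E : Type*} [NormedAddCommGroup E] [InnerProductSpace ℝ E]

theorem ConeUp.mono {W : E → ℝ → ℝ} {Ω Ω' : Set (E × ℝ)} (h : ConeUp W Ω) (hs : Ω' ⊆ Ω) :
    ConeUp W Ω' := by
  sorry

theorem rev_rev (W : E → ℝ → ℝ) : rev (rev W) = W := by
  sorry

theorem ConeDown.mono {W : E → ℝ → ℝ} {Ω Ω' : Set (E × ℝ)} (h : ConeDown W Ω) (hs : Ω' ⊆ Ω) :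
    ConeDown W Ω' := by
  sorry

theorem ConeUp.tr {W : E → ℝ → ℝ} {Ω : Set (E × ℝ)} (h : ConeUp W Ω) (x₀ : E) (t₀ : ℝ)
    {κ τ : ℝ} (hκ : 0 < κ) (hτ : 0 < τ) (p : E) (c q : ℝ) :
    ConeUp (tr W x₀ t₀ κ τ p c q)
      {P : E × ℝ | (x₀ + (κ * τ) • P.1 + (τ * P.2) • p, t₀ + τ * P.2) ∈ Ω} := by
  sorry

theorem rev_tr (W : E → ℝ → ℝ) (x₀ : E) (t₀ κ τ : ℝ) (p : E) (c q : ℝ) :
    rev (tr W x₀ t₀ κ τ p c q) = tr (rev W) x₀ (-t₀) κ τ (-p) (-c) q := by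
  sorry

theorem ConeDown.tr {W : E → ℝ → ℝ} {Ω : Set (E × ℝ)} (h : ConeDown W Ω) (x₀ : E) (t₀ : ℝ)
    {κ τ : ℝ} (hκ : 0 < κ) (hτ : 0 < τ) (p : E) (c q : ℝ) :
    ConeDown (tr W x₀ t₀ κ τ p c q)
      {P : E × ℝ | (x₀ + (κ * τ) • P.1 + (τ * P.2) • p, t₀ + τ * P.2) ∈ Ω} := by
  sorry

/-- Cone comparison passes to locally uniform limits. -/
theorem ConeUp.limit [FiniteDimensional ℝ E] {l : Filter ℕ} [l.NeBot] {Wk : ℕ → E → ℝ → ℝ}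
    {W : E → ℝ → ℝ} {Ω : Set (E × ℝ)}
    (hk : ∀ K : Set (E × ℝ), IsCompact K → K ⊆ Ω → ∀ᶠ k in l, ConeUp (Wk k) K)
    (hlim : ∀ K : Set (E × ℝ), IsCompact K → K ⊆ Ω → ∀ ε > 0, ∀ᶠ k in l, ∀ p ∈ K,
      |Wk k p.1 p.2 - W p.1 p.2| ≤ ε) :
    ConeUp W Ω := by
  sorry

theorem ConeDown.limit [FiniteDimensional ℝ E] {l : Filter ℕ} [l.NeBot] {Wk : ℕ → E → ℝ → ℝ}
    {W : E → ℝ → ℝ} {Ω : Set (E × ℝ)}
    (hk : ∀ K : Set (E × ℝ), IsCompact K → K ⊆ Ω → ∀ᶠ k in l, ConeDown (Wk k) K)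
    (hlim : ∀ K : Set (E × ℝ), IsCompact K → K ⊆ Ω → ∀ ε > 0, ∀ᶠ k in l, ∀ p ∈ K,
      |Wk k p.1 p.2 - W p.1 p.2| ≤ ε) :
    ConeDown W Ω := by
  sorry

/-- Affine functions satisfy cone comparison. -/
theorem ConeUp.affine (p : E) (c q : ℝ) (Ω : Set (E × ℝ)) :
    ConeUp (fun x t => c + ⟪p, x⟫ + q * t) Ω := by
  sorry

theorem ConeDown.affine (p : E) (c q : ℝ) (Ω : Set (E × ℝ)) :
    ConeDown (fun x t => c + ⟪p, x⟫ + q * t) Ω := by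
  sorry

/-- Exact cone comparison implies the approximate static one. -/
theorem ConeUp.ac {w : E → ℝ → ℝ} (h : ConeUp w (ball (0 : E) 10 ×ˢ Ioo (-1 : ℝ) 1))
    (hb : ∀ (x : E) (t : ℝ), ‖x‖ < 10 → |t| < 1 → |w x t| ≤ 1) {δ₀ ω : ℝ} (hδ : 0 < δ₀)
    (hω : 0 ≤ ω) : AC δ₀ ω w := by
  sorry

/-- Global cone comparison gives monotonicity of the forward slopes. -/
theorem ConeUp.Sp_mono [FiniteDimensional ℝ E] {W : E → ℝ → ℝ} (h : ConeUp W univ)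
    (hc : Continuous (fun p : E × ℝ => W p.1 p.2)) (hq : SubQ W) (x : E) (t s₁ s₂ : ℝ)
    (h1 : 0 < s₁) (h2 : s₁ ≤ s₂) : Sp W s₁ x t ≤ Sp W s₂ x t := by
  sorry

end Crest.Agent.R094
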