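import Crest.Agent.R094.M04_Cone

set_option autoImplicit false

namespace Crest.Agent.R094

open Filter Topology Set Metric
open scoped RealInnerProductSpace

variable {E : Type*} [NormedAddCommGroup E] [InnerProductSpace ℝ E]

/-- Uniform subquadratic growth of normalised functions with excess `≤ 1` at scales `≥ 1`. -/
theorem growth (ε : ℝ) (hε : 0 < ε) : ∃ C : ℝ, ∀ W : E → ℝ → ℝ, FlAll 1 W → Nrm W →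
    ∀ (x : E) (t : ℝ), |W x t| ≤ ε * (‖x‖ ^ 2 + t ^ 2) + C := by
  sorry

theorem growth_local (R : ℝ) : ∃ R' C : ℝ, R ≤ R' ∧ ∀ W : E → ℝ → ℝ,
    (∀ (x : E) (t τ : ℝ), ‖x‖ ≤ R' → |t| ≤ R' → 1 ≤ τ → τ ≤ R' →
      ∃ (p : E) (c q : ℝ), FlatWit W x t τ p c q) →
    Nrm W → ∀ (x : E) (t : ℝ), ‖x‖ ≤ R → |t| ≤ R → |W x t| ≤ C := by
  sorry

/-- Slopes in a normalised frame at other points and at smaller scales. -/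
theorem slope_bound (ε : ℝ) (hε : 0 < ε) : ∃ C : ℝ, ∀ ε₁ : ℝ, 0 < ε₁ → ε₁ ≤ 1 →
    ∀ W : E → ℝ → ℝ, FlAll ε₁ W → Nrm W → ∀ (x : E) (t ρ : ℝ) (p : E) (c q : ℝ),
      ε₁ ≤ ρ → ρ ≤ 4 → FlatWit W x t ρ p c q →
      ‖p‖ ^ 2 ≤ ε * (‖x‖ ^ 2 + t ^ 2) + C * (1 + 1 / Real.sqrt ρ) := by
  sorry

theorem FlAll.subQ {ε : ℝ} {W : E → ℝ → ℝ} (h : FlAll ε W) : SubQ W := by
  sorry

theorem FlAll.mono {ε ε' : ℝ} {W : E → ℝ → ℝ} (h : FlAll ε W) (he : ε ≤ ε') : FlAll ε' W := by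
  sorry

theorem FlAll.tr {ε : ℝ} {W : E → ℝ → ℝ} (h : FlAll ε W) (x₀ : E) (t₀ : ℝ) {τ : ℝ} (hτ : 0 < τ)
    (p : E) (c q : ℝ) : FlAll (ε / τ) (tr W x₀ t₀ 1 τ p c q) := by
  sorry

theorem FlatWit.nrm {W : E → ℝ → ℝ} {x₀ : E} {t₀ τ : ℝ} {p : E} {c q : ℝ}
    (h : FlatWit W x₀ t₀ τ p c q) (hτ : 0 < τ) : Nrm (tr W x₀ t₀ 1 τ p c q) := by
  sorry

theorem FlAll.rev {ε : ℝ} {W : E → ℝ → ℝ} (h : FlAll ε W) : FlAll ε (rev W) := by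
  sorry

theorem Nrm.rev {W : E → ℝ → ℝ} (h : Nrm W) : Nrm (rev W) := by
  sorry

theorem Cls.mono {ε ε' : ℝ} {W : E → ℝ → ℝ} (h : Cls ε W) (he : ε ≤ ε') : Cls ε' W := by
  sorry

theorem Cls.tr {ε : ℝ} {W : E → ℝ → ℝ} (h : Cls ε W) (x₀ : E) (t₀ : ℝ) {τ : ℝ} (hτ : 0 < τ)
    (p : E) (c q : ℝ) : Cls (ε / τ) (tr W x₀ t₀ 1 τ p c q) := by
  sorry

theorem Cls.rev {ε : ℝ} {W : E → ℝ → ℝ} (h : Cls ε W) : Cls ε (rev W) := by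
  sorry

theorem Cls.affine {ε : ℝ} (p : E) (c q : ℝ) :
    Cls ε (fun x t => c + ⟪p, x⟫ + q * t : E → ℝ → ℝ) := by
  sorry

end Crest.Agent.R094
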