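import Crest.Agent.R094.M03_Equi
import Crest.Agent.R094.M04_Cone
import Crest.Agent.R094.M05_Slopes

set_option autoImplicit false

namespace Crest.Agent.R094

open Filter Topology Set Metric
open scoped RealInnerProductSpace

variable {E : Type*} [NormedAddCommGroup E] [InnerProductSpace ℝ E] [FiniteDimensional ℝ E]

/-- Compactness: limits of (local or entire) normalised functions along an ultrafilter. -/
theorem compact_entire (l : Ultrafilter ℕ) (Wk : ℕ → E → ℝ → ℝ)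
    (h : ∀ R : ℝ, ∀ᶠ k in (l : Filter ℕ),
      ContinuousOn (fun p : E × ℝ => Wk k p.1 p.2) (ball (0 : E) R ×ˢ Ioo (-R) R) ∧
      ConeUp (Wk k) (ball (0 : E) R ×ˢ Ioo (-R) R) ∧
      ConeDown (Wk k) (ball (0 : E) R ×ˢ Ioo (-R) R) ∧
      ∀ (x : E) (t τ : ℝ), ‖x‖ ≤ R → |t| ≤ R → 1 ≤ τ → τ ≤ R →
        ∃ (p : E) (c q : ℝ), FlatWit (Wk k) x t τ p c q)
    (hn : ∀ᶠ k in (l : Filter ℕ), Nrm (Wk k)) :
    ∃ W : E → ℝ → ℝ, Cls 1 W ∧ Nrm W ∧ ∀ R ε : ℝ, 0 < ε → ∀ᶠ k in (l : Filter ℕ),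
      ∀ (x : E) (t : ℝ), ‖x‖ ≤ R → |t| ≤ R → |Wk k x t - W x t| ≤ ε := by
  sorry

/-- Compactness for entire functions. -/
theorem compact_cls (l : Ultrafilter ℕ) (Wk : ℕ → E → ℝ → ℝ) (h : ∀ k, Cls 1 (Wk k))
    (hn : ∀ k, Nrm (Wk k)) :
    ∃ W : E → ℝ → ℝ, Cls 1 W ∧ Nrm W ∧ ∀ R ε : ℝ, 0 < ε → ∀ᶠ k in (l : Filter ℕ),
      ∀ (x : E) (t : ℝ), ‖x‖ ≤ R → |t| ≤ R → |Wk k x t - W x t| ≤ ε := by
  sorry

end Crest.Agent.R094
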