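import Crest.Agent.R094.Defs

set_option autoImplicit false

namespace Crest.Agent.R094

open Filter Topology Set Metric
open scoped RealInnerProductSpace

variable {E : Type*} [NormedAddCommGroup E] [InnerProductSpace ℝ E] [FiniteDimensional ℝ E]

theorem Tu_rev (W : E → ℝ → ℝ) (s : ℝ) (x : E) (t : ℝ) : Tu (rev W) s x t = - Td W s x (-t) := by
  sorry

theorem Td_rev (W : E → ℝ → ℝ) (s : ℝ) (x : E) (t : ℝ) : Td (rev W) s x t = - Tu W s x (-t) := by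
  sorry

theorem Sp_rev (W : E → ℝ → ℝ) (s : ℝ) (x : E) (t : ℝ) : Sp (rev W) s x t = Sm W s x (-t) := by
  sorry

theorem Sm_rev (W : E → ℝ → ℝ) (s : ℝ) (x : E) (t : ℝ) : Sm (rev W) s x t = Sp W s x (-t) := by
  sorry

theorem Sol.rev {W : E → ℝ → ℝ} (h : Sol W) : Sol (rev W) := by
  sorry

theorem Sol.le_Tu {W : E → ℝ → ℝ} (h : Sol W) {s : ℝ} (hs : 0 < s) (x y : E) (t : ℝ) :
    W y (t + s) - ‖y - x‖ ^ 2 / (2 * s) ≤ Tu W s x t := by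
  sorry

theorem Sol.exists_Tu {W : E → ℝ → ℝ} (h : Sol W) {s : ℝ} (hs : 0 < s) (x : E) (t : ℝ) :
    ∃ y : E, Tu W s x t = W y (t + s) - ‖y - x‖ ^ 2 / (2 * s) := by
  sorry

theorem Sol.Td_le {W : E → ℝ → ℝ} (h : Sol W) {s : ℝ} (hs : 0 < s) (x y : E) (t : ℝ) :
    Td W s x t ≤ W y (t - s) + ‖y - x‖ ^ 2 / (2 * s) := by
  sorry

theorem Sol.exists_Td {W : E → ℝ → ℝ} (h : Sol W) {s : ℝ} (hs : 0 < s) (x : E) (t : ℝ) :
    ∃ y : E, Td W s x t = W y (t - s) + ‖y - x‖ ^ 2 / (2 * s) := by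
  sorry

theorem Sol.continuous_Tu {W : E → ℝ → ℝ} (h : Sol W) {s : ℝ} (hs : 0 < s) :
    Continuous (fun p : E × ℝ => Tu W s p.1 p.2) := by
  sorry

theorem Sol.continuous_Td {W : E → ℝ → ℝ} (h : Sol W) {s : ℝ} (hs : 0 < s) :
    Continuous (fun p : E × ℝ => Td W s p.1 p.2) := by
  sorry

/-- growth of the regularisations, with explicit constants -/
theorem Sol.abs_Td_le {W : E → ℝ → ℝ} (h : Sol W) {C : ℝ}
    (hC : ∀ (x : E) (t : ℝ), |W x t| ≤ (‖x‖ ^ 2 + t ^ 2) / 64 + C) {s : ℝ} (hs : 0 < s)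
    (hs1 : s ≤ 1) (x : E) (t : ℝ) : |Td W s x t| ≤ (‖x‖ ^ 2 + t ^ 2) / 16 + C + 1 := by
  sorry

theorem Sol.abs_Tu_le {W : E → ℝ → ℝ} (h : Sol W) {C : ℝ}
    (hC : ∀ (x : E) (t : ℝ), |W x t| ≤ (‖x‖ ^ 2 + t ^ 2) / 64 + C) {s : ℝ} (hs : 0 < s)
    (hs1 : s ≤ 1) (x : E) (t : ℝ) : |Tu W s x t| ≤ (‖x‖ ^ 2 + t ^ 2) / 16 + C + 1 := by
  sorry

theorem Sol.subq_Td {W : E → ℝ → ℝ} (h : Sol W) {s : ℝ} (hs : 0 < s) :
    SubQ (fun x t => Td W s x t) := by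
  sorry

/-- At a backward-min point of `(x,t)` all forward slopes are at least `Sm W r x t`. -/
theorem Sol.Sm_le_Sp_of_min {W : E → ℝ → ℝ} (h : Sol W) {r : ℝ} (hr : 0 < r) {x y : E} {t : ℝ}
    (hy : Td W r x t = W y (t - r) + ‖y - x‖ ^ 2 / (2 * r)) {s : ℝ} (hs : 0 < s) (hsr : s ≤ r) :
    Sm W r x t ≤ Sp W s y (t - r) := by
  sorry

/-- At a forward-max point of `(x,t)` all backward slopes are at least `Sp W r x t`. -/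
theorem Sol.Sp_le_Sm_of_max {W : E → ℝ → ℝ} (h : Sol W) {r : ℝ} (hr : 0 < r) {x y : E} {t : ℝ}
    (hy : Tu W r x t = W y (t + r) - ‖y - x‖ ^ 2 / (2 * r)) {s : ℝ} (hs : 0 < s) (hsr : s ≤ r) :
    Sp W r x t ≤ Sm W s y (t + r) := by
  sorry

theorem Sol.Sm_ge_of_Sp_ge {W : E → ℝ → ℝ} (h : Sol W) {x : E} {t σ s₀ : ℝ} (hs₀ : 0 < s₀)
    (hσ : ∀ s, 0 < s → s ≤ s₀ → σ ≤ Sp W s x t) {s : ℝ} (hs : 0 < s) : σ ≤ Sm W s x t := by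
  sorry

theorem Sol.Sp_ge_of_Sm_ge {W : E → ℝ → ℝ} (h : Sol W) {x : E} {t σ s₀ : ℝ} (hs₀ : 0 < s₀)
    (hσ : ∀ s, 0 < s → s ≤ s₀ → σ ≤ Sm W s x t) {s : ℝ} (hs : 0 < s) : σ ≤ Sp W s x t := by
  sorry

/-- Increasing slope at a unique maximiser. -/
theorem Sol.Sp_le_Sp_of_unique {W : E → ℝ → ℝ} (h : Sol W) {s : ℝ} (hs : 0 < s) {x y₀ : E} {t : ℝ}
    (hy : ∀ y : E, Tu W s x t = W y (t + s) - ‖y - x‖ ^ 2 / (2 * s) → y = y₀) {r : ℝ}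
    (hr : 0 < r) : Sp W s x t ≤ Sp W r y₀ (t + s) := by
  sorry

/-- Increasing slope, backward version at a unique minimiser. -/
theorem Sol.Sm_le_Sm_of_unique {W : E → ℝ → ℝ} (h : Sol W) {s : ℝ} (hs : 0 < s) {x y₀ : E} {t : ℝ}
    (hy : ∀ y : E, Td W s x t = W y (t - s) + ‖y - x‖ ^ 2 / (2 * s) → y = y₀) {r : ℝ}
    (hr : 0 < r) : Sm W s x t ≤ Sm W r y₀ (t - s) := by
  sorry

end Crest.Agent.R094
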