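import Crest.Agent.R094.Defs

set_option autoImplicit false

namespace Crest.Agent.R094

open Filter Topology Set Metric
open scoped RealInnerProductSpace

variable {E : Type*} [NormedAddCommGroup E] [InnerProductSpace ℝ E] [FiniteDimensional ℝ E]

/-- subquadratic functions of one variable -/
def SubQ1 (f : E → ℝ) : Prop := ∀ ε > 0, ∃ C : ℝ, ∀ a : E, |f a| ≤ ε * ‖a‖ ^ 2 + C

/-- weak duality -/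
theorem Eop_le_sum {f : E → ℝ} (hq : SubQ1 f) {ρ : ℝ} (hρ : 0 < ρ) {x : E} {n : ℕ}
    {θ : Fin n → ℝ} {a : Fin n → E} (hθ : ∀ i, 0 ≤ θ i) (hs : ∑ i, θ i = 1)
    (hb : ∑ i, θ i • a i = x) : Eop ρ f x ≤ ∑ i, θ i * (f (a i) + ‖a i - x‖ ^ 2 / (2 * ρ)) := by
  sorry

theorem Eop_le_self {f : E → ℝ} (hq : SubQ1 f) {ρ : ℝ} (hρ : 0 < ρ) (x : E) : Eop ρ f x ≤ f x := by
  sorry

theorem VD.Eop_eq {f : E → ℝ} (hq : SubQ1 f) {ρ : ℝ} (hρ : 0 < ρ) {x z : E} {n : ℕ}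
    {θ : Fin n → ℝ} {a : Fin n → E} (h : VD f x ρ z θ a) :
    Eop ρ f x = ∑ i, θ i * (f (a i) + ‖a i - x‖ ^ 2 / (2 * ρ)) := by
  sorry

theorem exists_VD {f : E → ℝ} (hc : Continuous f) (hq : SubQ1 f) {ρ : ℝ} (hρ : 0 < ρ) (x : E) :
    ∃ (z : E) (n : ℕ) (θ : Fin n → ℝ) (a : Fin n → E), VD f x ρ z θ a := by
  sorry

/-- uniform bounds for vertex and contact points -/
theorem VD_bound (C : ℝ) : ∃ H : ℝ, 0 ≤ H ∧ ∀ f : E → ℝ, (∀ a : E, |f a| ≤ ‖a‖ ^ 2 / 8 + C) →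
    ∀ (z : E) (n : ℕ) (θ : Fin n → ℝ) (a : Fin n → E), VD f 0 1 z θ a →
      ‖z‖ ≤ H ∧ ∀ i, ‖a i‖ ≤ H := by
  sorry

/-- affine and scaling covariance -/
theorem Eop_add_affine (f : E → ℝ) {ρ : ℝ} (hρ : 0 < ρ) (hq : SubQ1 f) (p : E) (c : ℝ) (x : E) :
    Eop ρ (fun a => f a + ⟪p, a⟫ + c) x = Eop ρ f x + ⟪p, x⟫ + c := by
  sorry

theorem Fo_tr {W : E → ℝ → ℝ} (hq : SubQ W) (x₀ : E) (t₀ : ℝ) {κ τ : ℝ} (hκ : 0 < κ) (hτ : 0 < τ)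
    (p : E) (c q : ℝ) (y : E) (σ : ℝ) {ρ : ℝ} (hρ : 0 < ρ) :
    Fo (tr W x₀ t₀ κ τ p c q) y σ ρ =
      Fo W (x₀ + (κ * τ) • y + (τ * σ) • p) (t₀ + τ * σ) (τ * ρ) / (κ ^ 2 * τ) := by
  sorry

theorem Sp_tr {W : E → ℝ → ℝ} (hq : SubQ W) (x₀ : E) (t₀ : ℝ) {κ τ : ℝ} (hκ : 0 < κ) (hτ : 0 < τ)
    (p : E) (c q : ℝ) (y : E) (σ : ℝ) {s : ℝ} (hs : 0 < s) :
    Sp (tr W x₀ t₀ κ τ p c q) s y σ =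
      (Sp W (τ * s) (x₀ + (κ * τ) • y + (τ * σ) • p) (t₀ + τ * σ) - (‖p‖ ^ 2 / 2 + q)) / κ ^ 2 := by
  sorry

theorem Sm_tr {W : E → ℝ → ℝ} (hq : SubQ W) (x₀ : E) (t₀ : ℝ) {κ τ : ℝ} (hκ : 0 < κ) (hτ : 0 < τ)
    (p : E) (c q : ℝ) (y : E) (σ : ℝ) {s : ℝ} (hs : 0 < s) :
    Sm (tr W x₀ t₀ κ τ p c q) s y σ =
      (Sm W (τ * s) (x₀ + (κ * τ) • y + (τ * σ) • p) (t₀ + τ * σ) - (‖p‖ ^ 2 / 2 + q)) / κ ^ 2 := by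
  sorry

theorem Sol.tr {W : E → ℝ → ℝ} (h : Sol W) (x₀ : E) (t₀ : ℝ) {κ τ : ℝ} (hκ : 0 < κ) (hτ : 0 < τ)
    (p : E) (c q : ℝ) : Sol (tr W x₀ t₀ κ τ p c q) := by
  sorry

theorem Fo_nonneg {W : E → ℝ → ℝ} (hq : SubQ W) (x : E) (t : ℝ) {ρ : ℝ} (hρ : 0 < ρ) :
    0 ≤ Fo W x t ρ := by
  sorry

theorem Fo_affine (p : E) (c q : ℝ) (x : E) (t : ℝ) {ρ : ℝ} (hρ : 0 < ρ) :
    Fo (fun x t => c + ⟪p, x⟫ + q * t) x t ρ = 0 := by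
  sorry

end Crest.Agent.R094
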