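import Crest.Agent.R094.M07_T
import Crest.Agent.R094.M08_Open

set_option autoImplicit false

namespace Crest.Agent.R094

open Filter Topology Set Metric
open scoped RealInnerProductSpace

variable {E : Type*} [NormedAddCommGroup E] [InnerProductSpace ℝ E] [FiniteDimensional ℝ E]

/-- first order relation: the backward displacement of a contact point -/
theorem Td_displacement {W : E → ℝ → ℝ} (h : Sol W) {s t ρ : ℝ} {x z : E} (hs : 0 < s)
    (hρ : 0 < ρ) {n : ℕ} {θ : Fin n → ℝ} {a : Fin n → E}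
    (hv : VD (fun b => Td W s b t) x ρ z θ a) (i : Fin n) (y : E)
    (hy : Td W s (a i) t = W y (t - s) + ‖y - a i‖ ^ 2 / (2 * s)) :
    y = a i - (s / ρ) • (z - a i) := by
  sorry

/-- first order relation: the forward displacement of the centre point -/
theorem Tu_displacement {W : E → ℝ → ℝ} (h : Sol W) {s t ρ κ δ : ℝ} {x z : E} (hs : 0 < s)
    (hρ : 0 < ρ) (hδ : 0 < δ)
    (hmax : ∀ x' : E, ‖x' - x‖ < δ →
      Fs W s x' t ρ - κ * ‖x'‖ ^ 2 ≤ Fs W s x t ρ - κ * ‖x‖ ^ 2)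
    {n : ℕ} {θ : Fin n → ℝ} {a : Fin n → E} (hv : VD (fun b => Td W s b t) x ρ z θ a) (y : E)
    (hy : Tu W s x t = W y (t + s) - ‖y - x‖ ^ 2 / (2 * s)) :
    y = x + ((s / ρ) • (z - x) + (2 * s * κ) • x) := by
  sorry

/-- KEY INEQUALITY. -/
theorem key_inequality {W : E → ℝ → ℝ} (h : Sol W) {s t ρ κ δ : ℝ} {x z : E} (hs : 0 < s)
    (hρ : s < ρ) (hδ : 0 < δ)
    (hmax : ∀ x' : E, ‖x' - x‖ < δ →
      Fs W s x' t ρ - κ * ‖x'‖ ^ 2 ≤ Fs W s x t ρ - κ * ‖x‖ ^ 2)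
    {n : ℕ} {θ : Fin n → ℝ} {a : Fin n → E} (hv : VD (fun b => Td W s b t) x ρ z θ a) :
    2 * Fs W s x t ρ ≤
      Fs W s (x + ((s / ρ) • (z - x) + (2 * s * κ) • x)) (t + s) (ρ - s) +
      Fs W s (x - (s / ρ) • (z - x)) (t - s) (ρ + s) := by
  sorry

/-- comparison of the regularised functional with the functional -/
theorem Fs_le_Fo {W : E → ℝ → ℝ} (h : Sol W) {s t ρ : ℝ} {x z : E} (hs : 0 < s) (hρ : 0 < ρ)
    {n : ℕ} {θ : Fin n → ℝ} {a : Fin n → E} (hv : VD (fun b => Td W s b t) x ρ z θ a) :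
    Fs W s x t ρ ≤ Fo W x t ρ + s * (Sp W s x t + ∑ i, θ i * Sm W s (a i) t) := by
  sorry

theorem Fo_le_Fs {W : E → ℝ → ℝ} (h : Sol W) {s t ρ : ℝ} {x z : E} (hs : 0 < s) (hρ : 0 < ρ)
    {n : ℕ} {θ : Fin n → ℝ} {a : Fin n → E} (hv : VD (fun b => W b t) x ρ z θ a) :
    Fo W x t ρ + s * (Sp W s x t + ∑ i, θ i * Sm W s (a i) t) ≤ Fs W s x t ρ := by
  sorry

/-- joint continuity of the regularised functional -/
theorem continuousOn_Fs {W : E → ℝ → ℝ} (h : Sol W) {s : ℝ} (hs : 0 < s) :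
    ContinuousOn (fun P : E × ℝ × ℝ => Fs W s P.1 P.2.1 P.2.2) {P | 0 < P.2.2} := by
  sorry

theorem continuousOn_Fo {W : E → ℝ → ℝ} (h : Sol W) :
    ContinuousOn (fun P : E × ℝ × ℝ => Fo W P.1 P.2.1 P.2.2) {P | 0 < P.2.2} := by
  sorry

end Crest.Agent.R094
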