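import Crest.Agent.R094.M07_T
import Crest.Agent.R094.M08_Open

set_option autoImplicit false

namespace Crest.Agent.R094

open Filter Topology Set Metric
open scoped RealInnerProductSpace

variable {E : Type*} [NormedAddCommGroup E] [InnerProductSpace ℝ E] [FiniteDimensional ℝ E]

/-- GOODNESS: all points of an exact maximiser have slopes bounded from below. -/
theorem goodness (C : ℝ) : ∃ H : ℝ, 0 ≤ H ∧ ∀ W : E → ℝ → ℝ, Sol W →
    (∀ (x : E) (t : ℝ), |W x t| ≤ (‖x‖ ^ 2 + t ^ 2) / 64 + C) →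
    (∃ r₀ > 0, ∀ r, 0 < r → r < r₀ → Fo W 0 (-r) 1 ≤ Fo W 0 0 1) →
    ∀ (z : E) (n : ℕ) (θ : Fin n → ℝ) (a : Fin n → E), VD (fun b => W b 0) 0 1 z θ a →
      ‖z‖ ≤ H ∧ (∀ i, ‖a i‖ ≤ H) ∧
      ∀ s, 0 < s → s ≤ 1 → -H ≤ Sp W s 0 0 ∧ ∀ i, -H ≤ Sm W s (a i) 0 := by
  sorry

end Crest.Agent.R094
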