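import Crest.Agent.R094.M09_Key
import Crest.Agent.R094.M10_Good

set_option autoImplicit false

namespace Crest.Agent.R094

open Filter Topology Set Metric
open scoped RealInnerProductSpace

variable {E : Type*} [NormedAddCommGroup E] [InnerProductSpace ℝ E] [FiniteDimensional ℝ E]

/-- The functional cannot be touched from above by a strictly concave function of `ρ`. -/
theorem no_concave {W : E → ℝ → ℝ} (h : Sol W) {ρ₀ k γ δ : ℝ} (hρ : 0 < ρ₀) (hγ : 0 < γ)
    (hδ : 0 < δ)
    (H : ∀ (x : E) (t ρ : ℝ), ‖x‖ < δ → |t| < δ → |ρ - ρ₀| < δ →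
      Fo W x t ρ ≤ Fo W 0 0 ρ₀ + k * (ρ - ρ₀) - γ * (ρ - ρ₀) ^ 2) : False := by
  sorry

end Crest.Agent.R094
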