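import Crest.Agent.R094.M05_Slopes
import Crest.Agent.R094.M09_Key
import Crest.Agent.R094.M10_Good

set_option autoImplicit false

namespace Crest.Agent.R094

open Filter Topology Set Metric
open scoped RealInnerProductSpace

variable {E : Type*} [NormedAddCommGroup E] [InnerProductSpace ℝ E] [FiniteDimensional ℝ E]

theorem Cls.sol {ε : ℝ} {W : E → ℝ → ℝ} (h : Cls ε W) : Sol W := by
  sorry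

/-- vertex bound in a normalised frame (regularised functional) -/
theorem vertex_bound : ∃ C : ℝ, 0 ≤ C ∧ ∀ W : E → ℝ → ℝ, Cls 1 W → Nrm W →
    ∀ (s : ℝ) (z : E) (n : ℕ) (θ : Fin n → ℝ) (a : Fin n → E), 0 < s → s ≤ 1 →
      VD (fun b => Td W s b 0) 0 1 z θ a → ‖z‖ ≤ C ∧ ∀ i, ‖a i‖ ≤ C := by
  sorry

/-- UPWARD RUN. -/
theorem upRun : ∃ Cu : ℝ, 1 ≤ Cu ∧ ∀ W : E → ℝ → ℝ, Cls 1 W → Nrm W → ∀ ds : ℝ,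
    (∀ (x : E) (t ρ : ℝ), 0 < ρ → Fo W x t ρ ≤ ds * ρ) → Fo W 0 0 1 = ds →
    ∃ (x : E) (ρ : ℝ), |ρ - 2| ≤ 1 / 10 ∧ ‖x‖ ≤ Cu ∧ Fo W x (-1) ρ = ds * ρ := by
  sorry

/-- LONG DOWNWARD RUN. -/
theorem downRun : ∃ Cd : ℝ, 1 ≤ Cd ∧ ∀ ε : ℝ, 0 < ε → ε ≤ 1 / 8 →
    ∀ W : E → ℝ → ℝ, Cls ε W → Nrm W → ∀ ds : ℝ,
    (∀ (x : E) (t ρ : ℝ), 0 < ρ → Fo W x t ρ ≤ ds * ρ) → Fo W 0 0 1 = ds →
    ∃ (x : E) (ρ : ℝ), |ρ - 2 * ε| ≤ ε / 2 ∧ ‖x‖ ≤ Cd ∧ Fo W x (1 - 2 * ε) ρ = ds * ρ ∧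
      ∀ r > 0, -Cd ≤ Sp W r x (1 - 2 * ε) := by
  sorry

end Crest.Agent.R094
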