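import Crest.Agent.R094.M07_T

set_option autoImplicit false

namespace Crest.Agent.R094

open Filter Topology Set Metric
open scoped RealInnerProductSpace

variable {E : Type*} [NormedAddCommGroup E] [InnerProductSpace ℝ E] [FiniteDimensional ℝ E]

/-- RIGIDITY: constant slopes at one point force the solution to be affine. -/
theorem rigidity {W : E → ℝ → ℝ} (h : Sol W) (σ : ℝ) (hσ : ∀ s, 0 < s → Sp W s 0 0 = σ) :
    ∃ (p : E) (c q : ℝ), ∀ (x : E) (t : ℝ), W x t = c + ⟪p, x⟫ + q * t := by
  sorry

end Crest.Agent.R094
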