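import Crest.Agent.R094.M07_T
import Crest.Agent.R094.M08_Open

set_option autoImplicit false

namespace Crest.Agent.R094

open Filter Topology Set Metric
open scoped RealInnerProductSpace

variable {E : Type*} [NormedAddCommGroup E] [InnerProductSpace ℝ E] [FiniteDimensional ℝ E]

/-- uniform subquadratic growth -/
def UG (Wk : ℕ → E → ℝ → ℝ) : Prop :=
  ∀ ε > 0, ∃ C : ℝ, ∀ (k : ℕ) (x : E) (t : ℝ), |Wk k x t| ≤ ε * (‖x‖ ^ 2 + t ^ 2) + C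

/-- locally uniform convergence -/
def LocUnif (l : Filter ℕ) (Wk : ℕ → E → ℝ → ℝ) (W : E → ℝ → ℝ) : Prop :=
  ∀ R ε : ℝ, 0 < ε → ∀ᶠ k in l, ∀ (x : E) (t : ℝ), ‖x‖ ≤ R → |t| ≤ R → |Wk k x t - W x t| ≤ ε

theorem tendsto_Fo {l : Filter ℕ} {Wk : ℕ → E → ℝ → ℝ} {W : E → ℝ → ℝ} (hug : UG Wk)
    (hc : Continuous (fun p : E × ℝ => W p.1 p.2)) (hq : SubQ W) (hl : LocUnif l Wk W)
    {xk : ℕ → E} {tk ρk : ℕ → ℝ} {x : E} {t ρ : ℝ} (hx : Tendsto xk l (𝓝 x))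
    (ht : Tendsto tk l (𝓝 t)) (hρk : Tendsto ρk l (𝓝 ρ)) (hρ : 0 < ρ) :
    Tendsto (fun k => Fo (Wk k) (xk k) (tk k) (ρk k)) l (𝓝 (Fo W x t ρ)) := by
  sorry

theorem tendsto_Sp {l : Filter ℕ} {Wk : ℕ → E → ℝ → ℝ} {W : E → ℝ → ℝ} (hug : UG Wk)
    (hc : Continuous (fun p : E × ℝ => W p.1 p.2)) (hq : SubQ W) (hl : LocUnif l Wk W)
    {xk : ℕ → E} {tk sk : ℕ → ℝ} {x : E} {t s : ℝ} (hx : Tendsto xk l (𝓝 x))
    (ht : Tendsto tk l (𝓝 t)) (hsk : Tendsto sk l (𝓝 s)) (hs : 0 < s) :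
    Tendsto (fun k => Sp (Wk k) (sk k) (xk k) (tk k)) l (𝓝 (Sp W s x t)) := by
  sorry

end Crest.Agent.R094
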