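import Crest.Agent.R094.M06_Compact
import Crest.Agent.R094.M11_NoConcave
import Crest.Agent.R094.M12_Run
import Crest.Agent.R094.M14_Conv

set_option autoImplicit false

namespace Crest.Agent.R094

open Filter Topology Set Metric
open scoped RealInnerProductSpace

variable {E : Type*} [NormedAddCommGroup E] [InnerProductSpace ℝ E] [FiniteDimensional ℝ E]

/-- The supremum of the functional over the class is linear in `ρ` and attained. -/
theorem d_linear : ∃ ds : ℝ, 0 ≤ ds ∧
    (∀ W : E → ℝ → ℝ, Cls 1 W → ∀ (x : E) (t ρ : ℝ), 0 < ρ → Fo W x t ρ ≤ ds * ρ) ∧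
    ∀ ρ > 0, ∃ W : E → ℝ → ℝ, Cls 1 W ∧ Fo W 0 0 ρ = ds * ρ := by
  sorry

end Crest.Agent.R094
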