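import Crest.Agent.R094.M06_Compact
import Crest.Agent.R094.M12_Run
import Crest.Agent.R094.M13_Rigid
import Crest.Agent.R094.M14_Conv

set_option autoImplicit false

namespace Crest.Agent.R094

open Filter Topology Set Metric
open scoped RealInnerProductSpace

variable {E : Type*} [NormedAddCommGroup E] [InnerProductSpace ℝ E] [FiniteDimensional ℝ E]

/-- Each exact maximiser costs a definite increment of the forward slope on a window of scales. -/
theorem window_cost (ds Cp : ℝ) (hds : 0 < ds) : ∃ Λ c : ℝ, 1 < Λ ∧ 0 < c ∧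
    ∀ W : E → ℝ → ℝ, Cls 1 W → Nrm W →
      (∃ (x : E) (t ρ : ℝ), ‖x‖ ≤ Cp ∧ |t| ≤ Cp ∧ 1 / 2 ≤ ρ ∧ ρ ≤ 4 ∧ Fo W x t ρ = ds * ρ) →
      c ≤ Sp W Λ 0 0 - Sp W Λ⁻¹ 0 0 := by
  sorry

end Crest.Agent.R094
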