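import Crest.Agent.R094.M12_Run
import Crest.Agent.R094.M16_Window

set_option autoImplicit false

namespace Crest.Agent.R094

open Filter Topology Set Metric
open scoped RealInnerProductSpace

variable {E : Type*} [NormedAddCommGroup E] [InnerProductSpace ℝ E] [FiniteDimensional ℝ E]

/-- Exact maximisers at all larger scales near an exact maximiser (in moving frames). -/
theorem up_chain (ds : ℝ)
    (hle : ∀ W : E → ℝ → ℝ, Cls 1 W → ∀ (x : E) (t ρ : ℝ), 0 < ρ → Fo W x t ρ ≤ ds * ρ) :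
    ∃ Cp : ℝ, 1 ≤ Cp ∧ ∀ W : E → ℝ → ℝ, Cls 1 W → Nrm W → Fo W 0 0 1 = ds →
      ∀ j : ℕ, ∃ (x : E) (t ρ : ℝ), (19 / 10 : ℝ) ^ j ≤ ρ ∧ ρ ≤ (21 / 10 : ℝ) ^ j ∧
        Fo W x t ρ = ds * ρ ∧ |t| ≤ Cp * ρ ∧
        ∀ (p : E) (c q : ℝ), FlatWit W 0 0 ρ p c q → ‖x - t • p‖ ≤ Cp * ρ := by
  sorry

/-- There are no exact maximisers with `ds > 0`. -/
theorem no_positive (ds : ℝ) (hds : 0 < ds)
    (hle : ∀ W : E → ℝ → ℝ, Cls 1 W → ∀ (x : E) (t ρ : ℝ), 0 < ρ → Fo W x t ρ ≤ ds * ρ)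
    (hex : ∀ ρ > 0, ∃ W : E → ℝ → ℝ, Cls 1 W ∧ Fo W 0 0 ρ = ds * ρ) : False := by
  sorry

end Crest.Agent.R094
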