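import Crest.Agent.R094.M15_DLinear
import Crest.Agent.R094.M17_Contra

set_option autoImplicit false

namespace Crest.Agent.R094

open Filter Topology Set Metric
open scoped RealInnerProductSpace

variable {E : Type*} [NormedAddCommGroup E] [InnerProductSpace ℝ E] [FiniteDimensional ℝ E]

theorem affine_of_Fo_zero {W : E → ℝ → ℝ} (h : Sol W)
    (h1 : ∀ (x : E) (t ρ : ℝ), 0 < ρ → Fo W x t ρ = 0)
    (h2 : ∀ (x : E) (t ρ : ℝ), 0 < ρ → Fo (rev W) x t ρ = 0) :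
    ∃ (p : E) (c q : ℝ), ∀ (x : E) (t : ℝ), W x t = c + ⟪p, x⟫ + q * t := by
  sorry

/-- LIOUVILLE THEOREM. -/
theorem liouville {W : E → ℝ → ℝ} (h : Cls 1 W) :
    ∃ (p : E) (c q : ℝ), ∀ (x : E) (t : ℝ), W x t = c + ⟪p, x⟫ + q * t := by
  sorry

end Crest.Agent.R094
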