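import Crest.Agent.R094.M18_Liouville

set_option autoImplicit false

namespace Crest.Agent.R094

open Filter Topology Set Metric
open scoped RealInnerProductSpace

variable {E : Type*} [NormedAddCommGroup E] [InnerProductSpace ℝ E] [FiniteDimensional ℝ E]

/-- bounded excess at small scales for the local class -/
theorem bounded_excess : ∃ Λ τ₀ : ℝ, 1 ≤ Λ ∧ 0 < τ₀ ∧ τ₀ ≤ 1 / 8 ∧ 10 * Real.sqrt Λ * τ₀ ≤ 1 ∧
    ∀ w : E → ℝ → ℝ, Qcls w → ∀ (x : E) (t τ : ℝ), ‖x‖ ≤ 5 / 2 → |t| ≤ 1 / 4 → 0 < τ → τ ≤ τ₀ →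
      ∃ (p : E) (c q : ℝ), ∀ (y : E) (s : ℝ), |s - t| ≤ τ →
        ‖y - x - (s - t) • p‖ ≤ 10 * Real.sqrt Λ * τ →
        |w y s - (c + ⟪p, y - x⟫ + q * (s - t))| ≤ Λ * τ := by
  sorry

/-- improvement of flatness for the local class (η = 1/4) -/
theorem uniform_flatness : ∃ θ : ℝ, 0 < θ ∧ θ ≤ 1 / 16 ∧ ∀ w : E → ℝ → ℝ, Qcls w →
    ∃ (p : E) (c q : ℝ), ∀ (y : E) (s : ℝ), |s| ≤ 2 * θ → ‖y - s • p‖ ≤ 10 * θ →
      |w y s - (c + ⟪p, y⟫ + q * s)| ≤ θ / 8 := by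
  sorry

end Crest.Agent.R094
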