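import Crest.Agent.R094.M01_CC
import Crest.Agent.R094.M02_Lambda
import Crest.Agent.R094.M03_Equi
import Crest.Agent.R094.M19_Local

set_option autoImplicit false

namespace Crest.Agent.R094

open Filter Topology Set Metric
open scoped RealInnerProductSpace
open Crest.AnalysisR.PDE

/-- FLAT IMPROVEMENT at finite flatness. -/
theorem flat_improvement (m : ℕ) : ∃ lam₀ θ C : ℝ, 0 < lam₀ ∧ lam₀ ≤ 1 / 400 ∧ 0 < θ ∧ θ ≤ 1 / 16 ∧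
    0 < C ∧
    ∀ (u : EuclideanSpace ℝ (Fin (m + 1)) → ℝ) (Ω : Set (EuclideanSpace ℝ (Fin (m + 1)))),
      IsInfinityHarmonicOn u Ω →
      ∀ (x₀ ξ : EuclideanSpace ℝ (Fin (m + 1))) (a c lam r : ℝ), ‖ξ‖ = 1 → 0 < a → 0 < lam →
        lam ≤ lam₀ → 0 < r → Cyl x₀ ξ r (10 * Real.sqrt lam * r) ⊆ Ω → FlatU u x₀ ξ a c lam r →
        ∃ (ξ' : EuclideanSpace ℝ (Fin (m + 1))) (a' c' : ℝ), ‖ξ'‖ = 1 ∧ |a' - a| ≤ C * a * lam ∧
          ‖ξ' - ξ‖ ≤ C * Real.sqrt lam ∧ FlatU u x₀ ξ' a' c' (lam / 4) (θ * r) ∧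
          Cyl x₀ ξ' (θ * r) (10 * Real.sqrt (lam / 4) * (θ * r)) ⊆
            Cyl x₀ ξ r (10 * Real.sqrt lam * r) := by
  sorry

end Crest.Agent.R094
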