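import Crest.Agent.R094.M20_Flat

set_option autoImplicit false

namespace Crest.Agent.R094

open Filter Topology Set Metric
open scoped RealInnerProductSpace
open Crest.AnalysisR.PDE

/-- Pointwise C^{1,α} expansion at a flat point. -/
theorem pointwise_flat (m : ℕ) : ∃ lam₀ α C c₁ : ℝ, 0 < lam₀ ∧ lam₀ ≤ 1 / 400 ∧ 0 < α ∧ α ≤ 1 / 3 ∧
    0 < C ∧ 0 < c₁ ∧ c₁ ≤ 1 ∧
    ∀ (u : EuclideanSpace ℝ (Fin (m + 1)) → ℝ) (Ω : Set (EuclideanSpace ℝ (Fin (m + 1)))),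
      IsInfinityHarmonicOn u Ω →
      ∀ (x₀ ξ : EuclideanSpace ℝ (Fin (m + 1))) (a c r : ℝ), ‖ξ‖ = 1 → 0 < a → 0 < r →
        Cyl x₀ ξ r (10 * Real.sqrt lam₀ * r) ⊆ Ω → FlatU u x₀ ξ a c lam₀ r →
        ∃ g : EuclideanSpace ℝ (Fin (m + 1)), ‖g‖ ≤ 2 * a ∧
          ∀ p : EuclideanSpace ℝ (Fin (m + 1)), ‖p - x₀‖ ≤ c₁ * r →
            |u p - u x₀ - ⟪g, p - x₀⟫| ≤ C * a * ‖p - x₀‖ * (‖p - x₀‖ / r) ^ α := by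
  sorry

end Crest.Agent.R094
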