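import Crest.Agent.R094.M01_CC

set_option autoImplicit false

namespace Crest.Agent.R094

open Filter Topology Set Metric
open scoped RealInnerProductSpace
open Crest.AnalysisR.PDE

/-- interior Lipschitz estimate -/
theorem lipschitz_of_osc {d : ℕ} {u : EuclideanSpace ℝ (Fin d) → ℝ}
    (hu : IsInfinityHarmonicOn u (ball 0 1)) {M : ℝ}
    (hM : ∀ x ∈ ball (0 : EuclideanSpace ℝ (Fin d)) 1, ∀ y ∈ ball (0 : EuclideanSpace ℝ (Fin d)) 1,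
      u x - u y ≤ M) :
    ∀ p ∈ ball (0 : EuclideanSpace ℝ (Fin d)) (3 / 4),
      ∀ q ∈ ball (0 : EuclideanSpace ℝ (Fin d)) (3 / 4), |u p - u q| ≤ 8 * M * ‖p - q‖ := by
  sorry

/-- Either the Lipschitz constant drops or `u` is flat. -/
theorem dichotomy (d : ℕ) (lam₀ : ℝ) (hlam : 0 < lam₀) (hlam1 : lam₀ ≤ 1 / 400) :
    ∃ θ₀ δ₀ r₀ : ℝ, 0 < θ₀ ∧ θ₀ < 1 ∧ 0 < δ₀ ∧ δ₀ < 1 ∧ 0 < r₀ ∧ r₀ ≤ 1 / 4 ∧
      ∀ (u : EuclideanSpace ℝ (Fin d) → ℝ) (x₀ : EuclideanSpace ℝ (Fin d)) (r L : ℝ), 0 < r →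
        0 < L → IsInfinityHarmonicOn u (ball x₀ r) →
        (∀ p ∈ ball x₀ r, ∀ q ∈ ball x₀ r, |u p - u q| ≤ L * ‖p - q‖) →
        (∀ p ∈ ball x₀ (θ₀ * r), ∀ q ∈ ball x₀ (θ₀ * r),
          |u p - u q| ≤ (1 - δ₀) * L * ‖p - q‖) ∨
        ∃ (ξ : EuclideanSpace ℝ (Fin d)) (c : ℝ), ‖ξ‖ = 1 ∧ FlatU u x₀ ξ L c lam₀ (r₀ * r) ∧
          Cyl x₀ ξ (r₀ * r) (10 * Real.sqrt lam₀ * (r₀ * r)) ⊆ ball x₀ r := by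
  sorry

end Crest.Agent.R094
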