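import Crest.Agent.R094.M21_Iterate
import Crest.Agent.R094.M22_Dichotomy

set_option autoImplicit false

namespace Crest.Agent.R094

open Filter Topology Set Metric
open scoped RealInnerProductSpace Gradient
open Crest.AnalysisR.PDE

/-- pointwise expansions give Hölder continuity of the gradient -/
theorem holder_of_expansion {d : ℕ} {u : EuclideanSpace ℝ (Fin d) → ℝ} {α A : ℝ} (hα : 0 < α)
    (hα1 : α ≤ 1) (hA : 0 ≤ A)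
    (h : ∀ x ∈ ball (0 : EuclideanSpace ℝ (Fin d)) 2⁻¹, ∃ g : EuclideanSpace ℝ (Fin d), ‖g‖ ≤ A ∧
      ∀ p ∈ ball x (1 / 4), |u p - u x - ⟪g, p - x⟫| ≤ A * ‖p - x‖ ^ (1 + α)) :
    (∀ x ∈ ball (0 : EuclideanSpace ℝ (Fin d)) 2⁻¹, DifferentiableAt ℝ u x) ∧
    ∀ x ∈ ball (0 : EuclideanSpace ℝ (Fin d)) 2⁻¹, ∀ y ∈ ball (0 : EuclideanSpace ℝ (Fin d)) 2⁻¹,
      ‖∇ u x‖ ≤ A ∧ ‖∇ u x - ∇ u y‖ ≤ 100 * A * ‖x - y‖ ^ α := by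
  sorry

/-- expansions at every point -/
theorem expansion (m : ℕ) : ∃ α C : ℝ, 0 < α ∧ α ≤ 1 / 3 ∧ 0 < C ∧
    ∀ (u : EuclideanSpace ℝ (Fin (m + 1)) → ℝ) (x₀ : EuclideanSpace ℝ (Fin (m + 1))) (L : ℝ),
      0 < L → IsInfinityHarmonicOn u (ball x₀ (1 / 4)) →
      (∀ p ∈ ball x₀ (1 / 4), ∀ q ∈ ball x₀ (1 / 4), |u p - u q| ≤ L * ‖p - q‖) →
      ∃ g : EuclideanSpace ℝ (Fin (m + 1)), ‖g‖ ≤ C * L ∧
        ∀ p ∈ ball x₀ (1 / 4), |u p - u x₀ - ⟪g, p - x₀⟫| ≤ C * L * ‖p - x₀‖ ^ (1 + α) := by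
  sorry

end Crest.Agent.R094
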