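import Mathlib
import Crest.Agent.R094.SolDefs

/-! Row 94, step (b) of the blueprint 7921 (helper330): PROP C, algebraic core. -/

set_option autoImplicit false
set_option linter.unusedSectionVars false

namespace Crest.Agent.R094.PropC

open scoped RealInnerProductSpace
open Crest.Agent.R094.Sol

variable {V : Type*} [NormedAddCommGroup V] [InnerProductSpace ℝ V]

/-- position at time `0` of the line through `(x,t)` and `(z,t-s)`. -/
noncomputable def foot (s t : ℝ) (x z : V) : V := x - (t / s) • (x - z)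

/-- the penalty `|x-z|²/2s + (sc/2)|foot - Y0|²`. -/
noncomputable def Phi (c s : ℝ) (Y0 : V) (t : ℝ) (x z : V) : ℝ :=
  ‖x - z‖ ^ 2 / (2 * s) + s * c / 2 * ‖foot s t x z - Y0‖ ^ 2

theorem foot_swap {s : ℝ} (hs : s ≠ 0) (t : ℝ) (x z : V) :
    foot s (s - t) z x = foot s t x z := by
  unfold foot
  have h : (s - t) / s = 1 - t / s := by field_simp
  rw [h]
  module

theorem Phi_swap {s : ℝ} (hs : s ≠ 0) (c : ℝ) (Y0 : V) (t : ℝ) (x z : V) :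
    Phi c s Y0 (s - t) z x = Phi c s Y0 t x z := by
  unfold Phi
  rw [foot_swap hs, norm_sub_rev z x]

theorem normsq_lin (a b : ℝ) (B Y : V) :
    ‖a • B + b • Y‖ ^ 2 = a ^ 2 * ‖B‖ ^ 2 + 2 * a * b * ⟪B, Y⟫ + b ^ 2 * ‖Y‖ ^ 2 := by
  rw [norm_add_sq_real, norm_smul, norm_smul, real_inner_smul_left, real_inner_smul_right,
    mul_pow, mul_pow, Real.norm_eq_abs, Real.norm_eq_abs, sq_abs, sq_abs]
  ring

/-- the scalar inequality behind the first brace -/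
theorem gam_ineq {c s t δ : ℝ} (hs : 0 < s) (hδ : 0 < δ)
    {D k1 : ℝ} (hD : D = 1 + δ / s + c * (t + δ) ^ 2 * δ / s)
    (hk : k1 = 1 + c * δ * (2 * t - s + δ)) (hDp : 0 < D) (hkp : 0 < k1)
    {g : ℝ} (hg : g = (1 + c * δ * (t + δ)) / D) :
    δ / 2 * (1 + δ / s) * g ^ 2 - δ * g + s * c / 2 * (δ - (t + δ) * (δ / s) * g) ^ 2 ≤ 0 := by
  have h1 : δ / 2 * (1 + δ / s) * g ^ 2 - δ * g + s * c / 2 * (δ - (t + δ) * (δ / s) * g) ^ 2
      = δ / 2 * (D * g ^ 2 - 2 * g * (1 + c * δ * (t + δ)) + s * c * δ) := by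
    rw [hD]; field_simp; ring
  have h2 : D * g = 1 + c * δ * (t + δ) := by rw [hg]; field_simp
  have h3 : s * c * δ * D = (1 + c * δ * (t + δ)) ^ 2 - k1 := by
    rw [hD, hk]; field_simp; ring
  have h4 : D * (D * g ^ 2 - 2 * g * (1 + c * δ * (t + δ)) + s * c * δ) = - k1 := by
    have : D * (D * g ^ 2 - 2 * g * (1 + c * δ * (t + δ)) + s * c * δ)
      = (D * g) ^ 2 - 2 * (D * g) * (1 + c * δ * (t + δ)) + s * c * δ * D := by ring
    rw [this, h2, h3]; ring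
  have h5 : D * g ^ 2 - 2 * g * (1 + c * δ * (t + δ)) + s * c * δ ≤ 0 := by
    by_contra hcon
    push Not at hcon
    have := mul_pos hDp hcon
    linarith
  rw [h1]
  have := mul_nonneg hδ.le (neg_nonneg.mpr h5)
  linarith

/-- the vector inequality behind the first brace -/
theorem brace_vec {c s t δ : ℝ} (hs : 0 < s)
    {k1 g : ℝ} (hk : k1 = 1 + c * δ * (2 * t - s + δ))
    (hg : δ / 2 * (1 + δ / s) * g ^ 2 - δ * g
      + s * c / 2 * (δ - (t + δ) * (δ / s) * g) ^ 2 ≤ 0)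
    (W β : V) :
    δ / 2 * (1 + δ / s) * ‖(s * c) • W + g • β‖ ^ 2
      - δ * ⟪(s * c) • W + g • β, (c * (s - t)) • W + β⟫
      + s * c / 2 * ‖k1 • W + δ • ((c * (s - t)) • W + β)
          - ((t + δ) * (δ / s)) • ((s * c) • W + g • β)‖ ^ 2
      ≤ s * c / 2 * k1 * ‖W‖ ^ 2 := by
  have e3 : k1 • W + δ • ((c * (s - t)) • W + β)
          - ((t + δ) * (δ / s)) • ((s * c) • W + g • β)
      = (1:ℝ) • W + (δ - (t + δ) * (δ / s) * g) • β := by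
    have : k1 + δ * (c * (s - t)) - (t + δ) * (δ / s) * (s * c) = 1 := by
      rw [hk]; field_simp; ring
    have h2 : k1 • W + δ • ((c * (s - t)) • W + β)
          - ((t + δ) * (δ / s)) • ((s * c) • W + g • β)
        = (k1 + δ * (c * (s - t)) - (t + δ) * (δ / s) * (s * c)) • W
          + (δ - (t + δ) * (δ / s) * g) • β := by module
    rw [h2, this]
  have e2 : ⟪(s * c) • W + g • β, (c * (s - t)) • W + β⟫
      = s * c * (c * (s - t)) * ‖W‖ ^ 2 + (s * c + g * (c * (s - t))) * ⟪W, β⟫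
        + g * ‖β‖ ^ 2 := by
    rw [inner_add_left, inner_add_right, inner_add_right, real_inner_smul_left,
      real_inner_smul_left, real_inner_smul_left, real_inner_smul_left, real_inner_smul_right,
      real_inner_smul_right, real_inner_self_eq_norm_sq, real_inner_self_eq_norm_sq,
      real_inner_comm W β]
    ring
  rw [e3, e2, normsq_lin, normsq_lin]
  have hβ : 0 ≤ ‖β‖ ^ 2 := by positivity
  have key : s * c / 2 * k1 * ‖W‖ ^ 2 - (δ / 2 * (1 + δ / s) *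
        ((s * c) ^ 2 * ‖W‖ ^ 2 + 2 * (s * c) * g * ⟪W, β⟫ + g ^ 2 * ‖β‖ ^ 2)
      - δ * (s * c * (c * (s - t)) * ‖W‖ ^ 2 + (s * c + g * (c * (s - t))) * ⟪W, β⟫
        + g * ‖β‖ ^ 2)
      + s * c / 2 * ((1:ℝ) ^ 2 * ‖W‖ ^ 2 + 2 * 1 * (δ - (t + δ) * (δ / s) * g) * ⟪W, β⟫
        + (δ - (t + δ) * (δ / s) * g) ^ 2 * ‖β‖ ^ 2))
      = - (δ / 2 * (1 + δ / s) * g ^ 2 - δ * g
      + s * c / 2 * (δ - (t + δ) * (δ / s) * g) ^ 2) * ‖β‖ ^ 2 := by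
    rw [hk]; field_simp; ring
  have h2 : 0 ≤ - (δ / 2 * (1 + δ / s) * g ^ 2 - δ * g
      + s * c / 2 * (δ - (t + δ) * (δ / s) * g) ^ 2) * ‖β‖ ^ 2 :=
    mul_nonneg (by linarith) hβ
  linarith

/-- FIRST BRACE.  For every `y` there is `z'` with a good forward step. -/
theorem brace {c s t δ : ℝ} (hs : 0 < s) (hδ : 0 < δ) (hc : 0 ≤ c)
    (hk : 0 < 1 + c * δ * (2 * t - s + δ)) (Y0 x z y : V) :
    ∃ z' : V, Phi c s Y0 (t + δ) y z' + ‖z - z'‖ ^ 2 / (2 * δ) - ‖x - y‖ ^ 2 / (2 * δ)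
      ≤ ‖x - z‖ ^ 2 / (2 * s)
        + s * c / 2 * (‖foot s t x z - Y0‖ ^ 2 / (1 + c * δ * (2 * t - s + δ))) := by
  set k1 : ℝ := 1 + c * δ * (2 * t - s + δ) with hk1
  set D : ℝ := 1 + δ / s + c * (t + δ) ^ 2 * δ / s with hD
  have hDp : 0 < D := by positivity
  set g : ℝ := (1 + c * δ * (t + δ)) / D with hg
  have hgi := gam_ineq hs hδ hD hk1 hDp hk hg
  set ν : V := s⁻¹ • (x - z) with hν
  set B : V := δ⁻¹ • (y - x) - ν with hB
  set Y : V := foot s t x z - Y0 with hY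
  set W : V := k1⁻¹ • Y with hW
  set β : V := B - (c * (s - t)) • W with hβ
  set h : V := (s * c) • W + g • β with hh
  have hvec := brace_vec (c := c) (s := s) (t := t) (δ := δ) hs hk1 hgi W β
  have hBW : (c * (s - t)) • W + β = B := by rw [hβ]; module
  have hYW : k1 • W = Y := by
    rw [hW, smul_smul, mul_inv_cancel₀ hk.ne', one_smul]
  rw [← hh, hBW, hYW] at hvec
  have hxz : x - z = s • ν := by rw [hν, smul_smul, mul_inv_cancel₀ hs.ne', one_smul]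
  have hxy : x - y = -(δ • (ν + B)) := by
    have : ν + B = δ⁻¹ • (y - x) := by rw [hB]; abel
    rw [this, smul_smul, mul_inv_cancel₀ hδ.ne', one_smul]; abel
  refine ⟨y - s • ν - δ • h, ?_⟩
  have e1 : y - (y - s • ν - δ • h) = s • ν + δ • h := by abel
  have e2 : z - (y - s • ν - δ • h) = (-δ) • (ν + B) + δ • h := by
    have : z - (y - s • ν - δ • h) = (x - y) - (x - z) + s • ν + δ • h := by abel
    rw [this, hxz, hxy]; module
  have e3 : foot s (t + δ) y (y - s • ν - δ • h) - Y0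
      = Y + δ • B - ((t + δ) * (δ / s)) • h := by
    have h1 : foot s t x z = x - t • ν := by
      rw [foot, hxz, smul_smul, div_mul_cancel₀ _ hs.ne']
    have h2 : foot s (t + δ) y (y - s • ν - δ • h)
        = y - (t + δ) • ν - ((t + δ) * (δ / s)) • h := by
      have e0 : ((t + δ) / s) • (s • ν + δ • h)
          = (t + δ) • ν + ((t + δ) * (δ / s)) • h := by
        have a1 : (t + δ) / s * s = t + δ := div_mul_cancel₀ _ hs.ne'
        have a2 : (t + δ) / s * δ = (t + δ) * (δ / s) := by ring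
        have a3 : ((t + δ) / s) • (s • ν + δ • h)
            = ((t + δ) / s * s) • ν + ((t + δ) / s * δ) • h := by module
        rw [a3, a1, a2]
      rw [foot, e1, e0]; abel
    have h3 : y = x + δ • (ν + B) := by
      have : y = x - (x - y) := by abel
      rw [this, hxy]; abel
    rw [hY, h1, h2]
    conv_lhs => rw [h3]
    module
  have e4 : ‖x - y‖ ^ 2 = δ ^ 2 * ‖ν + B‖ ^ 2 := by
    rw [hxy, norm_neg, norm_smul, mul_pow, Real.norm_eq_abs, sq_abs]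
  have e5 : ‖x - z‖ ^ 2 = s ^ 2 * ‖ν‖ ^ 2 := by
    rw [hxz, norm_smul, mul_pow, Real.norm_eq_abs, sq_abs]
  have e6 : ‖(-δ) • (ν + B) + δ • h‖ ^ 2
      = δ ^ 2 * (‖ν + B‖ ^ 2 - 2 * (⟪ν, h⟫ + ⟪h, B⟫) + ‖h‖ ^ 2) := by
    rw [normsq_lin, inner_add_left, real_inner_comm h B]; ring
  have e7 : ‖s • ν + δ • h‖ ^ 2 = s ^ 2 * ‖ν‖ ^ 2 + 2 * s * δ * ⟪ν, h⟫ + δ ^ 2 * ‖h‖ ^ 2 :=
    normsq_lin _ _ _ _
  have e8 : ‖Y‖ ^ 2 / k1 = k1 * ‖W‖ ^ 2 := by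
    rw [hW, norm_smul, mul_pow, Real.norm_eq_abs, sq_abs]; field_simp
  rw [Phi, e1, e2, e3, e4, e5, e6, e7, e8]
  have h9 : (s ^ 2 * ‖ν‖ ^ 2 + 2 * s * δ * ⟪ν, h⟫ + δ ^ 2 * ‖h‖ ^ 2) / (2 * s)
      + δ ^ 2 * (‖ν + B‖ ^ 2 - 2 * (⟪ν, h⟫ + ⟪h, B⟫) + ‖h‖ ^ 2) / (2 * δ)
      - δ ^ 2 * ‖ν + B‖ ^ 2 / (2 * δ)
      = s ^ 2 * ‖ν‖ ^ 2 / (2 * s) + (δ / 2 * (1 + δ / s) * ‖h‖ ^ 2 - δ * ⟪h, B⟫) := by
    field_simp; ring
  linarith

/-- SECOND BRACE (mirror of the first one). -/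
theorem brace' {c s t δ : ℝ} (hs : 0 < s) (hδ : 0 < δ) (hc : 0 ≤ c)
    (hk : 0 < 1 - c * δ * (2 * t - s - δ)) (Y0 x z z'' : V) :
    ∃ x'' : V, Phi c s Y0 (t - δ) x'' z'' + ‖x - x''‖ ^ 2 / (2 * δ) - ‖z - z''‖ ^ 2 / (2 * δ)
      ≤ ‖x - z‖ ^ 2 / (2 * s)
        + s * c / 2 * (‖foot s t x z - Y0‖ ^ 2 / (1 - c * δ * (2 * t - s - δ))) := by
  have e : 1 + c * δ * (2 * (s - t) - s + δ) = 1 - c * δ * (2 * t - s - δ) := by ring
  obtain ⟨x'', hx⟩ := brace (t := s - t) hs hδ hc (by rw [e]; exact hk) Y0 z x z''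
  refine ⟨x'', ?_⟩
  rw [e, foot_swap hs.ne', norm_sub_rev z x] at hx
  have e2 : s - t + δ = s - (t - δ) := by ring
  rw [e2, Phi_swap hs.ne'] at hx
  exact hx

/-- the sum of the two inverse factors -/
theorem kappa_ineq {c s t δ : ℝ} (hδ : 0 < δ) (hc : 0 ≤ c) (hA : c * (2 * t - s) ^ 2 ≤ 1) :
    0 < 1 + c * δ * (2 * t - s + δ) ∧ 0 < 1 - c * δ * (2 * t - s - δ) ∧
    1 / (1 + c * δ * (2 * t - s + δ)) + 1 / (1 - c * δ * (2 * t - s - δ)) ≤ 2 := by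
  set A := 2 * t - s with hAd
  have h1 : (c * δ * A) ^ 2 ≤ c * δ ^ 2 := by
    have : (c * δ * A) ^ 2 = c * δ ^ 2 * (c * A ^ 2) := by ring
    rw [this]
    have h0 : 0 ≤ c * δ ^ 2 := by positivity
    nlinarith
  have h2 : (c * δ * A) ^ 2 < (1 + c * δ ^ 2) ^ 2 := by
    have h0 : 0 ≤ c * δ ^ 2 := by positivity
    nlinarith
  have h3 : |c * δ * A| < 1 + c * δ ^ 2 := by
    have h0 : 0 ≤ 1 + c * δ ^ 2 := by positivity
    exact abs_lt_of_sq_lt_sq h2 h0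
  obtain ⟨h4, h5⟩ := abs_lt.mp h3
  have p1 : 0 < 1 + c * δ * (A + δ) := by nlinarith
  have p2 : 0 < 1 - c * δ * (A - δ) := by nlinarith
  refine ⟨p1, p2, ?_⟩
  rw [div_add_div _ _ p1.ne' p2.ne', div_le_iff₀ (mul_pos p1 p2)]
  nlinarith [mul_nonneg hc (mul_nonneg (sq_nonneg δ) (sub_nonneg.mpr hA)),
    mul_nonneg (mul_nonneg hc hc) (pow_nonneg (sq_nonneg δ) 2)]

/-- POINTWISE STEP of PROP C. -/
theorem step_pt {c s t δ ε : ℝ} (hs : 0 < s) (hδ : 0 < δ) (hc : 0 ≤ c)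
    (hcA : c * (2 * t - s) ^ 2 ≤ 1) (Y0 : V) (U A w D : V → ℝ → ℝ)
    (hA : ∀ x, ∃ y, 2 * A x t ≤ A y (t + δ) - ‖x - y‖ ^ 2 / (2 * δ) + U x t + ε)
    (hA' : ∀ x x'', U x t ≤ A x'' (t - δ) + ‖x - x''‖ ^ 2 / (2 * δ))
    (hD : ∀ z, ∃ z'', D z'' (t - δ - s) + ‖z - z''‖ ^ 2 / (2 * δ) + w z (t - s)
      ≤ 2 * D z (t - s) + ε)
    (hD' : ∀ z z', D z' (t + δ - s) - ‖z - z'‖ ^ 2 / (2 * δ) ≤ w z (t - s))
    (x z : V) : ∃ y z' x'' z'' : V,
      2 * (A x t - D z (t - s) - Phi c s Y0 t x z)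
        ≤ (A y (t + δ) - D z' (t + δ - s) - Phi c s Y0 (t + δ) y z')
          + (A x'' (t - δ) - D z'' (t - δ - s) - Phi c s Y0 (t - δ) x'' z'') + 2 * ε := by
  obtain ⟨p1, p2, p3⟩ := kappa_ineq (s := s) (t := t) hδ hc hcA
  obtain ⟨y, hy⟩ := hA x
  obtain ⟨z'', hz''⟩ := hD z
  obtain ⟨z', hz'⟩ := brace hs hδ hc p1 Y0 x z y
  obtain ⟨x'', hx''⟩ := brace' hs hδ hc p2 Y0 x z z''
  refine ⟨y, z', x'', z'', ?_⟩
  have h1 := hA' x x''
  have h2 := hD' z z'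
  have h3 : s * c / 2 * (‖foot s t x z - Y0‖ ^ 2 / (1 + c * δ * (2 * t - s + δ)))
      + s * c / 2 * (‖foot s t x z - Y0‖ ^ 2 / (1 - c * δ * (2 * t - s - δ)))
      ≤ 2 * (s * c / 2 * ‖foot s t x z - Y0‖ ^ 2) := by
    have : s * c / 2 * (‖foot s t x z - Y0‖ ^ 2 / (1 + c * δ * (2 * t - s + δ)))
      + s * c / 2 * (‖foot s t x z - Y0‖ ^ 2 / (1 - c * δ * (2 * t - s - δ)))
      = (s * c / 2 * ‖foot s t x z - Y0‖ ^ 2) * (1 / (1 + c * δ * (2 * t - s + δ))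
        + 1 / (1 - c * δ * (2 * t - s - δ))) := by ring
    have hX : 0 ≤ s * c / 2 * ‖foot s t x z - Y0‖ ^ 2 := by positivity
    have := mul_le_mul_of_nonneg_left p3 hX
    linarith
  have h4 : Phi c s Y0 t x z = ‖x - z‖ ^ 2 / (2 * s)
      + s * c / 2 * ‖foot s t x z - Y0‖ ^ 2 := rfl
  rw [h4]
  linarith


/-! ### discrete convexity -/

theorem disc_conv (a : ℕ → ℝ) (N : ℕ)
    (h : ∀ j, j + 1 < 2 * N → 2 * a (j + 1) ≤ a (j + 2) + a j) :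
    2 * a N ≤ a 0 + a (2 * N) := by
  have hmono : ∀ k j, j + k < 2 * N → a (j + 1) - a j ≤ a (j + k + 1) - a (j + k) := by
    intro k
    induction k with
    | zero => intro j _; simp
    | succ k ih =>
      intro j hj
      have h1 := ih j (by omega)
      have h2 := h (j + k) (by omega)
      have e1 : j + (k + 1) + 1 = j + k + 2 := by ring
      have e2 : j + (k + 1) = j + k + 1 := by ring
      rw [e1, e2]
      linarith
  have hb : ∀ j, j ≤ N → 2 * a N ≤ a (N + j) + a (N - j) := by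
    intro j
    induction j with
    | zero => intro _; simp; linarith
    | succ j ih =>
      intro hj
      have h1 := ih (by omega)
      have h2 := hmono (2 * j + 1) (N - (j + 1)) (by omega)
      have e1 : N - (j + 1) + 1 = N - j := by omega
      have e2 : N - (j + 1) + (2 * j + 1) + 1 = N + (j + 1) := by omega
      have e3 : N - (j + 1) + (2 * j + 1) = N + j := by omega
      rw [e1, e2, e3] at h2
      linarith
  have h3 := hb N le_rfl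
  have e1 : N + N = 2 * N := by ring
  rw [e1, Nat.sub_self] at h3
  linarith

/-! ### growth and boundedness -/

omit [InnerProductSpace ℝ V] in
theorem sq_le_two (x y : V) : ‖y‖ ^ 2 ≤ 2 * ‖x‖ ^ 2 + 2 * ‖x - y‖ ^ 2 := by
  have h : ‖y‖ ≤ ‖x‖ + ‖x - y‖ := by
    have : y = x - (x - y) := by abel
    calc ‖y‖ = ‖x - (x - y)‖ := by rw [← this]
      _ ≤ ‖x‖ + ‖x - y‖ := norm_sub_le _ _
  have h0 : 0 ≤ ‖y‖ := norm_nonneg _
  nlinarith [sq_nonneg (‖x‖ - ‖x - y‖), norm_nonneg x, norm_nonneg (x - y)]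

omit [InnerProductSpace ℝ V] in
theorem pen_le {f : V → ℝ} {s e C : ℝ} (hs : 0 < s) (he : 0 ≤ e) (hse : 4 * s * e ≤ 1)
    (hf : ∀ y, f y ≤ e * ‖y‖ ^ 2 + C) (x y : V) :
    f y - ‖x - y‖ ^ 2 / (2 * s) ≤ 2 * e * ‖x‖ ^ 2 + C := by
  have h1 := hf y
  have h2 := mul_le_mul_of_nonneg_left (sq_le_two x y) he
  have h3 : 2 * e * ‖x - y‖ ^ 2 ≤ ‖x - y‖ ^ 2 / (2 * s) := by
    rw [le_div_iff₀ (by positivity)]
    nlinarith [sq_nonneg ‖x - y‖]
  nlinarith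

theorem bdd_pen {f : V → ℝ} {s e C : ℝ} (hs : 0 < s) (he : 0 ≤ e) (hse : 4 * s * e ≤ 1)
    (hf : ∀ y, f y ≤ e * ‖y‖ ^ 2 + C) (x : V) :
    BddAbove (Set.range fun y => f y - ‖x - y‖ ^ 2 / (2 * s)) :=
  ⟨2 * e * ‖x‖ ^ 2 + C, by rintro _ ⟨y, rfl⟩; exact pen_le hs he hse hf x y⟩

theorem bdd_pen' {f : V → ℝ} {s e C : ℝ} (hs : 0 < s) (he : 0 ≤ e) (hse : 4 * s * e ≤ 1)
    (hf : ∀ y, - (e * ‖y‖ ^ 2 + C) ≤ f y) (x : V) :
    BddBelow (Set.range fun y => f y + ‖x - y‖ ^ 2 / (2 * s)) :=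
  ⟨-(2 * e * ‖x‖ ^ 2 + C), by
    rintro _ ⟨y, rfl⟩
    have := pen_le (f := fun y => - f y) hs he hse (fun y => by have := hf y; linarith) x y
    simp only
    linarith⟩

/-- the two bounds of `T` -/
theorem T_le_of {U : V → ℝ → ℝ} {s t e C : ℝ} (hs : 0 < s) (he : 0 ≤ e) (hse : 4 * s * e ≤ 1)
    (hf : ∀ y, U y (t + s) ≤ e * ‖y‖ ^ 2 + C) (x : V) :
    T s U x t ≤ 2 * e * ‖x‖ ^ 2 + C :=
  ciSup_le fun y => pen_le hs he hse hf x y

theorem le_T_of {U : V → ℝ → ℝ} {s t e C : ℝ} (hs : 0 < s) (he : 0 ≤ e) (hse : 4 * s * e ≤ 1)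
    (hf : ∀ y, U y (t + s) ≤ e * ‖y‖ ^ 2 + C) (x y : V) :
    U y (t + s) - ‖x - y‖ ^ 2 / (2 * s) ≤ T s U x t :=
  le_ciSup (f := fun y => U y (t + s) - ‖x - y‖ ^ 2 / (2 * s)) (bdd_pen hs he hse hf x) y

theorem le_T_self {U : V → ℝ → ℝ} {s t e C : ℝ} (hs : 0 < s) (he : 0 ≤ e) (hse : 4 * s * e ≤ 1)
    (hf : ∀ y, U y (t + s) ≤ e * ‖y‖ ^ 2 + C) (x : V) :
    U x (t + s) ≤ T s U x t := by
  have := le_T_of hs he hse hf x x
  simpa using this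

theorem B_ge_of {w : V → ℝ → ℝ} {s t e C : ℝ} (hs : 0 < s) (he : 0 ≤ e) (hse : 4 * s * e ≤ 1)
    (hf : ∀ y, - (e * ‖y‖ ^ 2 + C) ≤ w y (t - s)) (x : V) :
    -(2 * e * ‖x‖ ^ 2 + C) ≤ B s w x t :=
  le_ciInf fun y => by
    have := pen_le (f := fun y => - w y (t - s)) hs he hse (fun y => by have := hf y; linarith) x y
    linarith

theorem B_le_of {w : V → ℝ → ℝ} {s t e C : ℝ} (hs : 0 < s) (he : 0 ≤ e) (hse : 4 * s * e ≤ 1)
    (hf : ∀ y, - (e * ‖y‖ ^ 2 + C) ≤ w y (t - s)) (x y : V) :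
    B s w x t ≤ w y (t - s) + ‖x - y‖ ^ 2 / (2 * s) :=
  ciInf_le (f := fun y => w y (t - s) + ‖x - y‖ ^ 2 / (2 * s)) (bdd_pen' hs he hse hf x) y

theorem B_le_self {w : V → ℝ → ℝ} {s t e C : ℝ} (hs : 0 < s) (he : 0 ≤ e) (hse : 4 * s * e ≤ 1)
    (hf : ∀ y, - (e * ‖y‖ ^ 2 + C) ≤ w y (t - s)) (x : V) :
    B s w x t ≤ w x (t - s) := by
  have := B_le_of hs he hse hf x x
  simpa using this

/-- COERCIVITY of the penalty. -/
theorem coer {c s R : ℝ} (hs : 0 < s) (hc : 0 < c) (Y0 : V) {t : ℝ} (ht : |t| ≤ R) (x z : V) :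
    ‖x‖ ^ 2 + ‖z‖ ^ 2 ≤ (18 / (s * c) + (9 * (R / s) ^ 2 + 2) * (2 * s)) * Phi c s Y0 t x z
      + 9 * ‖Y0‖ ^ 2 := by
  have hR : 0 ≤ R := (abs_nonneg t).trans ht
  set Y := foot s t x z with hY
  have h1 : ‖x‖ ≤ ‖Y - Y0‖ + ‖Y0‖ + R / s * ‖x - z‖ := by
    have e : x = (Y - Y0) + Y0 + (t / s) • (x - z) := by rw [hY, foot]; module
    calc ‖x‖ = ‖(Y - Y0) + Y0 + (t / s) • (x - z)‖ := by rw [← e]
      _ ≤ ‖(Y - Y0) + Y0‖ + ‖(t / s) • (x - z)‖ := norm_add_le _ _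
      _ ≤ ‖Y - Y0‖ + ‖Y0‖ + ‖(t / s) • (x - z)‖ := by gcongr; exact norm_add_le _ _
      _ ≤ _ := by
        rw [norm_smul, Real.norm_eq_abs, abs_div, abs_of_pos hs]
        gcongr
  have h2 : ‖x‖ ^ 2 ≤ 3 * (‖Y - Y0‖ ^ 2 + ‖Y0‖ ^ 2 + (R / s) ^ 2 * ‖x - z‖ ^ 2) := by
    have h0 : 0 ≤ ‖x‖ := norm_nonneg _
    have h3 : ‖x‖ ^ 2 ≤ (‖Y - Y0‖ + ‖Y0‖ + R / s * ‖x - z‖) ^ 2 := by gcongr
    have h4 : (R / s) ^ 2 * ‖x - z‖ ^ 2 = (R / s * ‖x - z‖) ^ 2 := by ring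
    rw [h4]
    nlinarith [sq_nonneg (‖Y - Y0‖ - ‖Y0‖), sq_nonneg (‖Y - Y0‖ - R / s * ‖x - z‖),
      sq_nonneg (‖Y0‖ - R / s * ‖x - z‖)]
  have h3 := sq_le_two x z
  have h4 : (18 / (s * c)) * (s * c / 2 * ‖Y - Y0‖ ^ 2) = 9 * ‖Y - Y0‖ ^ 2 := by
    field_simp; ring
  have h5 : ((9 * (R / s) ^ 2 + 2) * (2 * s)) * (‖x - z‖ ^ 2 / (2 * s))
      = (9 * (R / s) ^ 2 + 2) * ‖x - z‖ ^ 2 := by field_simp
  have h6 : 0 ≤ (18 / (s * c)) * (‖x - z‖ ^ 2 / (2 * s)) := by positivity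
  have h7 : 0 ≤ ((9 * (R / s) ^ 2 + 2) * (2 * s)) * (s * c / 2 * ‖Y - Y0‖ ^ 2) := by positivity
  have h8 : Phi c s Y0 t x z = ‖x - z‖ ^ 2 / (2 * s) + s * c / 2 * ‖Y - Y0‖ ^ 2 := rfl
  have h9 : ∀ a b p q : ℝ, (a + b) * (p + q) = a * q + b * p + (a * p + b * q) := by
    intros; ring
  rw [h8, h9, h4, h5]
  nlinarith

theorem Phi_nonneg {c s : ℝ} (hs : 0 < s) (hc : 0 ≤ c) (Y0 : V) (t : ℝ) (x z : V) :
    0 ≤ Phi c s Y0 t x z := by
  unfold Phi; positivity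


/-- the functional `V_s(t) = sup_{x,z} [U(x,t) - w(z,t-s) - Φ_t(x,z)]` -/
noncomputable def Vf (c s : ℝ) (Y0 : V) (U w : V → ℝ → ℝ) (t : ℝ) : ℝ :=
  ⨆ p : V × V, (U p.1 t - w p.2 (t - s) - Phi c s Y0 t p.1 p.2)

/-- growth gives an upper bound of the functional -/
theorem F_le {c s R M e C1 C2 : ℝ} (hs : 0 < s) (hc : 0 < c) (Y0 : V) {t : ℝ} (ht : |t| ≤ R)
    (hM : M = 18 / (s * c) + (9 * (R / s) ^ 2 + 2) * (2 * s)) (he : 0 ≤ e) (heM : 2 * e * M ≤ 1)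
    {f g : V → ℝ} (hf : ∀ y, f y ≤ e * ‖y‖ ^ 2 + C1) (hg : ∀ y, -(e * ‖y‖ ^ 2 + C2) ≤ g y)
    (x z : V) :
    f x - g z - Phi c s Y0 t x z
      ≤ C1 + C2 + (9 * e + 9 / (2 * M)) * ‖Y0‖ ^ 2 - (‖x‖ ^ 2 + ‖z‖ ^ 2) / (2 * M) := by
  have hMp : 0 < M := by rw [hM]; positivity
  have h1 := coer hs hc Y0 ht x z
  rw [← hM] at h1
  have h2 := hf x
  have h3 := hg z
  have hP := Phi_nonneg hs hc.le Y0 t x z
  have h4 : e * (‖x‖ ^ 2 + ‖z‖ ^ 2) ≤ e * (M * Phi c s Y0 t x z + 9 * ‖Y0‖ ^ 2) :=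
    mul_le_mul_of_nonneg_left h1 he
  have h5 : e * M * Phi c s Y0 t x z ≤ 1 / 2 * Phi c s Y0 t x z :=
    mul_le_mul_of_nonneg_right (by linarith) hP
  have h6 : (‖x‖ ^ 2 + ‖z‖ ^ 2) / (2 * M) ≤ Phi c s Y0 t x z / 2 + 9 / (2 * M) * ‖Y0‖ ^ 2 := by
    rw [div_le_iff₀ (by positivity)]
    have : (Phi c s Y0 t x z / 2 + 9 / (2 * M) * ‖Y0‖ ^ 2) * (2 * M)
        = M * Phi c s Y0 t x z + 9 * ‖Y0‖ ^ 2 := by field_simp
    rw [this]; exact h1
  nlinarith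

theorem bdd_F {c s R M e C1 C2 : ℝ} (hs : 0 < s) (hc : 0 < c) (Y0 : V) {t : ℝ} (ht : |t| ≤ R)
    (hM : M = 18 / (s * c) + (9 * (R / s) ^ 2 + 2) * (2 * s)) (he : 0 ≤ e) (heM : 2 * e * M ≤ 1)
    {f g : V → ℝ} (hf : ∀ y, f y ≤ e * ‖y‖ ^ 2 + C1) (hg : ∀ y, -(e * ‖y‖ ^ 2 + C2) ≤ g y) :
    BddAbove (Set.range fun p : V × V => f p.1 - g p.2 - Phi c s Y0 t p.1 p.2) := by
  have hMp : 0 < M := by rw [hM]; positivity
  refine ⟨C1 + C2 + (9 * e + 9 / (2 * M)) * ‖Y0‖ ^ 2, ?_⟩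
  rintro _ ⟨p, rfl⟩
  have := F_le hs hc Y0 ht hM he heM hf hg p.1 p.2
  have h2 : 0 ≤ (‖p.1‖ ^ 2 + ‖p.2‖ ^ 2) / (2 * M) := by positivity
  simp only
  linarith


/-- one forward step with slack -/
theorem fwd_step {U : V → ℝ → ℝ} {t δ e C ε : ℝ} (hδ : 0 < δ) (he : 0 ≤ e) (hδe : 8 * δ * e ≤ 1)
    (hf1 : ∀ y, U y (t + 2 * δ) ≤ e * ‖y‖ ^ 2 + C)
    (hs : ∀ x, T δ U x t ≤ (1 - δ / (2 * δ)) * U x t + δ / (2 * δ) * T (2 * δ) U x t)
    (hε : 0 < ε) (x : V) :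
    ∃ y, 2 * T δ U x t ≤ T δ U y (t + δ) - ‖x - y‖ ^ 2 / (2 * δ) + U x t + ε := by
  have h1 := hs x
  have e1 : δ / (2 * δ) = 1 / 2 := by field_simp
  rw [e1] at h1
  obtain ⟨y', hy'⟩ : ∃ y', T (2 * δ) U x t - ε < U y' (t + 2 * δ) - ‖x - y'‖ ^ 2 / (2 * (2 * δ)) :=
    exists_lt_of_lt_ciSup (show T (2 * δ) U x t - ε < T (2 * δ) U x t by linarith)
  set y : V := x - (1 / 2 : ℝ) • (x - y') with hy
  have n1 : ‖x - y‖ ^ 2 = ‖x - y'‖ ^ 2 / 4 := by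
    have : x - y = (1 / 2 : ℝ) • (x - y') := by rw [hy]; abel
    rw [this, norm_smul, mul_pow]; norm_num; ring
  have n2 : ‖y - y'‖ ^ 2 = ‖x - y'‖ ^ 2 / 4 := by
    have : y - y' = (1 / 2 : ℝ) • (x - y') := by rw [hy]; module
    rw [this, norm_smul, mul_pow]; norm_num; ring
  have h2 : U y' (t + δ + δ) - ‖y - y'‖ ^ 2 / (2 * δ) ≤ T δ U y (t + δ) := by
    refine le_T_of (e := e) (C := C) hδ he (by nlinarith) ?_ y y'
    intro z
    have : t + δ + δ = t + 2 * δ := by ring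
    rw [this]; exact hf1 z
  refine ⟨y, ?_⟩
  have e2 : t + δ + δ = t + 2 * δ := by ring
  rw [e2, n2] at h2
  rw [n1]
  have e3 : ‖x - y'‖ ^ 2 / (2 * (2 * δ))
      = ‖x - y'‖ ^ 2 / 4 / (2 * δ) + ‖x - y'‖ ^ 2 / 4 / (2 * δ) := by
    field_simp; ring
  rw [e3] at hy'
  linarith

/-- one backward step with slack -/
theorem bwd_step {w : V → ℝ → ℝ} {t δ e C ε : ℝ} (hδ : 0 < δ) (he : 0 ≤ e) (hδe : 8 * δ * e ≤ 1)
    (hf1 : ∀ y, -(e * ‖y‖ ^ 2 + C) ≤ w y (t - 2 * δ))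
    (hs : ∀ x, (1 - δ / (2 * δ)) * w x t + δ / (2 * δ) * B (2 * δ) w x t ≤ B δ w x t)
    (hε : 0 < ε) (x : V) :
    ∃ y, B δ w y (t - δ) + ‖x - y‖ ^ 2 / (2 * δ) + w x t ≤ 2 * B δ w x t + ε := by
  have h1 := hs x
  have e1 : δ / (2 * δ) = 1 / 2 := by field_simp
  rw [e1] at h1
  obtain ⟨y', hy'⟩ : ∃ y', w y' (t - 2 * δ) + ‖x - y'‖ ^ 2 / (2 * (2 * δ)) < B (2 * δ) w x t + ε :=
    exists_lt_of_ciInf_lt (show B (2 * δ) w x t < B (2 * δ) w x t + ε by linarith)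
  set y : V := x - (1 / 2 : ℝ) • (x - y') with hy
  have n1 : ‖x - y‖ ^ 2 = ‖x - y'‖ ^ 2 / 4 := by
    have : x - y = (1 / 2 : ℝ) • (x - y') := by rw [hy]; abel
    rw [this, norm_smul, mul_pow]; norm_num; ring
  have n2 : ‖y - y'‖ ^ 2 = ‖x - y'‖ ^ 2 / 4 := by
    have : y - y' = (1 / 2 : ℝ) • (x - y') := by rw [hy]; module
    rw [this, norm_smul, mul_pow]; norm_num; ring
  have h2 : B δ w y (t - δ) ≤ w y' (t - δ - δ) + ‖y - y'‖ ^ 2 / (2 * δ) := by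
    refine B_le_of (e := e) (C := C) hδ he (by nlinarith) ?_ y y'
    intro z
    have : t - δ - δ = t - 2 * δ := by ring
    rw [this]; exact hf1 z
  refine ⟨y, ?_⟩
  have e2 : t - δ - δ = t - 2 * δ := by ring
  rw [e2, n2] at h2
  rw [n1]
  have e3 : ‖x - y'‖ ^ 2 / (2 * (2 * δ))
      = ‖x - y'‖ ^ 2 / 4 / (2 * δ) + ‖x - y'‖ ^ 2 / 4 / (2 * δ) := by
    field_simp; ring
  rw [e3] at hy'
  linarith

/-- SUP-LEVEL STEP of PROP C. -/
theorem step_sup {c s t δ e C R M : ℝ} (hs : 0 < s) (hδ : 0 < δ) (hδ1 : δ ≤ 1) (hc : 0 < c)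
    (hcA : c * (2 * t - s) ^ 2 ≤ 1) (Y0 : V) {U w : V → ℝ → ℝ}
    (htδ : 0 < t - δ) (hR : t + s + 2 ≤ R)
    (hM : M = 18 / (s * c) + (9 * (R / s) ^ 2 + 2) * (2 * s)) (he : 0 ≤ e) (he8 : 8 * e ≤ 1)
    (heM : 4 * e * M ≤ 1)
    (hUg : ∀ y t, 0 < t → t ≤ R → U y t ≤ e * ‖y‖ ^ 2 + C)
    (hwg : ∀ y t, |t| ≤ R → -(e * ‖y‖ ^ 2 + C) ≤ w y t)
    (hUs : ∀ x t s s', 0 < t → 0 < s → s ≤ s' →
      T s U x t ≤ (1 - s / s') * U x t + s / s' * T s' U x t)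
    (hws : IsSup w) :
    2 * Vf c s Y0 (T δ U) (B δ w) t
      ≤ Vf c s Y0 (T δ U) (B δ w) (t + δ) + Vf c s Y0 (T δ U) (B δ w) (t - δ) := by
  have hδe : 8 * δ * e ≤ 1 := by nlinarith
  have h4 : 4 * δ * e ≤ 1 := by nlinarith
  have ht : 0 < t := by linarith
  -- growth of T δ U, B δ w
  have hTg : ∀ t', 0 < t' → t' ≤ t + δ → ∀ y, T δ U y t' ≤ (2 * e) * ‖y‖ ^ 2 + C := by
    intro t' h0 h1 y
    exact T_le_of hδ he h4 (fun y => hUg y _ (by linarith) (by linarith)) y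
  have hBg : ∀ t', |t' - δ| ≤ R → ∀ y, -((2 * e) * ‖y‖ ^ 2 + C) ≤ B δ w y t' := by
    intro t' h1 y
    exact B_ge_of hδ he h4 (fun y => hwg y _ h1) y
  have hbd : ∀ t', 0 < t' → t' ≤ t + δ → BddAbove (Set.range fun p : V × V =>
      T δ U p.1 t' - B δ w p.2 (t' - s) - Phi c s Y0 t' p.1 p.2) := by
    intro t' h0 h1
    refine bdd_F (R := R) (M := M) (e := 2 * e) hs hc Y0 (t := t') ?_ hM (by linarith)
      (by linarith) (hTg t' h0 h1) (hBg (t' - s) ?_)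
    · rw [abs_of_pos h0]; linarith
    · rw [abs_le]; constructor <;> linarith
  have hle : ∀ t', 0 < t' → t' ≤ t + δ → ∀ x z : V,
      T δ U x t' - B δ w z (t' - s) - Phi c s Y0 t' x z ≤ Vf c s Y0 (T δ U) (B δ w) t' := by
    intro t' h0 h1 x z
    exact le_ciSup (f := fun p : V × V =>
      T δ U p.1 t' - B δ w p.2 (t' - s) - Phi c s Y0 t' p.1 p.2) (hbd t' h0 h1) (x, z)
  suffices h : Vf c s Y0 (T δ U) (B δ w) t ≤
      (Vf c s Y0 (T δ U) (B δ w) (t + δ) + Vf c s Y0 (T δ U) (B δ w) (t - δ)) / 2 by linarith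
  refine ciSup_le ?_
  rintro ⟨x, z⟩
  simp only
  refine le_of_forall_pos_le_add fun ε hε => ?_
  obtain ⟨y, z', x'', z'', h⟩ := step_pt (ε := ε) hs hδ hc.le hcA Y0 U (T δ U) w (B δ w)
    (fwd_step hδ he hδe (fun y => hUg y _ (by linarith) (by linarith))
      (fun x => hUs x t δ (2 * δ) ht hδ (by linarith)) hε)
    (by
      intro x x''
      have h1 := le_T_of (U := U) (t := t - δ) (C := C) hδ he h4
        (fun y => hUg y _ (by linarith) (by linarith)) x'' x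
      rw [sub_add_cancel, norm_sub_rev] at h1
      linarith)
    (by
      intro z
      obtain ⟨y, hy⟩ := bwd_step (w := w) (t := t - s) (C := C) hδ he hδe
        (fun y => hwg y _ (by rw [abs_le]; constructor <;> linarith))
        (fun x => hws x (t - s) δ (2 * δ) hδ (by linarith)) hε z
      refine ⟨y, ?_⟩
      have e : t - δ - s = t - s - δ := by ring
      rw [e]; exact hy)
    (by
      intro z z'
      have h1 := B_le_of (w := w) (t := t + δ - s) (C := C) hδ he h4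
        (fun y => hwg y _ (by rw [abs_le]; constructor <;> linarith)) z' z
      have e : t + δ - s - δ = t - s := by ring
      rw [e, norm_sub_rev] at h1
      linarith) x z
  have h1 := hle (t + δ) (by linarith) le_rfl y z'
  have h2 := hle (t - δ) (by linarith) (by linarith) x'' z''
  linarith


/-- the regularised functional is below the functional up to `O(δ)` -/
theorem upper_reg {c s t δ e C R M : ℝ} (hs : 0 < s) (hδ : 0 < δ) (hδ1 : δ ≤ 1) (hc : 0 < c)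
    (Y0 : V) {U w : V → ℝ → ℝ} (ht : 0 < t) (hR : t + s + 2 ≤ R)
    (hM : M = 18 / (s * c) + (9 * (R / s) ^ 2 + 2) * (2 * s)) (he : 0 ≤ e) (he8 : 8 * e ≤ 1)
    (heM : 4 * e * M ≤ 1) (hδM : 2 * M * δ ≤ 1)
    (hUg : ∀ y t, 0 < t → t ≤ R → |U y t| ≤ e * ‖y‖ ^ 2 + C)
    (hwg : ∀ y t, |t| ≤ R → |w y t| ≤ e * ‖y‖ ^ 2 + C)
    (hUs : ∀ x t s s', 0 < t → 0 < s → s ≤ s' →
      T s U x t ≤ (1 - s / s') * U x t + s / s' * T s' U x t)
    (hws : IsSup w) :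
    Vf c s Y0 (T δ U) (B δ w) t ≤ Vf c s Y0 U w t
      + δ * (2 * M * (C + C + (9 * e + 9 / (2 * M)) * ‖Y0‖ ^ 2 - Vf c s Y0 U w t) + 4 * C) := by
  have hMp : 0 < M := by rw [hM]; positivity
  have hbd : BddAbove (Set.range fun p : V × V =>
      U p.1 t - w p.2 (t - s) - Phi c s Y0 t p.1 p.2) := by
    refine bdd_F (R := R) (M := M) (e := e) (C1 := C) (C2 := C) (f := fun x => U x t)
      (g := fun z => w z (t - s)) hs hc Y0 (t := t) ?_ hM he (by nlinarith)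
      (fun y => (abs_le.mp (hUg y t ht (by linarith))).2)
      (fun y => (abs_le.mp (hwg y (t - s) (by rw [abs_le]; constructor <;> linarith))).1)
    rw [abs_of_pos ht]; linarith
  refine ciSup_le ?_
  rintro ⟨x, z⟩
  simp only
  set Vv := Vf c s Y0 U w t with hVv
  set F := U x t - w z (t - s) - Phi c s Y0 t x z with hF
  have h1 : F ≤ Vv := le_ciSup hbd (x, z)
  have h2 : F ≤ C + C + (9 * e + 9 / (2 * M)) * ‖Y0‖ ^ 2 - (‖x‖ ^ 2 + ‖z‖ ^ 2) / (2 * M) := by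
    refine F_le (R := R) (M := M) (e := e) (C1 := C) (C2 := C) (f := fun x => U x t)
      (g := fun z => w z (t - s)) hs hc Y0 (t := t) ?_ hM he (by nlinarith)
      (fun y => (abs_le.mp (hUg y t ht (by linarith))).2)
      (fun y => (abs_le.mp (hwg y (t - s) (by rw [abs_le]; constructor <;> linarith))).1) x z
    rw [abs_of_pos ht]; linarith
  -- the regularised values
  have h3 : T δ U x t ≤ U x t + δ * (‖x‖ ^ 2 + 2 * C) := by
    have a1 := hUs x t δ 1 ht hδ hδ1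
    rw [div_one] at a1
    have a2 : T 1 U x t ≤ 2 * e * ‖x‖ ^ 2 + C :=
      T_le_of one_pos he (by linarith)
        (fun y => (abs_le.mp (hUg y _ (by linarith) (by linarith))).2) x
    have a3 := (abs_le.mp (hUg x t ht (by linarith))).1
    have a4 : T 1 U x t - U x t ≤ ‖x‖ ^ 2 + 2 * C := by nlinarith [sq_nonneg ‖x‖]
    have a5 := mul_le_mul_of_nonneg_left a4 hδ.le
    linarith
  have h4 : w z (t - s) - δ * (‖z‖ ^ 2 + 2 * C) ≤ B δ w z (t - s) := by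
    have a1 := hws z (t - s) δ 1 hδ hδ1
    rw [div_one] at a1
    have a2 : -(2 * e * ‖z‖ ^ 2 + C) ≤ B 1 w z (t - s) :=
      B_ge_of one_pos he (by linarith)
        (fun y => (abs_le.mp (hwg y _ (by rw [abs_le]; constructor <;> linarith))).1) z
    have a3 := (abs_le.mp (hwg z (t - s) (by rw [abs_le]; constructor <;> linarith))).2
    have a4 : w z (t - s) - B 1 w z (t - s) ≤ ‖z‖ ^ 2 + 2 * C := by nlinarith [sq_nonneg ‖z‖]
    have a5 := mul_le_mul_of_nonneg_left a4 hδ.le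
    linarith
  set r := ‖x‖ ^ 2 + ‖z‖ ^ 2 with hr
  set C2 := C + C + (9 * e + 9 / (2 * M)) * ‖Y0‖ ^ 2 with hC2
  have h5 : F + δ * r ≤ Vv + 2 * M * δ * (C2 - Vv) := by
    have a1 : (1 - 2 * M * δ) * F ≤ (1 - 2 * M * δ) * Vv :=
      mul_le_mul_of_nonneg_left h1 (by linarith)
    have a2 : 2 * M * δ * F ≤ 2 * M * δ * (C2 - r / (2 * M)) :=
      mul_le_mul_of_nonneg_left h2 (by positivity)
    have a3 : 2 * M * δ * (C2 - r / (2 * M)) = 2 * M * δ * C2 - δ * r := by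
      field_simp
    linarith
  have h6 : T δ U x t - B δ w z (t - s) - Phi c s Y0 t x z ≤ F + δ * r + δ * (4 * C) := by
    rw [hF, hr]; linarith
  linarith

/-- the regularised functional is above the shifted values -/
theorem lower_reg {c s t δ e C R M : ℝ} (hs : 0 < s) (hδ : 0 < δ) (hδ1 : δ ≤ 1) (hc : 0 < c)
    (Y0 : V) {U w : V → ℝ → ℝ} (ht : 0 < t) (hR : t + s + 2 ≤ R)
    (hM : M = 18 / (s * c) + (9 * (R / s) ^ 2 + 2) * (2 * s)) (he : 0 ≤ e) (he8 : 8 * e ≤ 1)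
    (heM : 4 * e * M ≤ 1)
    (hUg : ∀ y t, 0 < t → t ≤ R → U y t ≤ e * ‖y‖ ^ 2 + C)
    (hwg : ∀ y t, |t| ≤ R → -(e * ‖y‖ ^ 2 + C) ≤ w y t) (x z : V) :
    U x (t + δ) - w z (t - s - δ) - Phi c s Y0 t x z ≤ Vf c s Y0 (T δ U) (B δ w) t := by
  have h4 : 4 * δ * e ≤ 1 := by nlinarith
  have b1 : U x (t + δ) ≤ T δ U x t :=
    le_T_self hδ he h4 (fun y => hUg y _ (by linarith) (by linarith)) x
  have b2 : B δ w z (t - s) ≤ w z (t - s - δ) :=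
    B_le_self hδ he h4 (fun y => hwg y _ (by rw [abs_le]; constructor <;> linarith)) z
  have b3 : T δ U x t - B δ w z (t - s) - Phi c s Y0 t x z
      ≤ Vf c s Y0 (T δ U) (B δ w) t := by
    refine le_ciSup (f := fun p : V × V =>
      T δ U p.1 t - B δ w p.2 (t - s) - Phi c s Y0 t p.1 p.2) ?_ (x, z)
    refine bdd_F (R := R) (M := M) (e := 2 * e) (C1 := C) (C2 := C) hs hc Y0 (t := t) ?_ hM
      (by linarith) (by linarith) (f := fun y => T δ U y t) (g := fun y => B δ w y (t - s)) ?_ ?_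
    · rw [abs_of_pos ht]; linarith
    · intro y
      exact T_le_of hδ he h4 (fun y => hUg y _ (by linarith) (by linarith)) y
    · intro y
      exact B_ge_of hδ he h4 (fun y => hwg y _ (by rw [abs_le]; constructor <;> linarith)) y
  linarith

open Filter Topology in
/-- PROP C: midpoint convexity of `V_s` on the window `c(2t-s)² ≤ 1`. -/
theorem midconv {c s : ℝ} (hs : 0 < s) (hc : 0 < c) (Y0 : V) {U w : V → ℝ → ℝ}
    (hUg : ∀ R e : ℝ, 0 < e → ∃ C : ℝ, ∀ y t, 0 < t → t ≤ R → |U y t| ≤ e * ‖y‖ ^ 2 + C)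
    (hUs : ∀ x t s s', 0 < t → 0 < s → s ≤ s' →
      T s U x t ≤ (1 - s / s') * U x t + s / s' * T s' U x t)
    (hUc : ∀ x t, 0 < t → Tendsto (fun δ => U x (t + δ)) (𝓝[>] 0) (𝓝 (U x t)))
    (hwg : Grow w) (hws : IsSup w)
    (hwc : ∀ z t, Tendsto (fun δ => w z (t - δ)) (𝓝[>] 0) (𝓝 (w z t)))
    {t1 t2 : ℝ} (h1 : 0 < t1) (h12 : t1 ≤ t2) (hA : ∀ t ∈ Set.Icc t1 t2, c * (2 * t - s) ^ 2 ≤ 1) :
    Vf c s Y0 U w ((t1 + t2) / 2) ≤ (Vf c s Y0 U w t1 + Vf c s Y0 U w t2) / 2 := by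
  rcases h12.eq_or_lt with rfl | h12
  · have : (t1 + t1) / 2 = t1 := by ring
    rw [this]; linarith
  set R := t2 + s + 2 with hR
  set M := 18 / (s * c) + (9 * (R / s) ^ 2 + 2) * (2 * s) with hM
  have hRp : 0 < R := by linarith
  have hMp : 0 < M := by positivity
  set e : ℝ := min (1 / 8) (1 / (4 * M)) with he
  have hep : 0 < e := by positivity
  have he8 : 8 * e ≤ 1 := by have := min_le_left (1 / 8 : ℝ) (1 / (4 * M)); linarith
  have heM : 4 * e * M ≤ 1 := by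
    have := min_le_right (1 / 8 : ℝ) (1 / (4 * M))
    have h2 : e * (4 * M) ≤ 1 / (4 * M) * (4 * M) := by gcongr
    rw [div_mul_cancel₀ _ (by positivity)] at h2
    linarith
  obtain ⟨CU, hCU⟩ := hUg R e hep
  obtain ⟨Cw, hCw⟩ := hwg R e hep
  set C := max CU Cw with hC
  have hU : ∀ y t, 0 < t → t ≤ R → |U y t| ≤ e * ‖y‖ ^ 2 + C := fun y t h0 h1 =>
    (hCU y t h0 h1).trans (by gcongr; exact le_max_left _ _)
  have hw : ∀ y t, |t| ≤ R → |w y t| ≤ e * ‖y‖ ^ 2 + C := fun y t h0 =>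
    (hCw y t h0).trans (by gcongr; exact le_max_right _ _)
  set K1 := 2 * M * (C + C + (9 * e + 9 / (2 * M)) * ‖Y0‖ ^ 2 - Vf c s Y0 U w t1) + 4 * C with hK1
  set K2 := 2 * M * (C + C + (9 * e + 9 / (2 * M)) * ‖Y0‖ ^ 2 - Vf c s Y0 U w t2) + 4 * C with hK2
  set tm := (t1 + t2) / 2 with htm
  -- the discrete inequality
  have key : ∀ N : ℕ, 0 < N → (t2 - t1) / (2 * N) ≤ 1 → 2 * M * ((t2 - t1) / (2 * N)) ≤ 1 →
      Vf c s Y0 (T ((t2 - t1) / (2 * N)) U) (B ((t2 - t1) / (2 * N)) w) tm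
        ≤ (Vf c s Y0 U w t1 + Vf c s Y0 U w t2) / 2 + (t2 - t1) / (2 * N) * ((K1 + K2) / 2) := by
    intro N hN hδ1 hδM
    set δ := (t2 - t1) / (2 * N) with hδ
    have hNp : (0 : ℝ) < N := by exact_mod_cast hN
    have hδp : 0 < δ := div_pos (by linarith) (by positivity)
    have hNδ : 2 * N * δ = t2 - t1 := by rw [hδ]; field_simp
    set a : ℕ → ℝ := fun j => Vf c s Y0 (T δ U) (B δ w) (t1 + j * δ) with ha
    have hstep : ∀ j, j + 1 < 2 * N → 2 * a (j + 1) ≤ a (j + 2) + a j := by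
      intro j hj
      have hj' : ((j : ℝ) + 1) + 1 ≤ 2 * N := by exact_mod_cast hj
      have hj0 : (0 : ℝ) ≤ j := Nat.cast_nonneg j
      have h3 : ((j : ℝ) + 1) * δ + δ ≤ t2 - t1 := by
        rw [← hNδ]; nlinarith
      have hjδ : 0 ≤ (j : ℝ) * δ := by positivity
      have := step_sup (t := t1 + ((j : ℝ) + 1) * δ) (R := R) (M := M) (e := e) (C := C)
        hs hδp hδ1 hc (hA _ ⟨by nlinarith, by linarith⟩) Y0 (U := U) (w := w)
        (by nlinarith) (by linarith) hM hep.le he8 heM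
        (fun y t h0 h1 => (abs_le.mp (hU y t h0 h1)).2)
        (fun y t h0 => (abs_le.mp (hw y t h0)).1) hUs hws
      have e1 : t1 + ((j : ℝ) + 1) * δ + δ = t1 + ((j + 2 : ℕ) : ℝ) * δ := by push_cast; ring
      have e2 : t1 + ((j : ℝ) + 1) * δ - δ = t1 + (j : ℝ) * δ := by ring
      have e3 : t1 + ((j : ℝ) + 1) * δ = t1 + ((j + 1 : ℕ) : ℝ) * δ := by push_cast; ring
      rw [e1, e2, e3] at this
      exact this
    have h4 := disc_conv a N hstep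
    have e0 : a 0 = Vf c s Y0 (T δ U) (B δ w) t1 := by simp [ha]
    have eN : a N = Vf c s Y0 (T δ U) (B δ w) tm := by
      have : t1 + N * δ = tm := by rw [htm]; linarith
      simp only [ha]; rw [this]
    have e2N : a (2 * N) = Vf c s Y0 (T δ U) (B δ w) t2 := by
      have : t1 + ((2 * N : ℕ) : ℝ) * δ = t2 := by push_cast; linarith
      simp only [ha]; rw [this]
    rw [e0, eN, e2N] at h4
    have u1 := upper_reg (t := t1) (R := R) (M := M) (e := e) (C := C) hs hδp hδ1 hc Y0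
      (U := U) (w := w) h1 (by linarith) hM hep.le he8 heM hδM hU hw hUs hws
    have u2 := upper_reg (t := t2) (R := R) (M := M) (e := e) (C := C) hs hδp hδ1 hc Y0
      (U := U) (w := w) (by linarith) (by linarith) hM hep.le he8 heM hδM hU hw hUs hws
    rw [← hK1] at u1
    rw [← hK2] at u2
    linarith
  -- passage to the limit
  refine ciSup_le ?_
  rintro ⟨x, z⟩
  simp only
  have htm0 : 0 < tm := by rw [htm]; linarith
  have hlim : Tendsto (fun N : ℕ => (t2 - t1) / (2 * (N : ℝ))) atTop (𝓝[>] 0) := by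
    rw [tendsto_nhdsWithin_iff]
    constructor
    · have : Tendsto (fun N : ℕ => ((t2 - t1) / 2) * ((N : ℝ))⁻¹) atTop (𝓝 (((t2 - t1) / 2) * 0)) :=
        tendsto_inv_atTop_nhds_zero_nat.const_mul _
      rw [mul_zero] at this
      refine this.congr fun N => ?_
      rw [mul_comm 2, ← div_div, div_right_comm]; ring
    · filter_upwards [eventually_gt_atTop 0] with N hN
      have hNp : (0 : ℝ) < N := by exact_mod_cast hN
      have h0 : (0 : ℝ) < t2 - t1 := by linarith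
      exact Set.mem_Ioi.mpr (div_pos h0 (mul_pos two_pos hNp))
  have hlim0 : Tendsto (fun N : ℕ => (t2 - t1) / (2 * (N : ℝ))) atTop (𝓝 0) :=
    hlim.mono_right nhdsWithin_le_nhds
  have L1 : Tendsto (fun N : ℕ => U x (tm + (t2 - t1) / (2 * (N : ℝ)))
      - w z (tm - s - (t2 - t1) / (2 * (N : ℝ))) - Phi c s Y0 tm x z) atTop
      (𝓝 (U x tm - w z (tm - s) - Phi c s Y0 tm x z)) :=
    (((hUc x tm htm0).comp hlim).sub ((hwc z (tm - s)).comp hlim)).sub tendsto_const_nhds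
  have L2 : Tendsto (fun N : ℕ => (Vf c s Y0 U w t1 + Vf c s Y0 U w t2) / 2
      + (t2 - t1) / (2 * (N : ℝ)) * ((K1 + K2) / 2)) atTop
      (𝓝 ((Vf c s Y0 U w t1 + Vf c s Y0 U w t2) / 2 + 0 * ((K1 + K2) / 2))) :=
    tendsto_const_nhds.add (hlim0.mul_const _)
  rw [zero_mul, add_zero] at L2
  refine le_of_tendsto_of_tendsto L1 L2 ?_
  have ev1 : ∀ᶠ N : ℕ in atTop, (t2 - t1) / (2 * (N : ℝ)) ≤ 1 :=
    hlim0.eventually (Iic_mem_nhds one_pos)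
  have ev2 : ∀ᶠ N : ℕ in atTop, (t2 - t1) / (2 * (N : ℝ)) ≤ 1 / (2 * M) :=
    hlim0.eventually (Iic_mem_nhds (by positivity))
  filter_upwards [ev1, ev2, eventually_gt_atTop 0] with N hN1 hN2 hN0
  have hNp : (0 : ℝ) < N := by exact_mod_cast hN0
  have hδp : 0 < (t2 - t1) / (2 * (N : ℝ)) := div_pos (by linarith) (by positivity)
  have hδM : 2 * M * ((t2 - t1) / (2 * (N : ℝ))) ≤ 1 := by
    have := mul_le_mul_of_nonneg_left hN2 (show 0 ≤ 2 * M by positivity)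
    rwa [mul_one_div_cancel (by positivity)] at this
  refine le_trans ?_ (key N hN0 hN1 hδM)
  set δ := (t2 - t1) / (2 * (N : ℝ)) with hδ
  have b := lower_reg (t := tm) (R := R) (M := M) (e := e) (C := C) hs hδp hN1 hc Y0
    (U := U) (w := w) htm0 (by rw [hR, htm]; linarith) hM hep.le he8 heM
    (fun y t h0 h1 => (abs_le.mp (hU y t h0 h1)).2)
    (fun y t h0 => (abs_le.mp (hw y t h0)).1) x z
  exact b

end Crest.Agent.R094.PropC
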