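import Mathlib

set_option autoImplicit false

/-!
Row 94 (S0124).  Proposition C of the blueprint (note 7921): exact midpoint convexity in `t` of
`V_s(t) = sup_{x,z} [U(x,t) - w(z,t-s) - |x-z|²/2s - (s c/2)|Y - Y₀|²]`,
`Y = x - (t/s)(x - z)` the vertex position at time `0`.
-/

namespace Crest.Agent.R094.PropCAlg

open scoped InnerProductSpace

variable {V : Type*} [NormedAddCommGroup V] [InnerProductSpace ℝ V]

/-- vertex position at time `0` of the line through `(x,t)` and `(z,t-s)`. -/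
noncomputable def vert (s t : ℝ) (x z : V) : V := x - (t / s) • (x - z)

/-- the penalty `Φ_t(x,z)`. -/
noncomputable def Phi (s c : ℝ) (Y0 : V) (t : ℝ) (x z : V) : ℝ :=
  ‖x - z‖ ^ 2 / (2 * s) + (s * c / 2) * ‖vert s t x z - Y0‖ ^ 2

theorem normsq3 (D Y n : V) (α β γ : ℝ) :
    ‖α • D + β • Y + γ • n‖ ^ 2 = α ^ 2 * ‖D‖ ^ 2 + β ^ 2 * ‖Y‖ ^ 2 + γ ^ 2 * ‖n‖ ^ 2
      + 2 * α * β * ⟪D, Y⟫_ℝ + 2 * α * γ * ⟪D, n⟫_ℝ + 2 * β * γ * ⟪Y, n⟫_ℝ := by
  rw [norm_add_sq_real, norm_add_sq_real]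
  simp only [inner_add_left, inner_smul_left, inner_smul_right, norm_smul, RCLike.conj_to_real,
    Real.norm_eq_abs, mul_pow, sq_abs]
  ring

theorem brace_aux {s δ c k P : ℝ} (hs : 0 < s) (hδ : 0 < δ) (hc : 0 ≤ c)
    (hP : 0 < P) (hPk : P = 1 + 2 * s * c * k - c * δ * (s + δ)) (n D Y : V) :
    ∃ h : V, ‖s • n + δ • h‖ ^ 2 / (2 * s) + (s * c / 2) * ‖Y + D - k • h‖ ^ 2
      + ‖δ • h - D - δ • n‖ ^ 2 / (2 * δ) - ‖D + δ • n‖ ^ 2 / (2 * δ)
      ≤ s * ‖n‖ ^ 2 / 2 + (s * c / 2) * ‖Y‖ ^ 2 / P := by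
  set M : ℝ := δ * (s + δ) / s + s * c * k ^ 2 with hMdef
  have hM : 0 < M := by positivity
  have hkey : (1 + s * c * k) ^ 2 - s * c * M = P := by
    rw [hMdef, hPk]; field_simp; ring
  set a : ℝ := (1 + s * c * k) / M with ha
  set b : ℝ := s * c * k / M with hb
  refine ⟨a • D + b • Y, ?_⟩
  have e1 : s • n + δ • (a • D + b • Y) = (δ * a) • D + (δ * b) • Y + s • n := by module
  have e2 : Y + D - k • (a • D + b • Y) = (1 - k * a) • D + (1 - k * b) • Y + (0 : ℝ) • n := by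
    module
  have e3 : δ • (a • D + b • Y) - D - δ • n = (δ * a - 1) • D + (δ * b) • Y + (-δ) • n := by module
  have e4 : D + δ • n = (1 : ℝ) • D + (0 : ℝ) • Y + δ • n := by module
  rw [e1, e2, e3, e4, normsq3, normsq3, normsq3, normsq3]
  -- target minus brace
  set g : ℝ := (s * c) * (k - δ * (s + δ) / s) / P with hg
  have e5 := normsq3 D Y n 1 g 0
  have hnn : 0 ≤ ‖(1 : ℝ) • D + g • Y + (0 : ℝ) • n‖ ^ 2 := by positivity
  rw [e5] at hnn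
  have hmul : 0 ≤ (P / (2 * M)) * (1 ^ 2 * ‖D‖ ^ 2 + g ^ 2 * ‖Y‖ ^ 2 + 0 ^ 2 * ‖n‖ ^ 2
      + 2 * 1 * g * ⟪D, Y⟫_ℝ + 2 * 1 * 0 * ⟪D, n⟫_ℝ + 2 * g * 0 * ⟪Y, n⟫_ℝ) := by positivity
  refine le_of_sub_nonneg (le_of_le_of_eq hmul ?_)
  generalize ‖D‖ ^ 2 = dd
  generalize ‖Y‖ ^ 2 = yy
  generalize ‖n‖ ^ 2 = nn
  generalize ⟪D, Y⟫_ℝ = dy
  generalize ⟪D, n⟫_ℝ = dn
  generalize ⟪Y, n⟫_ℝ = yn
  clear hmul hnn e5 e1 e2 e3 e4
  have hMne : M ≠ 0 := hM.ne'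
  have hPne : P ≠ 0 := hP.ne'
  have haM : a * M = 1 + s * c * k := by rw [ha]; field_simp
  have hbM : b * M = s * c * k := by rw [hb]; field_simp
  have hgP : g * P = (s * c) * (k - δ * (s + δ) / s) := by rw [hg]; field_simp
  have hM1 : δ ^ 2 / s + δ + s * c * k ^ 2 = M := by rw [hMdef]; field_simp; ring
  have e7 : δ * (s + δ) / s = M - s * c * k ^ 2 := by rw [← hM1]; field_simp; ring
  rw [e7] at hgP
  clear_value M a b g
  clear hMdef ha hb hg hPk e7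
  have c1 : P / (2 * M) = -((δ * a) ^ 2 / (2 * s) + (s * c / 2) * (1 - k * a) ^ 2
      + ((δ * a - 1) ^ 2 - 1) / (2 * δ)) := by
    have : (δ * a) ^ 2 / (2 * s) + (s * c / 2) * (1 - k * a) ^ 2
      + ((δ * a - 1) ^ 2 - 1) / (2 * δ) = a ^ 2 / 2 * (δ ^ 2 / s + δ + s * c * k ^ 2)
        - a * (1 + s * c * k) + s * c / 2 := by field_simp; ring
    rw [this, hM1, div_eq_iff (by positivity)]
    linear_combination (a * M - (1 + s * c * k)) * haM - hkey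
  have c2 : P / (2 * M) * (2 * g) = -((2 * (δ * a) * (δ * b)) / (2 * s)
      + (s * c / 2) * (2 * (1 - k * a) * (1 - k * b)) + (2 * (δ * a - 1) * (δ * b)) / (2 * δ)) := by
    have : (2 * (δ * a) * (δ * b)) / (2 * s)
      + (s * c / 2) * (2 * (1 - k * a) * (1 - k * b)) + (2 * (δ * a - 1) * (δ * b)) / (2 * δ)
      = a * b * (δ ^ 2 / s + δ + s * c * k ^ 2) - b * (1 + s * c * k) - s * c * k * a + s * c := by
      field_simp; ring
    have e6 : P / (2 * M) * (2 * g) = (g * P) / M := by field_simp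
    rw [this, hM1, e6, hgP, div_eq_iff hMne]
    linear_combination (b * M - s * c * k) * haM
  have c3 : P / (2 * M) * g ^ 2 = s * c / (2 * P) - ((δ * b) ^ 2 / (2 * s)
      + (s * c / 2) * (1 - k * b) ^ 2 + (δ * b) ^ 2 / (2 * δ)) := by
    have : (δ * b) ^ 2 / (2 * s)
      + (s * c / 2) * (1 - k * b) ^ 2 + (δ * b) ^ 2 / (2 * δ)
      = b ^ 2 / 2 * (δ ^ 2 / s + δ + s * c * k ^ 2) - b * (s * c * k) + s * c / 2 := by
      field_simp; ring
    have e6 : P / (2 * M) * g ^ 2 = (g * P) ^ 2 / (2 * M * P) := by field_simp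
    have e7 : s * c / (2 * P) - (b ^ 2 / 2 * M - b * (s * c * k) + s * c / 2)
        = (s * c * M - P * ((b * M) ^ 2 - 2 * (s * c * k) * (b * M) + s * c * M)) / (2 * M * P) := by
      field_simp
    rw [this, hM1, e6, hgP, e7, hbM, ← hkey]
    congr 1
    ring
  have main : ∀ (A B C : ℝ), P / (2 * M) = A → P / (2 * M) * (2 * g) = B →
      P / (2 * M) * g ^ 2 = C → P / (2 * M) * (1 ^ 2 * dd + g ^ 2 * yy + 0 ^ 2 * nn
      + 2 * 1 * g * dy + 2 * 1 * 0 * dn + 2 * g * 0 * yn) = A * dd + B * dy + C * yy := by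
    intro A B C hA hB hC
    rw [← hA, ← hB, ← hC]; ring
  rw [main _ _ _ c1 c2 c3]
  field_simp
  ring

/-- First brace: `y` is given, `z'` is free. -/
theorem brace_fwd {s t δ c : ℝ} (hs : 0 < s) (hδ : 0 < δ) (hc : 0 ≤ c)
    (hP : 0 < 1 + c * δ * (2 * t - s + δ)) (Y0 x z y : V) :
    ∃ z' : V, Phi s c Y0 (t + δ) y z' + ‖z - z'‖ ^ 2 / (2 * δ) - ‖x - y‖ ^ 2 / (2 * δ)
      ≤ ‖x - z‖ ^ 2 / (2 * s)
        + (s * c / 2) * ‖vert s t x z - Y0‖ ^ 2 / (1 + c * δ * (2 * t - s + δ)) := by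
  obtain ⟨n, hn⟩ : ∃ n : V, x - z = s • n := ⟨(1 / s) • (x - z), by
    rw [smul_smul, mul_one_div_cancel hs.ne', one_smul]⟩
  obtain ⟨D, hD⟩ : ∃ D : V, y = x + δ • n + D := ⟨y - x - δ • n, by abel⟩
  obtain ⟨h, hh⟩ := brace_aux (s := s) (δ := δ) (c := c) (k := (t + δ) * δ / s)
    (P := 1 + c * δ * (2 * t - s + δ)) hs hδ hc hP (by field_simp; ring) n D
    (vert s t x z - Y0)
  have hz : z = x - s • n := by rw [← hn]; abel
  refine ⟨y - (x - z) - δ • h, ?_⟩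
  have e1 : y - (y - (x - z) - δ • h) = s • n + δ • h := by rw [hn]; abel
  have e2 : z - (y - (x - z) - δ • h) = δ • h - D - δ • n := by rw [hD]; abel
  have e3 : ‖x - y‖ = ‖D + δ • n‖ := by
    rw [← norm_neg]; congr 1; rw [hD]; abel
  have e4 : vert s (t + δ) y (y - (x - z) - δ • h) - Y0
      = (vert s t x z - Y0) + D - ((t + δ) * δ / s) • h := by
    unfold vert
    rw [e1, hn, hD]
    match_scalars <;> field_simp <;> ring
  unfold Phi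
  rw [e1, e2, e3, e4, hn, norm_smul, Real.norm_eq_abs, mul_pow, sq_abs]
  have e5 : s ^ 2 * ‖n‖ ^ 2 / (2 * s) = s * ‖n‖ ^ 2 / 2 := by field_simp
  rw [e5]
  linarith [hh]

/-- Second brace: `z''` is given, `x''` is free. -/
theorem brace_bwd {s t δ c : ℝ} (hs : 0 < s) (hδ : 0 < δ) (hc : 0 ≤ c)
    (hP : 0 < 1 - c * δ * (2 * t - s - δ)) (Y0 x z z'' : V) :
    ∃ x'' : V, Phi s c Y0 (t - δ) x'' z'' + ‖x - x''‖ ^ 2 / (2 * δ) - ‖z - z''‖ ^ 2 / (2 * δ)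
      ≤ ‖x - z‖ ^ 2 / (2 * s)
        + (s * c / 2) * ‖vert s t x z - Y0‖ ^ 2 / (1 - c * δ * (2 * t - s - δ)) := by
  obtain ⟨n, hn⟩ : ∃ n : V, x - z = s • n := ⟨(1 / s) • (x - z), by
    rw [smul_smul, mul_one_div_cancel hs.ne', one_smul]⟩
  obtain ⟨D, hD⟩ : ∃ D : V, z'' = z - δ • n - D := ⟨z - z'' - δ • n, by abel⟩
  obtain ⟨h, hh⟩ := brace_aux (s := s) (δ := δ) (c := c) (k := (s - t + δ) * δ / s)
    (P := 1 - c * δ * (2 * t - s - δ)) hs hδ hc hP (by field_simp; ring) n D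
    (-(vert s t x z - Y0))
  have hx : x = z + s • n := by rw [← hn]; abel
  refine ⟨z'' + (x - z) + δ • h, ?_⟩
  have e1 : z'' + (x - z) + δ • h - z'' = s • n + δ • h := by rw [hn]; abel
  have e2 : ‖x - (z'' + (x - z) + δ • h)‖ = ‖δ • h - D - δ • n‖ := by
    rw [← norm_neg]; congr 1; rw [hD]; abel
  have e3 : ‖z - z''‖ = ‖D + δ • n‖ := by
    congr 1; rw [hD]; abel
  have e4 : ‖vert s (t - δ) (z'' + (x - z) + δ • h) z'' - Y0‖
      = ‖-(vert s t x z - Y0) + D - ((s - t + δ) * δ / s) • h‖ := by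
    rw [← norm_neg]; congr 1
    unfold vert
    rw [e1, hn, hD, hx]
    match_scalars <;> field_simp <;> ring
  unfold Phi
  rw [e1, e2, e3, e4, hn, norm_smul, Real.norm_eq_abs, mul_pow, sq_abs]
  have e5 : s ^ 2 * ‖n‖ ^ 2 / (2 * s) = s * ‖n‖ ^ 2 / 2 := by field_simp
  rw [e5]
  rw [norm_neg] at hh
  linarith [hh]

/-- the algebraic heart: the two braces together cost at most `2 Φ_t`. -/
theorem braces_sum {s t δ c : ℝ} (hs : 0 < s) (hδ : 0 < δ) (hc : 0 ≤ c)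
    (hdom : c * (2 * t - s) ^ 2 ≤ 1) (hP1 : 0 < 1 + c * δ * (2 * t - s + δ))
    (hP2 : 0 < 1 - c * δ * (2 * t - s - δ)) (Y0 x z : V) :
    (‖x - z‖ ^ 2 / (2 * s)
        + (s * c / 2) * ‖vert s t x z - Y0‖ ^ 2 / (1 + c * δ * (2 * t - s + δ)))
      + (‖x - z‖ ^ 2 / (2 * s)
        + (s * c / 2) * ‖vert s t x z - Y0‖ ^ 2 / (1 - c * δ * (2 * t - s - δ)))
      ≤ 2 * Phi s c Y0 t x z := by
  unfold Phi
  have hq : 0 ≤ (s * c / 2) * ‖vert s t x z - Y0‖ ^ 2 := by positivity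
  generalize (s * c / 2) * ‖vert s t x z - Y0‖ ^ 2 = q at hq ⊢
  have : q / (1 + c * δ * (2 * t - s + δ)) + q / (1 - c * δ * (2 * t - s - δ)) ≤ 2 * q := by
    rw [div_add_div _ _ hP1.ne' hP2.ne', div_le_iff₀ (by positivity)]
    have h1 : 0 ≤ q * (c * δ ^ 2 * (1 - c * (2 * t - s) ^ 2 + c * δ ^ 2)) := by
      have : 0 ≤ 1 - c * (2 * t - s) ^ 2 + c * δ ^ 2 := by
        have : 0 ≤ c * δ ^ 2 := by positivity
        linarith
      positivity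
    nlinarith [h1]
  linarith

end Crest.Agent.R094.PropCAlg
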