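import Crest.Agent.R094.Iface
import Crest.Agent.R094.PropC

/-! Row 94: `PropC_stmt` of the frozen interface, from `PropC.midconv` (helper431). -/

set_option autoImplicit false
set_option linter.unusedSectionVars false

namespace Crest.Agent.R094.GK

open Sol

variable {V : Type*} [NormedAddCommGroup V] [InnerProductSpace ℝ V]

theorem Vf_eq_PropC (U w : V → ℝ → ℝ) (c : ℝ) (Y₀ : V) (s t : ℝ) :
    Vf U w c Y₀ s t = PropC.Vf c s Y₀ U w t := rfl

theorem SubPos.tendsto_right {U : V → ℝ → ℝ} (h : SubPos U) (x : V) {t : ℝ} (ht : 0 < t) :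
    Filter.Tendsto (fun δ => U x (t + δ)) (nhdsWithin 0 (Set.Ioi 0)) (nhds (U x t)) := by
  have hopen : IsOpen {q : V × ℝ | 0 < q.2} := isOpen_lt continuous_const continuous_snd
  have h1 : ContinuousAt (fun q : V × ℝ => U q.1 q.2) (x, t) :=
    h.cont.continuousAt (hopen.mem_nhds ht)
  have h2 : Filter.Tendsto (fun δ : ℝ => ((x, t + δ) : V × ℝ)) (nhds 0) (nhds (x, t)) := by
    have : Continuous (fun δ : ℝ => ((x, t + δ) : V × ℝ)) := by fun_prop
    have h3 := this.tendsto 0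
    simpa using h3
  exact (h1.tendsto.comp h2).mono_left nhdsWithin_le_nhds

theorem tendsto_left_of_isSol {w : V → ℝ → ℝ} (h : IsSol w) (x : V) (t : ℝ) :
    Filter.Tendsto (fun δ => w x (t - δ)) (nhdsWithin 0 (Set.Ioi 0)) (nhds (w x t)) := by
  have h1 : Continuous (fun δ : ℝ => w x (t - δ)) :=
    h.cont.comp (by fun_prop : Continuous (fun δ : ℝ => ((x, t - δ) : V × ℝ)))
  have h2 := h1.tendsto 0
  simp only [sub_zero] at h2
  exact h2.mono_left nhdsWithin_le_nhds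

/-- boundedness of the functional -/
theorem bddAbove_val {U w : V → ℝ → ℝ} (hU : SubPos U) (hw : Grow w) {c : ℝ} (Y₀ : V)
    {s t : ℝ} (hc : 0 < c) (hs : 0 < s) (ht : 0 < t) :
    BddAbove (Set.range fun q : V × V => val U w c Y₀ s t q.1 q.2) := by
  set R := t + s with hR
  set M := 18 / (s * c) + (9 * (R / s) ^ 2 + 2) * (2 * s) with hM
  have hMp : 0 < M := by positivity
  have hep : (0:ℝ) < 1 / (2 * M) := by positivity
  obtain ⟨C1, hC1⟩ := hU.grow R _ hep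
  obtain ⟨C2, hC2⟩ := hw R _ hep
  refine PropC.bdd_F (R := R) (M := M) (e := 1 / (2 * M)) (C1 := C1) (C2 := C2) hs hc Y₀ (t := t)
    ?_ hM hep.le (le_of_eq (by field_simp)) (f := fun x => U x t) (g := fun z => w z (t - s))
    (fun y => (abs_le.mp (hC1 y t ht (by linarith))).2)
    (fun y => (abs_le.mp (hC2 y (t - s) (by rw [abs_le]; constructor <;> linarith))).1)
  rw [abs_of_pos ht]; linarith

theorem propC : PropC_stmt V := by
  intro U w hU hw c Y₀ s t Δ hc hs hΔ hΔt hs2 hcw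
  rw [Vf_eq_PropC, Vf_eq_PropC, Vf_eq_PropC]
  have h := PropC.midconv (t1 := t - Δ) (t2 := t + Δ) hs hc Y₀ hU.grow hU.sub
    (fun x t ht => hU.tendsto_right x ht) hw.grow hw.sup (fun z t => tendsto_left_of_isSol hw z t)
    (by linarith) (by linarith) (by
      intro t' ht'
      obtain ⟨h1, h2⟩ := ht'
      have h3 : (2 * t' - s) ^ 2 ≤ (2 * (t + Δ)) ^ 2 := by
        apply sq_le_sq'
        · linarith
        · linarith
      exact (mul_le_mul_of_nonneg_left h3 hc.le).trans hcw)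
  have e : (t - Δ + (t + Δ)) / 2 = t := by ring
  rw [e] at h
  linarith

/-- pointwise form of PROP C -/
theorem propC_val {U w : V → ℝ → ℝ} (hU : SubPos U) (hw : IsSol w) {c : ℝ} (Y₀ : V)
    {s t Δ A B : ℝ} (hc : 0 < c) (hs : 0 < s) (hΔ : 0 < Δ) (hΔt : Δ < t) (hs2 : s ≤ 2 * (t + Δ))
    (hcw : c * (2 * (t + Δ)) ^ 2 ≤ 1)
    (hA : ∀ x z, val U w c Y₀ s (t - Δ) x z ≤ A) (hB : ∀ x z, val U w c Y₀ s (t + Δ) x z ≤ B)
    (x z : V) : val U w c Y₀ s t x z ≤ (A + B) / 2 := by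
  have h := propC U w hU hw c Y₀ s t Δ hc hs hΔ hΔt hs2 hcw
  have h1 : Vf U w c Y₀ s (t - Δ) ≤ A := ciSup_le fun q => hA q.1 q.2
  have h2 : Vf U w c Y₀ s (t + Δ) ≤ B := ciSup_le fun q => hB q.1 q.2
  have h3 : val U w c Y₀ s t x z ≤ Vf U w c Y₀ s t :=
    le_ciSup (bddAbove_val hU hw.grow Y₀ hc hs (by linarith)) (x, z)
  linarith

/-- the form needed in Stage E -/
theorem hPC_stageE {U w : V → ℝ → ℝ} (hU : SubPos U) (hw : IsSol w) (Y₀ : V) (s t A B : ℝ)
    (hs : 0 < s) (hst : s ≤ t) (ht1 : t < 1)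
    (hA : ∀ x z, val U w (1 / 16) Y₀ s t x z ≤ A)
    (hB : ∀ x z, val U w (1 / 16) Y₀ s (2 - t) x z ≤ B) (x z : V) :
    val U w (1 / 16) Y₀ s 1 x z ≤ (A + B) / 2 := by
  have ht : 0 < t := lt_of_lt_of_le hs hst
  refine propC_val hU hw Y₀ (t := 1) (Δ := 1 - t) (by norm_num) hs (by linarith) (by linarith)
    (by linarith) ?_ ?_ ?_ x z
  · have : (2 * (1 + (1 - t))) ^ 2 ≤ (4:ℝ) ^ 2 := by
      apply sq_le_sq' <;> linarith
    linarith
  · have e : 1 - (1 - t) = t := by ring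
    rw [e]; exact hA
  · have e : 1 + (1 - t) = 2 - t := by ring
    rw [e]; exact hB

end Crest.Agent.R094.GK
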