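import Mathlib

/-!
# Row 94: rigidity of blow-ups (step (BU) of note 7921, abstract part)

`W : V → ℝ → ℝ` with `W y (t+s) - ‖x-y‖²/(2s) ≤ W x t + s h` for all `x y t s > 0`, and with attained
equality from the origin (forwards) and into the origin (backwards) for all times is affine.
-/

set_option autoImplicit false

noncomputable section

open Filter Topology
open scoped RealInnerProductSpace

namespace Crest.Agent.R094.Rigid

variable {V : Type*} [NormedAddCommGroup V] [InnerProductSpace ℝ V]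

lemma parallel_of_le {y z : V} {s s' : ℝ} (hs : 0 < s) (hs' : 0 < s')
    (h : ‖y‖ ^ 2 / (2 * s) + ‖z‖ ^ 2 / (2 * s') ≤ ‖z - y‖ ^ 2 / (2 * (s + s'))) :
    s' • y = -(s • z) := by
  have h1 : ‖s' • y + s • z‖ ^ 2 ≤ 0 := by
    have hn : ‖z - y‖ ^ 2 = ‖z‖ ^ 2 - 2 * ⟪z, y⟫ + ‖y‖ ^ 2 := norm_sub_sq_real z y
    have hm : ‖s' • y + s • z‖ ^ 2 = s' ^ 2 * ‖y‖ ^ 2 + 2 * (s * s') * ⟪z, y⟫ + s ^ 2 * ‖z‖ ^ 2 := by
      rw [norm_add_sq_real, norm_smul, norm_smul, real_inner_smul_left, real_inner_smul_right,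
        real_inner_comm, mul_pow, mul_pow, Real.norm_eq_abs, Real.norm_eq_abs, sq_abs, sq_abs]
      ring
    rw [hn] at h
    have hss : 0 < s + s' := by positivity
    rw [div_add_div _ _ (by positivity) (by positivity), div_le_div_iff₀ (by positivity)
      (by positivity)] at h
    rw [hm]
    have : 4 * (s' ^ 2 * ‖y‖ ^ 2 + 2 * (s * s') * ⟪z, y⟫ + s ^ 2 * ‖z‖ ^ 2) ≤ 0 := by
      nlinarith [h]
    linarith
  have h2 : s' • y + s • z = 0 := by
    have : ‖s' • y + s • z‖ = 0 := by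
      have := sq_nonneg ‖s' • y + s • z‖
      exact pow_eq_zero_iff (two_ne_zero) |>.1 (le_antisymm h1 this)
    exact norm_eq_zero.1 this
  exact eq_neg_of_add_eq_zero_left h2

/-- Rigidity. -/
theorem affine_of_rigid (W : V → ℝ → ℝ) (h : ℝ)
    (h1 : ∀ (x y : V) (t s : ℝ), 0 < s → W y (t + s) - ‖x - y‖ ^ 2 / (2 * s) ≤ W x t + s * h)
    (h2 : ∀ s : ℝ, 0 < s → ∃ y : V, W y s = W 0 0 + s * h + ‖y‖ ^ 2 / (2 * s))
    (h3 : ∀ s : ℝ, 0 < s → ∃ z : V, W z (-s) = W 0 0 - s * h - ‖z‖ ^ 2 / (2 * s)) :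
    ∃ v : V, ∀ (x : V) (t : ℝ), W x t = W 0 0 + ⟪v, x⟫ + (h - ‖v‖ ^ 2 / 2) * t := by
  -- pairs are parallel
  have hpar : ∀ s s' : ℝ, 0 < s → 0 < s' → ∀ y z : V,
      W y s = W 0 0 + s * h + ‖y‖ ^ 2 / (2 * s) →
      W z (-s') = W 0 0 - s' * h - ‖z‖ ^ 2 / (2 * s') → s' • y = -(s • z) := by
    intro s s' hs hs' y z hy hz
    apply parallel_of_le hs hs'
    have := h1 z y (-s') (s + s') (by positivity)
    rw [show -s' + (s + s') = s by ring, hy, hz] at this
    nlinarith [this]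
  obtain ⟨y1, hy1⟩ := h2 1 one_pos
  obtain ⟨z1, hz1⟩ := h3 1 one_pos
  have hyz : y1 = -z1 := by
    have := hpar 1 1 one_pos one_pos y1 z1 hy1 hz1
    simpa using this
  -- the line
  have hfwd : ∀ s : ℝ, 0 < s → W (s • y1) s = W 0 0 + s * (h + ‖y1‖ ^ 2 / 2) := by
    intro s hs
    obtain ⟨y, hy⟩ := h2 s hs
    have := hpar s 1 hs one_pos y z1 hy hz1
    have hyy : y = s • y1 := by
      rw [one_smul] at this
      rw [this, hyz, smul_neg]
    rw [hyy] at hy
    rw [hy, norm_smul, mul_pow, Real.norm_eq_abs, sq_abs]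
    field_simp
    ring
  have hbwd : ∀ s : ℝ, 0 < s → W (-(s • y1)) (-s) = W 0 0 - s * (h + ‖y1‖ ^ 2 / 2) := by
    intro s hs
    obtain ⟨z, hz⟩ := h3 s hs
    have := hpar 1 s one_pos hs y1 z hy1 hz
    have hzz : z = -(s • y1) := by
      rw [one_smul] at this
      rw [this, neg_neg]
    rw [hzz] at hz
    rw [hz, norm_neg, norm_smul, mul_pow, Real.norm_eq_abs, sq_abs]
    field_simp
    ring
  refine ⟨y1, fun x t => le_antisymm ?_ ?_⟩
  · -- upper bound
    have key : ∀ S : ℝ, 0 < S → 0 < t + S →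
        W x t ≤ W 0 0 + ⟪y1, x⟫ + (h - ‖y1‖ ^ 2 / 2) * t + ‖x - t • y1‖ ^ 2 / (2 * (t + S)) := by
      intro S hS htS
      have := h1 (-(S • y1)) x (-S) (t + S) htS
      rw [show -S + (t + S) = t by ring, hbwd S hS] at this
      have e1 : -(S • y1) - x = -((x - t • y1) + (t + S) • y1) := by
        rw [add_smul]; abel
      rw [e1, norm_neg, norm_add_sq_real, norm_smul, mul_pow, Real.norm_eq_abs, sq_abs,
        real_inner_smul_right, inner_sub_left, real_inner_smul_left, real_inner_self_eq_norm_sq,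
        real_inner_comm] at this
      have e2 : (‖x - t • y1‖ ^ 2 + 2 * ((t + S) * (⟪y1, x⟫ - t * ‖y1‖ ^ 2)) +
          (t + S) ^ 2 * ‖y1‖ ^ 2) / (2 * (t + S)) =
          ‖x - t • y1‖ ^ 2 / (2 * (t + S)) + (⟪y1, x⟫ - t * ‖y1‖ ^ 2) + (t + S) * ‖y1‖ ^ 2 / 2 := by
        field_simp
      rw [e2] at this
      nlinarith [this]
    have hlim : Tendsto (fun S : ℝ => W 0 0 + ⟪y1, x⟫ + (h - ‖y1‖ ^ 2 / 2) * t +
        ‖x - t • y1‖ ^ 2 / (2 * (t + S))) atTop
        (𝓝 (W 0 0 + ⟪y1, x⟫ + (h - ‖y1‖ ^ 2 / 2) * t + 0)) := by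
      apply Tendsto.add tendsto_const_nhds
      apply Tendsto.div_atTop tendsto_const_nhds
      apply Tendsto.const_mul_atTop (by norm_num)
      exact tendsto_atTop_add_const_left _ _ tendsto_id
    rw [add_zero] at hlim
    refine ge_of_tendsto hlim ?_
    filter_upwards [eventually_gt_atTop 0, eventually_gt_atTop (-t)] with S hS hS'
    exact key S hS (by linarith)
  · have key : ∀ S : ℝ, 0 < S → t < S →
        W 0 0 + ⟪y1, x⟫ + (h - ‖y1‖ ^ 2 / 2) * t - ‖x - t • y1‖ ^ 2 / (2 * (S - t)) ≤ W x t := by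
      intro S hS htS
      have hpos : 0 < S - t := by linarith
      have := h1 x (S • y1) t (S - t) hpos
      rw [show t + (S - t) = S by ring, hfwd S hS] at this
      have e1 : x - S • y1 = (x - t • y1) - (S - t) • y1 := by
        rw [sub_smul]; abel
      rw [e1, norm_sub_sq_real, norm_smul, mul_pow, Real.norm_eq_abs, sq_abs,
        real_inner_smul_right, inner_sub_left, real_inner_smul_left, real_inner_self_eq_norm_sq,
        real_inner_comm] at this
      have e2 : (‖x - t • y1‖ ^ 2 - 2 * ((S - t) * (⟪y1, x⟫ - t * ‖y1‖ ^ 2)) +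
          (S - t) ^ 2 * ‖y1‖ ^ 2) / (2 * (S - t)) =
          ‖x - t • y1‖ ^ 2 / (2 * (S - t)) - (⟪y1, x⟫ - t * ‖y1‖ ^ 2) + (S - t) * ‖y1‖ ^ 2 / 2 := by
        field_simp
      rw [e2] at this
      nlinarith [this]
    have hlim : Tendsto (fun S : ℝ => W 0 0 + ⟪y1, x⟫ + (h - ‖y1‖ ^ 2 / 2) * t -
        ‖x - t • y1‖ ^ 2 / (2 * (S - t))) atTop
        (𝓝 (W 0 0 + ⟪y1, x⟫ + (h - ‖y1‖ ^ 2 / 2) * t - 0)) := by
      apply Tendsto.sub tendsto_const_nhds
      apply Tendsto.div_atTop tendsto_const_nhds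
      apply Tendsto.const_mul_atTop (by norm_num)
      exact tendsto_atTop_add_const_right _ _ tendsto_id
    rw [sub_zero] at hlim
    refine le_of_tendsto hlim ?_
    filter_upwards [eventually_gt_atTop 0, eventually_gt_atTop t] with S hS hS'
    exact key S hS hS'

end Crest.Agent.R094.Rigid
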