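import Mathlib

/-!
Row 94 (S0124), helper404: rigidity lemmas of note 7921 (definition-free).
-/

open scoped RealInnerProductSpace

namespace Crest.Agent.R094.Rigid2

variable {V : Type*} [NormedAddCommGroup V] [InnerProductSpace ℝ V]

/-- If two quantities differ by at most `c / S` for all large `S`, then `a ≤ b`. -/
theorem le_of_forall_large {a b c S₀ : ℝ} (h : ∀ S, S₀ < S → a ≤ b + c / S) : a ≤ b := by
  have h1 : Filter.Tendsto (fun S : ℝ => b + c / S) Filter.atTop (nhds (b + 0)) :=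
    tendsto_const_nhds.add (tendsto_const_nhds.div_atTop Filter.tendsto_id)
  rw [add_zero] at h1
  exact ge_of_tendsto h1 ((Filter.eventually_gt_atTop S₀).mono fun S hS => h S hS)

/-- Quadratic identity behind the rigidity of tight lines. -/
theorem tight_pair {y z : V} {s s' : ℝ} (hs : 0 < s) (hs' : 0 < s')
    (h : ‖y‖ ^ 2 / (2 * s) + ‖z‖ ^ 2 / (2 * s') ≤ ‖z - y‖ ^ 2 / (2 * (s + s'))) :
    s' • y + s • z = 0 := by
  have h1 : ‖z - y‖ ^ 2 = ‖z‖ ^ 2 - 2 * ⟪z, y⟫ + ‖y‖ ^ 2 := norm_sub_sq_real z y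
  have h2 : ‖s' • y + s • z‖ ^ 2 = s' ^ 2 * ‖y‖ ^ 2 + 2 * (s * s' * ⟪z, y⟫) + s ^ 2 * ‖z‖ ^ 2 := by
    rw [norm_add_sq_real, norm_smul, norm_smul, inner_smul_left, inner_smul_right,
      real_inner_comm, mul_pow, mul_pow]
    simp only [Real.norm_eq_abs, sq_abs, RCLike.conj_to_real]
    ring
  have h3 : ‖s' • y + s • z‖ ^ 2 ≤ 0 := by
    rw [h1] at h
    have hss : 0 < s + s' := by positivity
    rw [div_add_div _ _ (by positivity) (by positivity), div_le_div_iff₀ (by positivity)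
      (by positivity)] at h
    rw [h2]
    have hkey : (‖y‖ ^ 2 * (2 * s') + 2 * s * ‖z‖ ^ 2) * (2 * (s + s')) -
        (‖z‖ ^ 2 - 2 * ⟪z, y⟫ + ‖y‖ ^ 2) * (2 * s * (2 * s')) =
        4 * (s' ^ 2 * ‖y‖ ^ 2 + 2 * (s * s' * ⟪z, y⟫) + s ^ 2 * ‖z‖ ^ 2) := by ring
    linarith
  have h4 : ‖s' • y + s • z‖ ^ 2 = 0 := le_antisymm h3 (sq_nonneg _)
  exact norm_eq_zero.1 (pow_eq_zero_iff (two_ne_zero) |>.1 h4)

/-- **(BU) rigidity.**  Forward slopes at the origin identically `h`, backward slopes at the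
origin identically `h` (both attained), and forward slopes at most `h` everywhere: then `W` is
affine, with space slope `v` and time slope `h - ‖v‖²/2`. -/
theorem BU_affine (W : V → ℝ → ℝ) (h : ℝ)
    (ha : ∀ s : ℝ, 0 < s → ∃ y, W y s = ‖y‖ ^ 2 / (2 * s) + s * h)
    (hb : ∀ s : ℝ, 0 < s → ∃ z, W z (-s) = -(‖z‖ ^ 2 / (2 * s)) - s * h)
    (hc : ∀ (x : V) (t s : ℝ), 0 < s → ∀ y, W y (t + s) - ‖x - y‖ ^ 2 / (2 * s) ≤ W x t + s * h) :
    ∃ v : V, ∀ (x : V) (t : ℝ), W x t = ⟪v, x⟫ + (h - ‖v‖ ^ 2 / 2) * t := by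
  choose! y hy using ha
  choose! z hz using hb
  have hyz : ∀ s s' : ℝ, 0 < s → 0 < s' → s' • y s + s • z s' = 0 := by
    intro s s' hs hs'
    apply tight_pair hs hs'
    have h1 := hc (z s') (-s') (s + s') (by positivity) (y s)
    rw [show -s' + (s + s') = s by ring, hy s hs, hz s' hs'] at h1
    linarith
  set v : V := y 1 with hv
  have hz' : ∀ s' : ℝ, 0 < s' → z s' = -(s' • v) := by
    intro s' hs'
    have h1 := hyz 1 s' one_pos hs'
    rw [one_smul] at h1
    rw [eq_neg_iff_add_eq_zero, add_comm]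
    exact h1
  have hy' : ∀ s : ℝ, 0 < s → y s = s • v := by
    intro s hs
    have h1 := hyz s 1 hs one_pos
    rw [one_smul, hz' 1 one_pos, one_smul, smul_neg, ← sub_eq_add_neg, sub_eq_zero] at h1
    exact h1
  have hWy : ∀ s : ℝ, 0 < s → W (s • v) s = s * (‖v‖ ^ 2 / 2 + h) := by
    intro s hs
    have h1 := hy s hs
    rw [hy' s hs, norm_smul, mul_pow, Real.norm_eq_abs, sq_abs] at h1
    rw [h1]
    field_simp
  have hWz : ∀ s : ℝ, 0 < s → W (-(s • v)) (-s) = -(s * (‖v‖ ^ 2 / 2 + h)) := by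
    intro s hs
    have h1 := hz s hs
    rw [hz' s hs, norm_neg, norm_smul, mul_pow, Real.norm_eq_abs, sq_abs] at h1
    rw [h1]
    field_simp
    ring
  refine ⟨v, fun x t => ?_⟩
  apply le_antisymm
  · -- upper bound
    apply le_of_forall_large (c := ‖x - t • v‖ ^ 2 / 2) (S₀ := max 0 t)
    intro R hR
    have hR0 : 0 < R := lt_of_le_of_lt (le_max_left _ _) hR
    have hRt : t < R := lt_of_le_of_lt (le_max_right _ _) hR
    have hS : 0 < R - t := by linarith
    have h1 := hc (-((R - t) • v)) (-(R - t)) R hR0 x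
    rw [hWz _ hS, show -(R - t) + R = t by ring] at h1
    have h2 : -((R - t) • v) - x = -((x - t • v) + R • v) := by
      rw [sub_smul]; abel
    rw [h2, norm_neg, norm_add_sq_real, norm_smul, mul_pow, Real.norm_eq_abs, sq_abs,
      inner_smul_right, inner_sub_left, inner_smul_left] at h1
    simp only [RCLike.conj_to_real, real_inner_self_eq_norm_sq] at h1
    have h3 : (‖x - t • v‖ ^ 2 + 2 * (R * (⟪x, v⟫ - t * ‖v‖ ^ 2)) + R ^ 2 * ‖v‖ ^ 2) / (2 * R)
        = ‖x - t • v‖ ^ 2 / 2 / R + (⟪x, v⟫ - t * ‖v‖ ^ 2) + R * ‖v‖ ^ 2 / 2 := by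
      field_simp
    rw [h3] at h1
    have h4 : ⟪x, v⟫ = ⟪v, x⟫ := real_inner_comm _ _
    rw [h4] at h1
    nlinarith [h1]
  · -- lower bound
    apply le_of_forall_large (c := ‖x - t • v‖ ^ 2 / 2) (S₀ := max 0 (-t))
    intro R hR
    have hR0 : 0 < R := lt_of_le_of_lt (le_max_left _ _) hR
    have hRt : -t < R := lt_of_le_of_lt (le_max_right _ _) hR
    have hS : 0 < t + R := by linarith
    have h1 := hc x t R hR0 ((t + R) • v)
    rw [hWy _ hS] at h1
    have h2 : x - (t + R) • v = (x - t • v) - R • v := by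
      rw [add_smul]; abel
    rw [h2, norm_sub_sq_real, norm_smul, mul_pow, Real.norm_eq_abs, sq_abs,
      inner_smul_right, inner_sub_left, inner_smul_left] at h1
    simp only [RCLike.conj_to_real, real_inner_self_eq_norm_sq] at h1
    have h3 : (‖x - t • v‖ ^ 2 - 2 * (R * (⟪x, v⟫ - t * ‖v‖ ^ 2)) + R ^ 2 * ‖v‖ ^ 2) / (2 * R)
        = ‖x - t • v‖ ^ 2 / 2 / R - (⟪x, v⟫ - t * ‖v‖ ^ 2) + R * ‖v‖ ^ 2 / 2 := by
      field_simp
    rw [h3] at h1
    have h4 : ⟪x, v⟫ = ⟪v, x⟫ := real_inner_comm _ _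
    rw [h4] at h1
    nlinarith [h1]


/-! ### (R2): the case of defect zero -/

/-- A function which is both convex and concave on a finite-dimensional space is affine. -/
theorem affine_of_convex_concave [FiniteDimensional ℝ V] (f : V → ℝ)
    (hcv : ConvexOn ℝ Set.univ f) (hcc : ConcaveOn ℝ Set.univ f) :
    ∃ p : V, ∀ x, f x = f 0 + ⟪p, x⟫ := by
  have : CompleteSpace V := FiniteDimensional.complete ℝ V
  have hcomb : ∀ (x y : V) (a b : ℝ), 0 ≤ a → 0 ≤ b → a + b = 1 →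
      f (a • x + b • y) = a * f x + b * f y := by
    intro x y a b ha hb hab
    have h1 := hcv.2 (Set.mem_univ x) (Set.mem_univ y) ha hb hab
    have h2 := hcc.2 (Set.mem_univ x) (Set.mem_univ y) ha hb hab
    simp only [smul_eq_mul] at h1 h2
    exact le_antisymm h1 h2
  set g : V → ℝ := fun x => f x - f 0 with hg
  have hsm1 : ∀ (x : V) (r : ℝ), 0 ≤ r → r ≤ 1 → g (r • x) = r * g x := by
    intro x r h0 h1
    have h2 := hcomb x 0 r (1 - r) h0 (by linarith) (by ring)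
    rw [smul_zero, add_zero] at h2
    simp only [hg, h2]; ring
  have hsmul : ∀ (x : V) (r : ℝ), 0 ≤ r → g (r • x) = r * g x := by
    intro x r h0
    rcases le_total r 1 with h1 | h1
    · exact hsm1 x r h0 h1
    · have hr : 0 < r := by linarith
      have h2 := hsm1 (r • x) r⁻¹ (by positivity) (inv_le_one_of_one_le₀ h1)
      rw [smul_smul, inv_mul_cancel₀ hr.ne', one_smul] at h2
      rw [h2, ← mul_assoc, mul_inv_cancel₀ hr.ne', one_mul]
  have hadd : ∀ x y : V, g (x + y) = g x + g y := by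
    intro x y
    have h1 := hcomb ((2 : ℝ) • x) ((2 : ℝ) • y) (1 / 2) (1 / 2) (by norm_num) (by norm_num)
      (by norm_num)
    rw [smul_smul, smul_smul, show (1 / 2 * 2 : ℝ) = 1 by norm_num, one_smul, one_smul] at h1
    have h2 := hsmul x 2 (by norm_num)
    have h3 := hsmul y 2 (by norm_num)
    simp only [hg] at h2 h3 ⊢
    linarith
  have hneg : ∀ x : V, g (-x) = - g x := by
    intro x
    have h1 := hadd x (-x)
    rw [add_neg_cancel] at h1
    have h2 : g 0 = 0 := by simp [hg]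
    linarith
  have hlin : ∀ (r : ℝ) (x : V), g (r • x) = r * g x := by
    intro r x
    rcases le_total 0 r with h | h
    · exact hsmul x r h
    · have h1 := hsmul (-x) (-r) (by linarith)
      rw [smul_neg, neg_smul, neg_neg, hneg] at h1
      linarith
  let G : V →ₗ[ℝ] ℝ :=
    { toFun := g
      map_add' := hadd
      map_smul' := fun r x => by simpa using hlin r x }
  refine ⟨(InnerProductSpace.toDual ℝ V).symm (LinearMap.toContinuousLinearMap G), fun x => ?_⟩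
  rw [InnerProductSpace.toDual_symm_apply]
  change f x = f 0 + g x
  simp only [hg]; ring

/-- A function of one real variable with the chord equality is affine. -/
theorem affine_of_chord {E : Type*} [AddCommGroup E] [Module ℝ E] (p : ℝ → E)
    (h : ∀ t s s' : ℝ, 0 < s → s < s' →
      p (t + s) = (1 - s / s') • p t + (s / s') • p (t + s')) :
    ∀ t, p t = p 0 + t • (p 1 - p 0) := by
  intro t
  rcases lt_trichotomy t 0 with ht | ht | ht
  · -- `0` lies between `t` and `1`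
    have h1 := h t (-t) (1 - t) (by linarith) (by linarith)
    rw [add_neg_cancel, show t + (1 - t) = 1 by ring] at h1
    have h1t : (1 - t) ≠ 0 := by linarith
    have h2 : (1 - -t / (1 - t)) = (1 - t)⁻¹ := by field_simp; ring
    have h3 : (-t / (1 - t)) = (1 - t)⁻¹ * (-t) := by field_simp
    rw [h2, h3, mul_smul, ← smul_add] at h1
    have h4 : (1 - t) • p 0 = p t + (-t) • p 1 := by
      rw [h1, smul_smul, mul_inv_cancel₀ h1t, one_smul]
    have h5 : p t = (1 - t) • p 0 - (-t) • p 1 := by rw [h4]; abel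
    rw [h5, sub_smul, one_smul, neg_smul, smul_sub]; abel
  · subst ht; simp
  · rcases lt_trichotomy t 1 with ht1 | ht1 | ht1
    · have h1 := h 0 t 1 ht ht1
      rw [zero_add, zero_add, div_one] at h1
      rw [h1, sub_smul, one_smul, smul_sub]; abel
    · subst ht1; simp
    · have h1 := h 0 1 t one_pos ht1
      rw [zero_add, zero_add] at h1
      have ht0 : t ≠ 0 := ht.ne'
      have h4 : t • p 1 = (t - 1) • p 0 + p t := by
        rw [h1, smul_add, smul_smul, smul_smul, mul_one_div_cancel ht0, one_smul]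
        congr 2
        field_simp
      have h5 : p t = t • p 1 - (t - 1) • p 0 := by rw [h4]; abel
      rw [h5, sub_smul, one_smul, smul_sub]; abel

/-- Growth `(1+|x|+|t|)^{3/2}` forces a time-affine slope to be constant. -/
theorem slope_zero_of_growth {C a b : ℝ} (h : ∀ R : ℝ, 1 ≤ R →
    R * (b * R - a) ≤ C * (1 + R + R) ^ (3 / 2 : ℝ)) : b ≤ 0 := by
  by_contra hb
  push Not at hb
  -- divide by `R ^ 2` and let `R → ∞`
  have h1 : Filter.Tendsto (fun R : ℝ => b - a / R) Filter.atTop (nhds (b - 0)) :=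
    tendsto_const_nhds.sub (tendsto_const_nhds.div_atTop Filter.tendsto_id)
  have h2 : Filter.Tendsto (fun R : ℝ => |C| * 3 ^ (3 / 2 : ℝ) * R ^ (-(1 / 2) : ℝ)) Filter.atTop
      (nhds (|C| * 3 ^ (3 / 2 : ℝ) * 0)) :=
    (tendsto_rpow_neg_atTop (by norm_num)).const_mul _
  rw [sub_zero] at h1
  rw [mul_zero] at h2
  have h3 : b ≤ 0 := by
    refine le_of_tendsto_of_tendsto h1 h2 ?_
    filter_upwards [Filter.eventually_ge_atTop (1 : ℝ)] with R hR
    have hR0 : 0 < R := by linarith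
    have h4 := h R hR
    have h5 : (1 + R + R) ^ (3 / 2 : ℝ) ≤ (3 * R) ^ (3 / 2 : ℝ) :=
      Real.rpow_le_rpow (by linarith) (by linarith) (by norm_num)
    have h6 : (3 * R) ^ (3 / 2 : ℝ) = 3 ^ (3 / 2 : ℝ) * R ^ (3 / 2 : ℝ) :=
      Real.mul_rpow (by norm_num) hR0.le
    have h7 : R * (b * R - a) ≤ |C| * (3 ^ (3 / 2 : ℝ) * R ^ (3 / 2 : ℝ)) := by
      refine h4.trans ?_
      rw [← h6]
      calc C * (1 + R + R) ^ (3 / 2 : ℝ) ≤ |C| * (1 + R + R) ^ (3 / 2 : ℝ) :=
            mul_le_mul_of_nonneg_right (le_abs_self C) (Real.rpow_nonneg (by linarith) _)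
        _ ≤ _ := mul_le_mul_of_nonneg_left h5 (abs_nonneg C)
    have h8 : R ^ (3 / 2 : ℝ) = R ^ 2 * R ^ (-(1 / 2) : ℝ) := by
      rw [← Real.rpow_natCast, ← Real.rpow_add hR0]; norm_num
    have h9 : b - a / R = (R * (b * R - a)) / R ^ 2 := by field_simp
    rw [h9, div_le_iff₀ (by positivity)]
    calc R * (b * R - a) ≤ |C| * (3 ^ (3 / 2 : ℝ) * R ^ (3 / 2 : ℝ)) := h7
      _ = |C| * 3 ^ (3 / 2 : ℝ) * R ^ (-(1 / 2) : ℝ) * R ^ 2 := by rw [h8]; ring
  linarith

/-- **(R2).**  A solution all of whose time slices are affine, with `3/2`-growth, is affine. -/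
theorem affine_of_slices [FiniteDimensional ℝ V] (w : V → ℝ → ℝ)
    (hcv : ∀ t, ConvexOn ℝ Set.univ fun x => w x t)
    (hcc : ∀ t, ConcaveOn ℝ Set.univ fun x => w x t)
    (hgrow : ∃ C : ℝ, ∀ x t, |w x t| ≤ C * (1 + ‖x‖ + |t|) ^ (3 / 2 : ℝ))
    (hSub : ∀ (x : V) (t s s' : ℝ), 0 < s → s < s' → ∀ A : ℝ,
      (∀ y, w y (t + s') - ‖x - y‖ ^ 2 / (2 * s') ≤ A) →
      ∀ y, w y (t + s) - ‖x - y‖ ^ 2 / (2 * s) ≤ (1 - s / s') * w x t + s / s' * A)
    (hSup : ∀ (x : V) (t s s' : ℝ), 0 < s → s < s' → ∀ A : ℝ,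
      (∀ y, A ≤ w y (t - s') + ‖x - y‖ ^ 2 / (2 * s')) →
      ∀ y, (1 - s / s') * w x t + s / s' * A ≤ w y (t - s) + ‖x - y‖ ^ 2 / (2 * s)) :
    ∃ (p : V) (b c : ℝ), ∀ x t, w x t = ⟪p, x⟫ + b * t + c := by
  choose p hp using fun t => affine_of_convex_concave (fun x => w x t) (hcv t) (hcc t)
  set c : ℝ → ℝ := fun t => w 0 t with hc
  have hw : ∀ x t, w x t = c t + ⟪p t, x⟫ := fun x t => hp t x
  -- exact value of the sup-convolution
  have hval : ∀ (x y : V) (t s : ℝ), 0 < s →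
      w y t - ‖x - y‖ ^ 2 / (2 * s) ≤ c t + ⟪p t, x⟫ + s * ‖p t‖ ^ 2 / 2 := by
    intro x y t s hs
    have h1 : ‖(x - y) + s • p t‖ ^ 2 = ‖x - y‖ ^ 2 + 2 * (s * (⟪p t, x⟫ - ⟪p t, y⟫))
        + s ^ 2 * ‖p t‖ ^ 2 := by
      rw [norm_add_sq_real, norm_smul, mul_pow, Real.norm_eq_abs, sq_abs, inner_smul_right,
        real_inner_comm, inner_sub_right]
    have h2 : 0 ≤ ‖(x - y) + s • p t‖ ^ 2 / (2 * s) := by positivity
    rw [h1] at h2
    have h3 : (‖x - y‖ ^ 2 + 2 * (s * (⟪p t, x⟫ - ⟪p t, y⟫)) + s ^ 2 * ‖p t‖ ^ 2) / (2 * s)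
        = ‖x - y‖ ^ 2 / (2 * s) + (⟪p t, x⟫ - ⟪p t, y⟫) + s * ‖p t‖ ^ 2 / 2 := by
      field_simp
    rw [h3] at h2
    rw [hw y t]; linarith
  have hval' : ∀ (x : V) (t s : ℝ), 0 < s →
      w (x + s • p t) t - ‖x - (x + s • p t)‖ ^ 2 / (2 * s)
        = c t + ⟪p t, x⟫ + s * ‖p t‖ ^ 2 / 2 := by
    intro x t s hs
    rw [hw, show x - (x + s • p t) = -(s • p t) by abel, norm_neg, norm_smul, mul_pow,
      Real.norm_eq_abs, sq_abs, inner_add_right, inner_smul_right, real_inner_self_eq_norm_sq]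
    field_simp
    ring
  have hval2 : ∀ (x y : V) (t s : ℝ), 0 < s →
      c t + ⟪p t, x⟫ - s * ‖p t‖ ^ 2 / 2 ≤ w y t + ‖x - y‖ ^ 2 / (2 * s) := by
    intro x y t s hs
    have h1 : ‖(x - y) - s • p t‖ ^ 2 = ‖x - y‖ ^ 2 - 2 * (s * (⟪p t, x⟫ - ⟪p t, y⟫))
        + s ^ 2 * ‖p t‖ ^ 2 := by
      rw [norm_sub_sq_real, norm_smul, mul_pow, Real.norm_eq_abs, sq_abs, inner_smul_right,
        real_inner_comm, inner_sub_right]
    have h2 : 0 ≤ ‖(x - y) - s • p t‖ ^ 2 / (2 * s) := by positivity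
    rw [h1] at h2
    have h3 : (‖x - y‖ ^ 2 - 2 * (s * (⟪p t, x⟫ - ⟪p t, y⟫)) + s ^ 2 * ‖p t‖ ^ 2) / (2 * s)
        = ‖x - y‖ ^ 2 / (2 * s) - (⟪p t, x⟫ - ⟪p t, y⟫) + s * ‖p t‖ ^ 2 / 2 := by
      field_simp
    rw [h3] at h2
    rw [hw y t]; linarith
  have hval2' : ∀ (x : V) (t s : ℝ), 0 < s →
      w (x - s • p t) t + ‖x - (x - s • p t)‖ ^ 2 / (2 * s)
        = c t + ⟪p t, x⟫ - s * ‖p t‖ ^ 2 / 2 := by
    intro x t s hs
    rw [hw, show x - (x - s • p t) = s • p t by abel, norm_smul, mul_pow,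
      Real.norm_eq_abs, sq_abs, inner_sub_right, inner_smul_right, real_inner_self_eq_norm_sq]
    field_simp
    ring
  -- the scalar inequality coming from (Sub)
  have hS : ∀ (x : V) (t s s' : ℝ), 0 < s → s < s' →
      c (t + s) + ⟪p (t + s), x⟫ + s * ‖p (t + s)‖ ^ 2 / 2 ≤
        (1 - s / s') * (c t + ⟪p t, x⟫) +
        s / s' * (c (t + s') + ⟪p (t + s'), x⟫ + s' * ‖p (t + s')‖ ^ 2 / 2) := by
    intro x t s s' hs hss
    have h1 := hSub x t s s' hs hss _ (fun y => hval x y (t + s') s' (hs.trans hss))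
      (x + s • p (t + s))
    rw [hval' x (t + s) s hs, hw x t] at h1
    exact h1
  have hS2 : ∀ (x : V) (t s s' : ℝ), 0 < s → s < s' →
      (1 - s / s') * (c t + ⟪p t, x⟫) +
        s / s' * (c (t - s') + ⟪p (t - s'), x⟫ - s' * ‖p (t - s')‖ ^ 2 / 2) ≤
      c (t - s) + ⟪p (t - s), x⟫ - s * ‖p (t - s)‖ ^ 2 / 2 := by
    intro x t s s' hs hss
    have h1 := hSup x t s s' hs hss _ (fun y => hval2 x y (t - s') s' (hs.trans hss))
      (x - s • p (t - s))
    rw [hval2' x (t - s) s hs, hw x t] at h1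
    exact h1
  -- slopes are affine in time
  have hpl : ∀ (t s s' : ℝ), 0 < s → s < s' → ∀ x : V,
      ⟪p (t + s) - ((1 - s / s') • p t + (s / s') • p (t + s')), x⟫ ≤ 0 := by
    intro t s s' hs hss x
    set D := c (t + s) + s * ‖p (t + s)‖ ^ 2 / 2 - (1 - s / s') * c t -
      s / s' * (c (t + s') + s' * ‖p (t + s')‖ ^ 2 / 2) with hD
    have key : ∀ lam : ℝ, 0 < lam →
        ⟪p (t + s) - ((1 - s / s') • p t + (s / s') • p (t + s')), x⟫ ≤ 0 + (-D) / lam := by
      intro lam hlam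
      have h1 := hS (lam • x) t s s' hs hss
      simp only [inner_smul_right] at h1
      rw [zero_add, le_div_iff₀ hlam]
      rw [inner_sub_left, inner_add_left, inner_smul_left, inner_smul_left]
      simp only [RCLike.conj_to_real]
      have : (⟪p (t + s), x⟫ - ((1 - s / s') * ⟪p t, x⟫ + s / s' * ⟪p (t + s'), x⟫)) * lam
        = lam * ⟪p (t + s), x⟫ - ((1 - s / s') * (lam * ⟪p t, x⟫)
          + s / s' * (lam * ⟪p (t + s'), x⟫)) := by ring
      rw [this, hD]
      linarith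
    exact le_of_forall_large (fun S hS => key S hS)
  have hpeq : ∀ (t s s' : ℝ), 0 < s → s < s' →
      p (t + s) = (1 - s / s') • p t + (s / s') • p (t + s') := by
    intro t s s' hs hss
    have h1 := hpl t s s' hs hss
      (p (t + s) - ((1 - s / s') • p t + (s / s') • p (t + s')))
    rw [real_inner_self_eq_norm_sq] at h1
    have h2 : ‖p (t + s) - ((1 - s / s') • p t + (s / s') • p (t + s'))‖ ^ 2 = 0 :=
      le_antisymm h1 (sq_nonneg _)
    exact sub_eq_zero.1 (norm_eq_zero.1 ((pow_eq_zero_iff two_ne_zero).1 h2))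
  have hpaff := affine_of_chord p hpeq
  -- the slope is constant
  obtain ⟨C, hC⟩ := hgrow
  have hq : p 1 - p 0 = 0 := by
    by_contra hne
    have hqn : 0 < ‖p 1 - p 0‖ := norm_pos_iff.2 hne
    set q := p 1 - p 0 with hqdef
    have hb := slope_zero_of_growth (C := C) (a := ‖p 0‖) (b := ‖q‖) ?_
    · linarith
    intro R hR
    have hR0 : 0 < R := by linarith
    set x : V := (R / ‖q‖) • q with hx
    have hxn : ‖x‖ = R := by
      rw [hx, norm_smul, Real.norm_eq_abs, abs_of_pos (by positivity)]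
      field_simp
    have h1 := hC x R
    have h2 := hC (-x) R
    rw [norm_neg, hxn, abs_of_pos hR0] at h2
    rw [hxn, abs_of_pos hR0] at h1
    have h3 : w x R - w (-x) R = 2 * ⟪p R, x⟫ := by
      rw [hw, hw, inner_neg_right]; ring
    have h4 : ⟪p R, x⟫ ≤ C * (1 + R + R) ^ (3 / 2 : ℝ) := by
      have h5 := le_abs_self (w x R)
      have h6 := neg_abs_le (w (-x) R)
      linarith
    refine le_trans ?_ h4
    rw [hpaff R, inner_add_left, inner_smul_left, hx, inner_smul_right, inner_smul_right,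
      real_inner_self_eq_norm_sq]
    simp only [RCLike.conj_to_real]
    have h7 : -(‖p 0‖ * ‖q‖) ≤ ⟪p 0, q⟫ := by
      have := abs_real_inner_le_norm (p 0) q
      exact (abs_le.1 this).1
    have h8 : R / ‖q‖ * ⟪p 0, q⟫ + R * (R / ‖q‖ * ‖q‖ ^ 2)
        = R / ‖q‖ * ⟪p 0, q⟫ + R * R * ‖q‖ := by
      field_simp
    rw [h8]
    have h9 : R / ‖q‖ * (-(‖p 0‖ * ‖q‖)) ≤ R / ‖q‖ * ⟪p 0, q⟫ :=
      mul_le_mul_of_nonneg_left h7 (by positivity)
    have h10 : R / ‖q‖ * (-(‖p 0‖ * ‖q‖)) = -(R * ‖p 0‖) := by field_simp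
    rw [h10] at h9
    nlinarith [h9]
  have hpc : ∀ t, p t = p 0 := by
    intro t; rw [hpaff t, hq, smul_zero, add_zero]
  -- `c` is affine
  have hcc' : ∀ (t s s' : ℝ), 0 < s → s < s' →
      c (t + s) = (1 - s / s') • c t + (s / s') • c (t + s') := by
    intro t s s' hs hss
    have hs' : 0 < s' := hs.trans hss
    have h1 := hS 0 t s s' hs hss
    simp only [inner_zero_right, add_zero, hpc] at h1
    have h2 := hS2 0 (t + s') (s' - s) s' (by linarith) (by linarith)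
    simp only [inner_zero_right, add_zero, hpc] at h2
    rw [show t + s' - (s' - s) = t + s by ring, show t + s' - s' = t by ring] at h2
    have h3 : (1 - (s' - s) / s') = s / s' := by field_simp; ring
    have h4 : (s' - s) / s' = 1 - s / s' := by field_simp
    rw [h3, h4] at h2
    simp only [smul_eq_mul]
    have h5 : s / s' * (c (t + s') + s' * ‖p 0‖ ^ 2 / 2) = s / s' * c (t + s')
        + s * ‖p 0‖ ^ 2 / 2 := by field_simp
    have h6 : (1 - s / s') * (c t - s' * ‖p 0‖ ^ 2 / 2) = (1 - s / s') * c t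
        - (s' - s) * ‖p 0‖ ^ 2 / 2 := by field_simp
    rw [h5] at h1
    rw [h6] at h2
    linarith
  have hcaff := affine_of_chord c hcc'
  refine ⟨p 0, c 1 - c 0, c 0, fun x t => ?_⟩
  rw [hw, hpc, hcaff t, smul_eq_mul]
  ring

end Crest.Agent.R094.Rigid2
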