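/-
Row 94, Section 2: Campanato-type lemma and the passage from moving flat boxes to a pointwise
C^{1,alpha} expansion.
-/
import Mathlib

set_option autoImplicit false

namespace Crest.Agent.R094.S2

open Real Filter Topology

variable {V : Type*} [NormedAddCommGroup V] [InnerProductSpace ℝ V]

/-- comparison of slopes of a function on a ball -/
lemma slope_diff {u : V → ℝ} {p p' : V} {r η η' : ℝ} (hr : 0 < r)
    (h : ∀ x, ‖x‖ ≤ r → |u x - u 0 - inner ℝ p x| ≤ η)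
    (h' : ∀ x, ‖x‖ ≤ r → |u x - u 0 - inner ℝ p' x| ≤ η') :
    ‖p - p'‖ ≤ (η + η') / r := by
  rw [le_div_iff₀ hr]
  have hη : 0 ≤ η := (abs_nonneg _).trans (h 0 (by simpa using hr.le))
  have hη' : 0 ≤ η' := (abs_nonneg _).trans (h' 0 (by simpa using hr.le))
  by_cases hpp : p - p' = 0
  · rw [hpp, norm_zero, zero_mul]; linarith
  · have hn : 0 < ‖p - p'‖ := norm_pos_iff.2 hpp
    set x : V := (r / ‖p - p'‖) • (p - p') with hx
    have hxn : ‖x‖ = r := by
      rw [hx, norm_smul, Real.norm_of_nonneg (by positivity)]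
      field_simp
    have e1 := h x hxn.le
    have e2 := h' x hxn.le
    have hi : inner ℝ (p - p') x = ‖p - p'‖ * r := by
      rw [hx, inner_smul_right, real_inner_self_eq_norm_sq]
      field_simp
    have hi2 : inner ℝ (p - p') x = inner ℝ p x - inner ℝ p' x := inner_sub_left _ _ _
    rw [abs_le] at e1 e2
    nlinarith [e1.1, e1.2, e2.1, e2.2]

theorem campanato [CompleteSpace V] {a C r1 : ℝ} (ha : 0 < a) (ha1 : a ≤ 1) (hC : 0 ≤ C)
    (hr1 : 0 < r1) {u : V → ℝ}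
    (h : ∀ r, 0 < r → r ≤ r1 → ∃ p : V, ∀ x, ‖x‖ ≤ r →
      |u x - u 0 - inner ℝ p x| ≤ C * r ^ (1 + a)) :
    ∃ p : V, ∀ x, ‖x‖ ≤ r1 →
      |u x - u 0 - inner ℝ p x| ≤ (4 * C + 8 * C / (1 - (1/2) ^ a)) * ‖x‖ ^ (1 + a) := by
  set q : ℝ := (1/2) ^ a with hq
  have hq0 : 0 < q := by positivity
  have hq1 : q < 1 := Real.rpow_lt_one (by norm_num) (by norm_num) ha
  have h1q : 0 < 1 - q := by linarith
  set ρ : ℕ → ℝ := fun n => r1 * (1/2) ^ n with hρ
  have hρ0 : ∀ n, 0 < ρ n := fun n => by positivity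
  have hρ1 : ∀ n, ρ n ≤ r1 := fun n => by
    have : ((1:ℝ)/2) ^ n ≤ 1 := pow_le_one₀ (by norm_num) (by norm_num)
    simp only [hρ]; nlinarith
  choose p hp using fun n => h (ρ n) (hρ0 n) (hρ1 n)
  have hρs : ∀ n, ρ (n+1) = ρ n / 2 := fun n => by simp only [hρ, pow_succ]; ring
  have hρa : ∀ n, ρ n ^ a = r1 ^ a * q ^ n := fun n => by
    simp only [hρ]
    rw [Real.mul_rpow hr1.le (by positivity), hq, ← Real.rpow_natCast ((1/2 : ℝ) ^ a),
      ← Real.rpow_mul (by norm_num), ← Real.rpow_natCast, ← Real.rpow_mul (by norm_num)]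
    congr 2; ring
  have hdiff : ∀ n, dist (p n) (p (n+1)) ≤ 4 * C * r1 ^ a * q ^ n := by
    intro n
    rw [dist_eq_norm]
    have hle : ρ (n+1) ≤ ρ n := by rw [hρs]; linarith [hρ0 n]
    have hd := slope_diff (u := u) (hρ0 (n+1)) (fun x hx => hp n x (hx.trans hle)) (hp (n+1))
    have hmono : ρ (n+1) ^ (1+a) ≤ ρ n ^ (1+a) :=
      Real.rpow_le_rpow (hρ0 _).le hle (by linarith)
    calc ‖p n - p (n+1)‖ ≤ _ := hd
      _ ≤ (2 * C * ρ n ^ (1+a)) / (ρ n / 2) := by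
          rw [hρs]
          apply div_le_div_of_nonneg_right _ (by linarith [hρ0 n])
          rw [← hρs]
          nlinarith [mul_le_mul_of_nonneg_left hmono hC]
      _ = 4 * C * ρ n ^ a := by
          rw [Real.rpow_add (hρ0 n), Real.rpow_one]
          have := (hρ0 n).ne'
          field_simp
          ring
      _ = _ := by rw [hρa]; ring
  have hcau : CauchySeq p := cauchySeq_of_le_geometric q (4 * C * r1 ^ a) hq1 hdiff
  obtain ⟨P, hP⟩ := cauchySeq_tendsto_of_complete hcau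
  have hdist : ∀ n, ‖p n - P‖ ≤ 4 * C * ρ n ^ a / (1 - q) := by
    intro n
    have := dist_le_of_le_geometric_of_tendsto q (4 * C * r1 ^ a) hq1 hdiff hP n
    rw [dist_eq_norm] at this
    calc ‖p n - P‖ ≤ _ := this
      _ = _ := by rw [hρa]; ring
  refine ⟨P, fun x hx => ?_⟩
  by_cases hx0 : x = 0
  · subst hx0
    simp only [sub_self, inner_zero_right, abs_zero, norm_zero]
    positivity
  have hxn : 0 < ‖x‖ := norm_pos_iff.2 hx0
  obtain ⟨n, hn1, hn2⟩ := exists_nat_pow_near_of_lt_one (x := ‖x‖ / r1) (y := (1:ℝ)/2)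
    (by positivity) ((div_le_one hr1).2 hx) (by norm_num) (by norm_num)
  have hxρ : ‖x‖ ≤ ρ n := by
    rw [div_le_iff₀ hr1] at hn2; simp only [hρ]; linarith
  have hρx : ρ n < 2 * ‖x‖ := by
    rw [lt_div_iff₀ hr1, pow_succ] at hn1
    simp only [hρ]; linarith
  have k1 : ρ n ^ (1+a) ≤ 4 * ‖x‖ ^ (1+a) := by
    calc ρ n ^ (1+a) ≤ (2 * ‖x‖) ^ (1+a) := Real.rpow_le_rpow (hρ0 n).le hρx.le (by linarith)
      _ = 2 ^ (1+a) * ‖x‖ ^ (1+a) := Real.mul_rpow (by norm_num) hxn.le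
      _ ≤ 4 * ‖x‖ ^ (1+a) := by
          apply mul_le_mul_of_nonneg_right _ (by positivity)
          calc (2:ℝ) ^ (1+a) ≤ 2 ^ (2:ℝ) :=
                Real.rpow_le_rpow_of_exponent_le (by norm_num) (by linarith)
            _ = 4 := by norm_num
  have k2 : ρ n ^ a ≤ 2 * ‖x‖ ^ a := by
    calc ρ n ^ a ≤ (2 * ‖x‖) ^ a := Real.rpow_le_rpow (hρ0 n).le hρx.le ha.le
      _ = 2 ^ a * ‖x‖ ^ a := Real.mul_rpow (by norm_num) hxn.le
      _ ≤ 2 * ‖x‖ ^ a := by
          apply mul_le_mul_of_nonneg_right _ (by positivity)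
          calc (2:ℝ) ^ a ≤ 2 ^ (1:ℝ) :=
                Real.rpow_le_rpow_of_exponent_le (by norm_num) ha1
            _ = 2 := Real.rpow_one 2
  have hsplit : u x - u 0 - inner ℝ P x = (u x - u 0 - inner ℝ (p n) x) + inner ℝ (p n - P) x := by
    rw [inner_sub_left]; ring
  calc |u x - u 0 - inner ℝ P x| ≤ |u x - u 0 - inner ℝ (p n) x| + |inner ℝ (p n - P) x| := by
        rw [hsplit]; exact abs_add_le _ _
    _ ≤ C * ρ n ^ (1+a) + ‖p n - P‖ * ‖x‖ :=
        add_le_add (hp n x hxρ) (abs_real_inner_le_norm _ _)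
    _ ≤ C * (4 * ‖x‖ ^ (1+a)) + (4 * C * (2 * ‖x‖ ^ a) / (1 - q)) * ‖x‖ := by
        apply add_le_add (mul_le_mul_of_nonneg_left k1 hC)
        apply mul_le_mul_of_nonneg_right _ hxn.le
        refine (hdist n).trans ?_
        apply div_le_div_of_nonneg_right _ h1q.le
        exact mul_le_mul_of_nonneg_left k2 (by positivity)
    _ = _ := by
        rw [show ‖x‖ ^ (1+a) = ‖x‖ * ‖x‖ ^ a by rw [Real.rpow_add hxn, Real.rpow_one]]
        ring

/-- The function `u` is `η`-flat at `x0` in a box of time-length `τ` and space-radius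
`sqrt (η τ)`, moving with the slope. -/
def FU (u : V → ℝ) (x0 : V) (τ η : ℝ) : Prop :=
  ∃ (p : V) (b : ℝ), ∀ (x : V) (t : ℝ), |t| ≤ τ → ‖x‖ ^ 2 ≤ η * τ →
    |u (x0 + t • p + x) - u x0 - inner ℝ p x - b * t| ≤ η

theorem expansion [CompleteSpace V] {a C τ1 : ℝ} (ha : 0 < a) (hC : 0 < C) (hτ1 : 0 < τ1) :
    ∃ α : ℝ, 0 < α ∧ α ≤ 1 ∧ ∃ C' : ℝ, 0 ≤ C' ∧ ∃ r1 : ℝ, 0 < r1 ∧ ∀ u : V → ℝ,
      (∀ τ, 0 < τ → τ ≤ τ1 → FU u 0 τ (C * τ ^ (1 + a))) →
      ∃ p : V, ∀ x, ‖x‖ ≤ r1 → |u x - u 0 - inner ℝ p x| ≤ C' * ‖x‖ ^ (1 + α) := by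
  set α : ℝ := a / (2 + a) with hα
  have h2a : 0 < 2 + a := by linarith
  have hα0 : 0 < α := by positivity
  have hα1 : α ≤ 1 := by rw [hα, div_le_one h2a]; linarith
  set E : ℝ := C ^ (1 / (2 + a)) with hE
  have hE0 : 0 < E := by positivity
  refine ⟨α, hα0, hα1, 4 * E + 8 * E / (1 - (1/2) ^ α), ?_, τ1 ^ ((2 + a)/2) * C ^ ((1:ℝ)/2),
    by positivity, ?_⟩
  · have : (1/2 : ℝ) ^ α < 1 := Real.rpow_lt_one (by norm_num) (by norm_num) hα0
    have : 0 < 1 - (1/2 : ℝ) ^ α := by linarith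
    positivity
  intro u hu
  apply campanato hα0 hα1 hE0.le (by positivity)
  intro r hr0 hr1
  -- the scale
  set τ : ℝ := r ^ (2 / (2 + a)) * C ^ (-(1 / (2 + a))) with hτ
  have hτ0 : 0 < τ := by positivity
  have hττ1 : τ ≤ τ1 := by
    have : r ^ (2 / (2 + a)) ≤ τ1 * C ^ (1 / (2 + a)) := by
      calc r ^ (2 / (2 + a)) ≤ (τ1 ^ ((2 + a)/2) * C ^ ((1:ℝ)/2)) ^ (2 / (2 + a)) :=
            Real.rpow_le_rpow hr0.le hr1 (by positivity)
        _ = τ1 * C ^ (1 / (2 + a)) := by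
            rw [Real.mul_rpow (by positivity) (by positivity), ← Real.rpow_mul hτ1.le,
              ← Real.rpow_mul hC.le]
            congr 1
            · rw [show (2 + a) / 2 * (2 / (2 + a)) = 1 by field_simp]; exact Real.rpow_one _
            · congr 1; field_simp
    calc τ ≤ (τ1 * C ^ (1 / (2 + a))) * C ^ (-(1 / (2 + a))) :=
          mul_le_mul_of_nonneg_right this (by positivity)
      _ = τ1 := by
          rw [mul_assoc, ← Real.rpow_add hC]; simp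
  -- powers
  have hητ : C * τ ^ (1 + a) * τ = r ^ 2 := by
    have e1 : τ ^ (1 + a) * τ = τ ^ (2 + a) := by
      rw [show (2:ℝ) + a = (1 + a) + 1 by ring, Real.rpow_add hτ0 (1 + a) 1, Real.rpow_one]
    rw [mul_assoc, e1, hτ, Real.mul_rpow (by positivity) (by positivity), ← Real.rpow_mul hr0.le,
      ← Real.rpow_mul hC.le]
    rw [show 2 / (2 + a) * (2 + a) = 2 by field_simp,
      show -(1 / (2 + a)) * (2 + a) = -1 by field_simp, Real.rpow_neg_one]
    rw [show r ^ (2:ℝ) = r ^ 2 from Real.rpow_two r]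
    field_simp
  have hη : C * τ ^ (1 + a) = E * r ^ (1 + α) := by
    have h1 : C * τ ^ (1 + a) = r ^ 2 / τ := by
      rw [eq_div_iff hτ0.ne']; exact hητ
    rw [h1, hτ, hE, hα, div_eq_iff (by positivity), ← Real.rpow_two]
    have h3 : C ^ (1 / (2 + a)) * C ^ (-(1 / (2 + a))) = 1 := by
      rw [← Real.rpow_add hC]; simp
    have h4 : r ^ (1 + a / (2 + a)) * r ^ (2 / (2 + a)) = r ^ (2:ℝ) := by
      rw [← Real.rpow_add hr0]; congr 1; field_simp; ring
    calc r ^ (2:ℝ) = (r ^ (1 + a / (2 + a)) * r ^ (2 / (2 + a))) *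
          (C ^ (1 / (2 + a)) * C ^ (-(1 / (2 + a)))) := by rw [h4, h3, mul_one]
      _ = _ := by ring
  obtain ⟨p, b, hpb⟩ := hu τ hτ0 hττ1
  refine ⟨p, fun x hx => ?_⟩
  have := hpb x 0 (by simpa using hτ0.le) (by
    rw [hητ]; exact pow_le_pow_left₀ (norm_nonneg _) hx 2)
  rw [zero_smul, add_zero, zero_add, mul_zero, sub_zero, hη] at this
  exact this

end Crest.Agent.R094.S2
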