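/-
Row 94, Section 2: flat boxes, comparison of slopes, multi-scale growth.
-/
import Mathlib

set_option autoImplicit false

namespace Crest.Agent.R094.S2

open Real

variable {V : Type*} [NormedAddCommGroup V] [InnerProductSpace ℝ V]

/-- `w` is `η`-close to an affine function of slope `(p,b)` on the box of size `τ` moving with
velocity `p`, centred at `(x0,t0)`. -/
def FB (w : V → ℝ → ℝ) (x0 : V) (t0 : ℝ) (p : V) (b τ η : ℝ) : Prop :=
  ∀ (x : V) (t : ℝ), |t| ≤ τ → ‖x‖ ≤ τ →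
    |w (x0 + t • p + x) (t0 + t) - w x0 t0 - inner ℝ p x - b * t| ≤ η

lemma FB.mono {w : V → ℝ → ℝ} {x0 : V} {t0 : ℝ} {p : V} {b τ η τ' η' : ℝ}
    (h : FB w x0 t0 p b τ η) (hτ : τ' ≤ τ) (hη : η ≤ η') : FB w x0 t0 p b τ' η' :=
  fun x t ht hx => (h x t (ht.trans hτ) (hx.trans hτ)).trans hη

lemma FB.nonneg {w : V → ℝ → ℝ} {x0 : V} {t0 : ℝ} {p : V} {b τ η : ℝ}
    (h : FB w x0 t0 p b τ η) (hτ : 0 ≤ τ) : 0 ≤ η := by
  have := h 0 0 (by simpa using hτ) (by simpa using hτ)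
  exact (abs_nonneg _).trans this

lemma FB.compare_p {w : V → ℝ → ℝ} {x0 : V} {t0 : ℝ} {p p' : V} {b b' τ τ' η η' : ℝ}
    (h : FB w x0 t0 p b τ η) (h' : FB w x0 t0 p' b' τ' η') (hτ : 0 < τ) (hττ : τ ≤ τ') :
    ‖p - p'‖ ≤ (η + η') / τ := by
  rw [le_div_iff₀ hτ]
  by_cases hpp : p - p' = 0
  · rw [hpp, norm_zero, zero_mul]
    exact add_nonneg (h.nonneg hτ.le) (h'.nonneg (hτ.le.trans hττ))
  · have hn : 0 < ‖p - p'‖ := norm_pos_iff.2 hpp
    set x : V := (τ / ‖p - p'‖) • (p - p') with hx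
    have hxn : ‖x‖ = τ := by
      rw [hx, norm_smul, Real.norm_of_nonneg (by positivity)]
      field_simp
    have e1 := h x 0 (by simpa using hτ.le) hxn.le
    have e2 := h' x 0 (by simpa using hτ.le.trans hττ) (hxn.le.trans hττ)
    simp only [zero_smul, add_zero, mul_zero, sub_zero] at e1 e2
    have hi : inner ℝ (p - p') x = ‖p - p'‖ * τ := by
      rw [hx, inner_smul_right, real_inner_self_eq_norm_sq]
      field_simp
    have hi2 : inner ℝ (p - p') x = inner ℝ p x - inner ℝ p' x := inner_sub_left _ _ _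
    rw [abs_le] at e1 e2
    nlinarith [e1.1, e1.2, e2.1, e2.2]

/-- the "Hamiltonian" `b - |p|^2/2` of a slope. -/
noncomputable def ham (p : V) (b : ℝ) : ℝ := b - ‖p‖ ^ 2 / 2

lemma FB.compare_h {w : V → ℝ → ℝ} {x0 : V} {t0 : ℝ} {p p' : V} {b b' τ τ' η η' : ℝ}
    (h : FB w x0 t0 p b τ η) (h' : FB w x0 t0 p' b' τ' η') (hτ : 0 < τ) (hττ : τ ≤ τ') :
    |ham p b - ham p' b'| ≤
      ‖p - p'‖ ^ 2 / 2 + (η + η') / τ * (1 + ‖p - p'‖) := by
  set m : ℝ := ‖p - p'‖ with hm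
  have hm0 : 0 ≤ m := norm_nonneg _
  set t : ℝ := τ / (1 + m) with ht
  have ht0 : 0 < t := by positivity
  have htτ : t ≤ τ := div_le_self hτ.le (by linarith)
  have e1 := h 0 t (by rw [abs_of_pos ht0]; exact htτ) (by simpa using hτ.le)
  have hxn : ‖t • (p - p')‖ ≤ τ' := by
    rw [norm_smul, Real.norm_of_nonneg ht0.le, ← hm]
    calc t * m ≤ t * (1 + m) := by nlinarith
      _ = τ := by rw [ht]; field_simp
      _ ≤ τ' := hττ
  have e2 := h' (t • (p - p')) t (by rw [abs_of_pos ht0]; exact htτ.trans hττ) hxn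
  have hpt : x0 + t • p' + t • (p - p') = x0 + t • p + 0 := by
    rw [smul_sub]; abel
  rw [hpt] at e2
  rw [inner_zero_right] at e1
  rw [inner_smul_right] at e2
  have hid : ham p b - ham p' b' = (b - b' - inner ℝ p' (p - p')) - m ^ 2 / 2 := by
    have h1 : m ^ 2 = ‖p‖ ^ 2 - 2 * inner ℝ p p' + ‖p'‖ ^ 2 := by
      rw [hm]; exact norm_sub_sq_real p p'
    have h2 : inner ℝ p' (p - p') = inner ℝ p p' - ‖p'‖ ^ 2 := by
      rw [inner_sub_right, real_inner_self_eq_norm_sq, real_inner_comm]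
    unfold ham
    rw [h1, h2]; ring
  have hb : |b - b' - inner ℝ p' (p - p')| ≤ (η + η') / τ * (1 + m) := by
    have h3 : |t * (b - b' - inner ℝ p' (p - p'))| ≤ η + η' := by
      rw [abs_le] at e1 e2 ⊢
      constructor <;> nlinarith [e1.1, e1.2, e2.1, e2.2]
    rw [abs_mul, abs_of_pos ht0] at h3
    have h4 : (η + η') / τ * (1 + m) = (η + η') / t := by
      rw [ht]; field_simp
    rw [h4, le_div_iff₀ ht0]
    linarith
  rw [hid]
  calc |b - b' - inner ℝ p' (p - p') - m ^ 2 / 2|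
      ≤ |b - b' - inner ℝ p' (p - p')| + |m ^ 2 / 2| := abs_sub _ _
    _ ≤ (η + η') / τ * (1 + m) + m ^ 2 / 2 := by
        apply add_le_add hb
        rw [abs_of_nonneg (by positivity)]
    _ = _ := by ring

/-! numerical facts -/

lemma half_rpow_eighth : ((1:ℝ)/2) ^ ((1:ℝ)/8) ≤ 37/40 := by
  have h : ((1:ℝ)/2) ≤ ((37:ℝ)/40) ^ (8:ℕ) := by norm_num
  calc ((1:ℝ)/2) ^ ((1:ℝ)/8) ≤ (((37:ℝ)/40) ^ (8:ℕ)) ^ ((1:ℝ)/8) :=
        Real.rpow_le_rpow (by norm_num) h (by norm_num)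
    _ = 37/40 := by
        rw [← Real.rpow_natCast, ← Real.rpow_mul (by norm_num)]
        norm_num

lemma half_rpow_quarter : ((1:ℝ)/2) ^ ((1:ℝ)/4) ≤ 17/20 := by
  have h : ((1:ℝ)/2) ≤ ((17:ℝ)/20) ^ (4:ℕ) := by norm_num
  calc ((1:ℝ)/2) ^ ((1:ℝ)/4) ≤ (((17:ℝ)/20) ^ (4:ℕ)) ^ ((1:ℝ)/4) :=
        Real.rpow_le_rpow (by norm_num) h (by norm_num)
    _ = 17/20 := by
        rw [← Real.rpow_natCast, ← Real.rpow_mul (by norm_num)]
        norm_num

lemma rpow_nine_eighths {s : ℝ} (hs : 0 < s) : s ^ ((9:ℝ)/8) = s * s ^ ((1:ℝ)/8) := by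
  rw [show ((9:ℝ)/8) = 1 + 1/8 by norm_num, Real.rpow_add hs, Real.rpow_one]

lemma rpow_quarter {s : ℝ} (hs : 0 < s) : s ^ ((1:ℝ)/4) = s ^ ((1:ℝ)/8) * s ^ ((1:ℝ)/8) := by
  rw [← Real.rpow_add hs]; norm_num

/-- constants -/
noncomputable def c1 (A : ℝ) : ℝ := 50 * A
noncomputable def c2 (A : ℝ) : ℝ := 24 * A + 144 * A ^ 2

/-- Drift of slopes along scales. -/
lemma drift {w : V → ℝ → ℝ} {x0 : V} {t0 : ℝ} {P : ℝ → V} {B : ℝ → ℝ} {τ A Λ : ℝ}
    (hτ : 0 < τ) (hA : 0 ≤ A)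
    (h : ∀ s, 1 ≤ s → s ≤ Λ → FB w x0 t0 (P s) (B s) (s * τ) (A * τ * s ^ ((9:ℝ)/8))) (n : ℕ) :
    ∀ s, 1 ≤ s → s ≤ Λ → s ≤ 2 ^ n →
      ‖P s - P 1‖ ≤ c1 A * s ^ ((1:ℝ)/8) ∧
      |ham (P s) (B s) - ham (P 1) (B 1)| ≤ c2 A * s ^ ((1:ℝ)/4) := by
  -- basic comparison of `s` and `s'` with `s ≤ s' ≤ 2 s`
  have comp : ∀ s s', 1 ≤ s → s ≤ s' → s' ≤ 2 * s → s' ≤ Λ →
      ‖P s' - P s‖ ≤ 4 * A * s ^ ((1:ℝ)/8) ∧
      |ham (P s') (B s') - ham (P s) (B s)| ≤ 4 * A * s ^ ((1:ℝ)/8) + 24 * A ^ 2 * s ^ ((1:ℝ)/4) := by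
    intro s s' hs hss' hs'2 hs'Λ
    have hs0 : 0 < s := by linarith
    have hs'0 : 0 < s' := by linarith
    have F := h s hs (hss'.trans hs'Λ)
    have F' := h s' (hs.trans hss') hs'Λ
    have hsτ : 0 < s * τ := by positivity
    have hle : s * τ ≤ s' * τ := by nlinarith
    have cp := F.compare_p F' hsτ hle
    have ch := F.compare_h F' hsτ hle
    -- bound of delta
    have hx0 : 0 ≤ s ^ ((1:ℝ)/8) := by positivity
    have hs'18 : s' ^ ((1:ℝ)/8) ≤ 5/4 * s ^ ((1:ℝ)/8) := by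
      calc s' ^ ((1:ℝ)/8) ≤ (2 * s) ^ ((1:ℝ)/8) := Real.rpow_le_rpow hs'0.le hs'2 (by norm_num)
        _ = 2 ^ ((1:ℝ)/8) * s ^ ((1:ℝ)/8) := Real.mul_rpow (by norm_num) hs0.le
        _ ≤ 5/4 * s ^ ((1:ℝ)/8) := by
            apply mul_le_mul_of_nonneg_right _ hx0
            have h2 : (2:ℝ) ≤ ((5:ℝ)/4) ^ (8:ℕ) := by norm_num
            calc (2:ℝ) ^ ((1:ℝ)/8) ≤ (((5:ℝ)/4) ^ (8:ℕ)) ^ ((1:ℝ)/8) :=
                  Real.rpow_le_rpow (by norm_num) h2 (by norm_num)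
              _ = 5/4 := by
                  rw [← Real.rpow_natCast, ← Real.rpow_mul (by norm_num)]
                  norm_num
    have hδ : (A * τ * s ^ ((9:ℝ)/8) + A * τ * s' ^ ((9:ℝ)/8)) / (s * τ) ≤
        4 * A * s ^ ((1:ℝ)/8) := by
      rw [div_le_iff₀ hsτ, rpow_nine_eighths hs0, rpow_nine_eighths hs'0]
      have : s' * s' ^ ((1:ℝ)/8) ≤ (2 * s) * (5/4 * s ^ ((1:ℝ)/8)) :=
        mul_le_mul hs'2 hs'18 (by positivity) (by positivity)
      have hAt : 0 ≤ A * τ := by positivity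
      nlinarith [mul_le_mul_of_nonneg_left this hAt, mul_nonneg hAt (mul_nonneg hs0.le hx0)]
    have hP : ‖P s - P s'‖ ≤ 4 * A * s ^ ((1:ℝ)/8) := cp.trans hδ
    refine ⟨by rw [norm_sub_rev]; exact hP, ?_⟩
    rw [abs_sub_comm]
    have hn0 : 0 ≤ ‖P s - P s'‖ := norm_nonneg _
    have hδ0 : 0 ≤ (A * τ * s ^ ((9:ℝ)/8) + A * τ * s' ^ ((9:ℝ)/8)) / (s * τ) := by positivity
    calc |ham (P s) (B s) - ham (P s') (B s')| ≤ _ := ch
      _ ≤ (4 * A * s ^ ((1:ℝ)/8)) ^ 2 / 2 +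
            (4 * A * s ^ ((1:ℝ)/8)) * (1 + 4 * A * s ^ ((1:ℝ)/8)) := by
          have e1 : ‖P s - P s'‖ ^ 2 ≤ (4 * A * s ^ ((1:ℝ)/8)) ^ 2 :=
            pow_le_pow_left₀ hn0 hP 2
          have e2 : (A * τ * s ^ ((9:ℝ)/8) + A * τ * s' ^ ((9:ℝ)/8)) / (s * τ) *
              (1 + ‖P s - P s'‖) ≤ (4 * A * s ^ ((1:ℝ)/8)) * (1 + 4 * A * s ^ ((1:ℝ)/8)) := by
            apply mul_le_mul hδ (by linarith) (by positivity) (by positivity)
          linarith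
      _ = 4 * A * s ^ ((1:ℝ)/8) + 24 * A ^ 2 * s ^ ((1:ℝ)/4) := by
          rw [rpow_quarter hs0]; ring
  induction n with
  | zero =>
    intro s hs hsΛ hs1
    have : s = 1 := le_antisymm (by simpa using hs1) hs
    subst this
    simp only [sub_self, norm_zero, abs_zero]
    unfold c1 c2
    exact ⟨by positivity, by positivity⟩
  | succ n ih =>
    intro s hs hsΛ hsn
    have hs0 : 0 < s := by linarith
    have hx1 : 1 ≤ s ^ ((1:ℝ)/8) := Real.one_le_rpow hs (by norm_num)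
    have hy1 : 1 ≤ s ^ ((1:ℝ)/4) := Real.one_le_rpow hs (by norm_num)
    by_cases hs2 : s ≤ 2
    · obtain ⟨e1, e2⟩ := comp 1 s le_rfl hs (by linarith) hsΛ
      simp only [Real.one_rpow, mul_one] at e1 e2
      unfold c1 c2
      refine ⟨e1.trans (by nlinarith), e2.trans ?_⟩
      have : 4 * A + 24 * A ^ 2 ≤ 24 * A + 144 * A ^ 2 := by nlinarith [sq_nonneg A]
      calc 4 * A + 24 * A ^ 2 ≤ (24 * A + 144 * A ^ 2) * 1 := by linarith
        _ ≤ (24 * A + 144 * A ^ 2) * s ^ ((1:ℝ)/4) := by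
            apply mul_le_mul_of_nonneg_left hy1 (by positivity)
    · push Not at hs2
      obtain ⟨i1, i2⟩ := ih (s/2) (by linarith) (by linarith) (by rw [pow_succ] at hsn; linarith)
      obtain ⟨e1, e2⟩ := comp (s/2) s (by linarith) (by linarith) (by linarith) hsΛ
      have q1 : (s/2) ^ ((1:ℝ)/8) ≤ 37/40 * s ^ ((1:ℝ)/8) := by
        rw [show s/2 = (1/2) * s by ring, Real.mul_rpow (by norm_num) hs0.le]
        exact mul_le_mul_of_nonneg_right half_rpow_eighth (by positivity)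
      have q2 : (s/2) ^ ((1:ℝ)/4) ≤ 17/20 * s ^ ((1:ℝ)/4) := by
        rw [show s/2 = (1/2) * s by ring, Real.mul_rpow (by norm_num) hs0.le]
        exact mul_le_mul_of_nonneg_right half_rpow_quarter (by positivity)
      have hxy : s ^ ((1:ℝ)/8) ≤ s ^ ((1:ℝ)/4) :=
        Real.rpow_le_rpow_of_exponent_le hs (by norm_num)
      have hX0 : 0 ≤ s ^ ((1:ℝ)/8) := by positivity
      have hY0 : 0 ≤ s ^ ((1:ℝ)/4) := by positivity
      unfold c1 c2 at *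
      constructor
      · have hAX : 0 ≤ A * s ^ ((1:ℝ)/8) := by positivity
        calc ‖P s - P 1‖ ≤ ‖P s - P (s/2)‖ + ‖P (s/2) - P 1‖ := norm_sub_le_norm_sub_add_norm_sub _ _ _
          _ ≤ 4 * A * (s/2) ^ ((1:ℝ)/8) + 50 * A * (s/2) ^ ((1:ℝ)/8) := add_le_add e1 i1
          _ = 54 * A * (s/2) ^ ((1:ℝ)/8) := by ring
          _ ≤ 54 * A * (37/40 * s ^ ((1:ℝ)/8)) := by
              apply mul_le_mul_of_nonneg_left q1 (by positivity)
          _ = 999/20 * (A * s ^ ((1:ℝ)/8)) := by ring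
          _ ≤ 50 * (A * s ^ ((1:ℝ)/8)) := by nlinarith
          _ = 50 * A * s ^ ((1:ℝ)/8) := by ring
      · have hZ : (s/2) ^ ((1:ℝ)/8) ≤ (s/2) ^ ((1:ℝ)/4) :=
          Real.rpow_le_rpow_of_exponent_le (by linarith) (by norm_num)
        have hB0 : 0 ≤ 4 * A + 24 * A ^ 2 := by positivity
        calc |ham (P s) (B s) - ham (P 1) (B 1)|
            ≤ |ham (P s) (B s) - ham (P (s/2)) (B (s/2))| +
              |ham (P (s/2)) (B (s/2)) - ham (P 1) (B 1)| := abs_sub_le _ _ _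
          _ ≤ (4 * A * (s/2) ^ ((1:ℝ)/8) + 24 * A ^ 2 * (s/2) ^ ((1:ℝ)/4)) +
              (24 * A + 144 * A ^ 2) * (s/2) ^ ((1:ℝ)/4) := add_le_add e2 i2
          _ ≤ (4 * A * (s/2) ^ ((1:ℝ)/4) + 24 * A ^ 2 * (s/2) ^ ((1:ℝ)/4)) +
              (24 * A + 144 * A ^ 2) * (s/2) ^ ((1:ℝ)/4) := by
              have := mul_le_mul_of_nonneg_left hZ (by positivity : (0:ℝ) ≤ 4 * A)
              linarith
          _ = 7 * (4 * A + 24 * A ^ 2) * (s/2) ^ ((1:ℝ)/4) := by ring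
          _ ≤ 7 * (4 * A + 24 * A ^ 2) * (17/20 * s ^ ((1:ℝ)/4)) := by
              apply mul_le_mul_of_nonneg_left q2 (by positivity)
          _ = 119/20 * ((4 * A + 24 * A ^ 2) * s ^ ((1:ℝ)/4)) := by ring
          _ ≤ 6 * ((4 * A + 24 * A ^ 2) * s ^ ((1:ℝ)/4)) := by
              have : 0 ≤ (4 * A + 24 * A ^ 2) * s ^ ((1:ℝ)/4) := by positivity
              nlinarith
          _ = (24 * A + 144 * A ^ 2) * s ^ ((1:ℝ)/4) := by ring

/-- growth constant -/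
noncomputable def cD (A : ℝ) : ℝ := 1 + c1 A
noncomputable def cK (A : ℝ) : ℝ := (c1 A + c2 A + c1 A ^ 2 / 2 + A) * cD A ^ ((3:ℝ)/2)

/-- Multi-scale growth: closeness to the affine function found at the base scale `τ`. -/
theorem growth {w : V → ℝ → ℝ} {x0 : V} {t0 : ℝ} {P : ℝ → V} {B : ℝ → ℝ} {τ A Λ : ℝ}
    (hτ : 0 < τ) (hA : 0 ≤ A)
    (h : ∀ s, 1 ≤ s → s ≤ Λ → FB w x0 t0 (P s) (B s) (s * τ) (A * τ * s ^ ((9:ℝ)/8)))
    {x : V} {t r : ℝ} (hr0 : 0 ≤ r) (hr : ‖x‖ + |t| ≤ r * τ)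
    (hΛ : (cD A * (1 + r)) ^ ((8:ℝ)/7) ≤ Λ) :
    |w (x0 + t • P 1 + x) (t0 + t) - w x0 t0 - inner ℝ (P 1) x - B 1 * t| ≤
      cK A * τ * (1 + r) ^ ((3:ℝ)/2) := by
  have hc1 : 0 ≤ c1 A := by unfold c1; positivity
  have hc2 : 0 ≤ c2 A := by unfold c2; positivity
  have hD : 1 ≤ cD A := by unfold cD; linarith
  set q : ℝ := cD A * (1 + r) with hq
  have hq1 : 1 ≤ q := by nlinarith
  have hq0 : 0 < q := by linarith
  have hqr : r ≤ q := by nlinarith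
  set s : ℝ := q ^ ((8:ℝ)/7) with hs
  have hs1 : 1 ≤ s := Real.one_le_rpow hq1 (by norm_num)
  have hs0 : 0 < s := by linarith
  have hs78 : s ^ ((7:ℝ)/8) = q := by
    rw [hs, ← Real.rpow_mul hq0.le]; norm_num
  have hs98 : s ^ ((9:ℝ)/8) = q ^ ((9:ℝ)/7) := by
    rw [hs, ← Real.rpow_mul hq0.le]; norm_num
  have hqs : q ≤ s := by
    calc q = q ^ (1:ℝ) := (Real.rpow_one q).symm
      _ ≤ q ^ ((8:ℝ)/7) := Real.rpow_le_rpow_of_exponent_le hq1 (by norm_num)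
  obtain ⟨n, hn⟩ := pow_unbounded_of_one_lt s (one_lt_two : (1:ℝ) < 2)
  obtain ⟨dP, dH⟩ := drift hτ hA h n s hs1 hΛ hn.le
  have hF := h s hs1 hΛ
  have hx : ‖x‖ ≤ r * τ := by linarith [abs_nonneg t]
  have ht : |t| ≤ r * τ := by linarith [norm_nonneg x]
  set X : ℝ := s ^ ((1:ℝ)/8) with hX
  have hX1 : 1 ≤ X := Real.one_le_rpow hs1 (by norm_num)
  have hsX : q * X = s := by
    rw [← hs78, hX, ← Real.rpow_add hs0]; norm_num
  have hsXX : s * X = s ^ ((9:ℝ)/8) := (rpow_nine_eighths hs0).symm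
  -- the moved point
  set x' : V := x + t • (P 1 - P s) with hx'
  have hx'n : ‖x'‖ ≤ s * τ := by
    calc ‖x'‖ ≤ ‖x‖ + ‖t • (P 1 - P s)‖ := norm_add_le _ _
      _ = ‖x‖ + |t| * ‖P s - P 1‖ := by rw [norm_smul, Real.norm_eq_abs, norm_sub_rev]
      _ ≤ r * τ + (r * τ) * (c1 A * X) := by
          apply add_le_add hx
          exact mul_le_mul ht dP (norm_nonneg _) (by positivity)
      _ ≤ (r * τ) * X + (r * τ) * (c1 A * X) := by
          have : r * τ * 1 ≤ r * τ * X := mul_le_mul_of_nonneg_left hX1 (by positivity)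
          linarith
      _ = r * (cD A) * X * τ := by unfold cD; ring
      _ ≤ q * X * τ := by
          have : r * cD A ≤ q := by rw [hq]; nlinarith
          apply mul_le_mul_of_nonneg_right _ hτ.le
          exact mul_le_mul_of_nonneg_right this (by linarith)
      _ = s * τ := by rw [hsX]
  have htn : |t| ≤ s * τ := ht.trans (mul_le_mul_of_nonneg_right (hqr.trans hqs) hτ.le)
  have e := hF x' t htn hx'n
  have hpt : x0 + t • P s + x' = x0 + t • P 1 + x := by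
    rw [hx', smul_sub]; abel
  rw [hpt] at e
  -- algebra
  have hid : inner ℝ (P s) x' + B s * t - (inner ℝ (P 1) x + B 1 * t) =
      inner ℝ (P s - P 1) x +
        t * (ham (P s) (B s) - ham (P 1) (B 1) - ‖P s - P 1‖ ^ 2 / 2) := by
    have h1 : ‖P s - P 1‖ ^ 2 = ‖P s‖ ^ 2 - 2 * inner ℝ (P s) (P 1) + ‖P 1‖ ^ 2 :=
      norm_sub_sq_real _ _
    rw [hx', inner_add_right, inner_smul_right, inner_sub_right, real_inner_self_eq_norm_sq,
      inner_sub_left, h1]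
    unfold ham; ring
  have hbd1 : |inner ℝ (P s - P 1) x| ≤ c1 A * X * (r * τ) := by
    calc |inner ℝ (P s - P 1) x| ≤ ‖P s - P 1‖ * ‖x‖ := abs_real_inner_le_norm _ _
      _ ≤ _ := mul_le_mul dP hx (norm_nonneg _) (by positivity)
  have hbd2 : |t * (ham (P s) (B s) - ham (P 1) (B 1) - ‖P s - P 1‖ ^ 2 / 2)| ≤
      (r * τ) * (c2 A * (X * X) + (c1 A * X) ^ 2 / 2) := by
    rw [abs_mul]
    apply mul_le_mul ht _ (abs_nonneg _) (by positivity)
    calc |ham (P s) (B s) - ham (P 1) (B 1) - ‖P s - P 1‖ ^ 2 / 2|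
        ≤ |ham (P s) (B s) - ham (P 1) (B 1)| + |‖P s - P 1‖ ^ 2 / 2| := abs_sub _ _
      _ ≤ c2 A * (X * X) + (c1 A * X) ^ 2 / 2 := by
          apply add_le_add
          · rw [rpow_quarter hs0] at dH; exact dH
          · rw [abs_of_nonneg (by positivity)]
            have := pow_le_pow_left₀ (norm_nonneg _) dP 2
            linarith
  have hrX : r * X ≤ s := by
    calc r * X ≤ q * X := mul_le_mul_of_nonneg_right hqr (by linarith)
      _ = s := hsX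
  have hs_le : s ≤ s * X := by nlinarith
  have hfin : |w (x0 + t • P 1 + x) (t0 + t) - w x0 t0 - inner ℝ (P 1) x - B 1 * t| ≤
      (c1 A + c2 A + c1 A ^ 2 / 2 + A) * τ * (s * X) := by
    have hsplit : w (x0 + t • P 1 + x) (t0 + t) - w x0 t0 - inner ℝ (P 1) x - B 1 * t =
        (w (x0 + t • P 1 + x) (t0 + t) - w x0 t0 - inner ℝ (P s) x' - B s * t) +
        (inner ℝ (P s - P 1) x +
        t * (ham (P s) (B s) - ham (P 1) (B 1) - ‖P s - P 1‖ ^ 2 / 2)) := by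
      rw [← hid]; ring
    rw [hsplit]
    have hτr : 0 ≤ τ := hτ.le
    have k1 : c1 A * X * (r * τ) ≤ c1 A * τ * (s * X) := by
      have : c1 A * τ * (r * X) ≤ c1 A * τ * (s * X) :=
        mul_le_mul_of_nonneg_left (hrX.trans hs_le) (by positivity)
      calc _ = c1 A * τ * (r * X) := by ring
        _ ≤ _ := this
    have k2 : (r * τ) * (c2 A * (X * X) + (c1 A * X) ^ 2 / 2) ≤ (c2 A + c1 A ^ 2 / 2) * τ * (s * X) := by
      have : (c2 A + c1 A ^ 2 / 2) * τ * (r * X * X) ≤ (c2 A + c1 A ^ 2 / 2) * τ * (s * X) :=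
        mul_le_mul_of_nonneg_left (mul_le_mul_of_nonneg_right hrX (by linarith)) (by positivity)
      calc _ = (c2 A + c1 A ^ 2 / 2) * τ * (r * X * X) := by ring
        _ ≤ _ := this
    calc _ ≤ |w (x0 + t • P 1 + x) (t0 + t) - w x0 t0 - inner ℝ (P s) x' - B s * t| +
          |inner ℝ (P s - P 1) x +
            t * (ham (P s) (B s) - ham (P 1) (B 1) - ‖P s - P 1‖ ^ 2 / 2)| := abs_add_le _ _
      _ ≤ A * τ * (s * X) + (c1 A * X * (r * τ) + (r * τ) * (c2 A * (X * X) + (c1 A * X) ^ 2 / 2)) := by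
          apply add_le_add
          · rw [hsXX]; exact e
          · exact (abs_add_le _ _).trans (add_le_add hbd1 hbd2)
      _ ≤ A * τ * (s * X) + (c1 A * τ * (s * X) + (c2 A + c1 A ^ 2 / 2) * τ * (s * X)) := by
          linarith
      _ = _ := by ring
  refine hfin.trans ?_
  have hq32 : s * X ≤ cD A ^ ((3:ℝ)/2) * (1 + r) ^ ((3:ℝ)/2) := by
    rw [hsXX, hs98, ← Real.mul_rpow (by linarith) (by linarith), ← hq]
    exact Real.rpow_le_rpow_of_exponent_le hq1 (by norm_num)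
  unfold cK
  have hC : 0 ≤ (c1 A + c2 A + c1 A ^ 2 / 2 + A) * τ := by positivity
  calc (c1 A + c2 A + c1 A ^ 2 / 2 + A) * τ * (s * X)
      ≤ (c1 A + c2 A + c1 A ^ 2 / 2 + A) * τ * (cD A ^ ((3:ℝ)/2) * (1 + r) ^ ((3:ℝ)/2)) :=
        mul_le_mul_of_nonneg_left hq32 hC
    _ = _ := by ring

end Crest.Agent.R094.S2
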