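import Crest.Agent.R094.Cones

/-!
Row 94: static infinity-harmonic functions, their boosts and rescalings satisfy the convexity
inequality `(Sub)` exactly (pointwise, local form).
-/

set_option autoImplicit false
open scoped Topology RealInnerProductSpace
open Set Filter Metric

namespace Crest.Agent.R094.Cones

variable {ι : Type*} [Fintype ι]

local notation "E" => EuclideanSpace ℝ ι

theorem sub_static {u : E → ℝ} {Ω : Set E} (hu : CC u Ω) {x y : E} {s s' : ℝ} (hs : 0 < s)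
    (hss : s ≤ s') (h : closedBall x (s' / s * ‖y - x‖) ⊆ Ω) :
    ∃ y' ∈ closedBall x (s' / s * ‖y - x‖),
      u y - ‖y - x‖ ^ 2 / (2 * s)
        ≤ (1 - s / s') * u x + s / s' * (u y' - ‖y' - x‖ ^ 2 / (2 * s')) := by
  have hs' : 0 < s' := hs.trans_le hss
  by_cases hyx : y = x
  · subst hyx
    refine ⟨y, by simp, ?_⟩
    simp
    nlinarith [show (1 - s / s') * u y + s / s' * u y = u y by ring]
  set r := ‖y - x‖ with hr
  have hr0 : 0 < r := norm_pos_iff.2 (sub_ne_zero.2 hyx)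
  set R := s' / s * r with hR
  have hR0 : 0 < R := by positivity
  have hrR : r ≤ R := by
    rw [hR]
    have : 1 ≤ s' / s := (one_le_div hs).2 hss
    nlinarith
  obtain ⟨y', hy', h1, _⟩ := Mx_exists hu.cont hR0.le h
  refine ⟨y', hy', ?_⟩
  have h2 := hu.slope_le hr0.le hrR hR0 h
  have h3 : u y ≤ Mx u x r := le_Mx hu.cont ((closedBall_subset_closedBall hrR).trans h)
    (by rw [mem_closedBall, dist_eq_norm])
  have hrr : r / R = s / s' := by
    rw [hR]; field_simp
  rw [hrr, ← h1] at h2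
  have h4 : ‖y' - x‖ ≤ R := by simpa [dist_eq_norm] using hy'
  have h5 : s / s' * (‖y' - x‖ ^ 2 / (2 * s')) ≤ r ^ 2 / (2 * s) := by
    calc s / s' * (‖y' - x‖ ^ 2 / (2 * s')) ≤ s / s' * (R ^ 2 / (2 * s')) := by gcongr
      _ = r ^ 2 / (2 * s) := by rw [hR]; field_simp
  have : (1 - s / s') * u x + s / s' * (u y' - ‖y' - x‖ ^ 2 / (2 * s'))
      = (1 - s / s') * u x + s / s' * u y' - s / s' * (‖y' - x‖ ^ 2 / (2 * s')) := by ring
  rw [this]
  linarith

/-- boosted, rescaled static function -/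
noncomputable def bst (u : E → ℝ) (x0 p : E) (σ τ η b : ℝ) (x : E) (t : ℝ) : ℝ :=
  (u (x0 + σ • x + (τ * t) • p) - u x0 - σ * ⟪p, x⟫ - τ * b * t) / η

theorem sub_boost {u : E → ℝ} {Ω : Set E} (hu : CC u Ω) {x0 p : E} {σ τ η b : ℝ} (hσ : 0 < σ)
    (hτ : 0 < τ) (hη : 0 < η) (hst : σ ^ 2 = η * τ) {x y : E} {t s s' : ℝ} (hs : 0 < s)
    (hss : s ≤ s')
    (h : closedBall (x0 + σ • x + (τ * t) • p) (s' / s * ‖σ • (y - x) + (τ * s) • p‖) ⊆ Ω) :
    ∃ y' : E, ‖σ • (y' - x) + (τ * s') • p‖ ≤ s' / s * ‖σ • (y - x) + (τ * s) • p‖ ∧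
      bst u x0 p σ τ η b y (t + s) - ‖y - x‖ ^ 2 / (2 * s)
        ≤ (1 - s / s') * bst u x0 p σ τ η b x t
          + s / s' * (bst u x0 p σ τ η b y' (t + s') - ‖y' - x‖ ^ 2 / (2 * s')) := by
  have hs' : 0 < s' := hs.trans_le hss
  set xh : E := x0 + σ • x + (τ * t) • p with hxh
  set yh : E := x0 + σ • y + (τ * (t + s)) • p with hyh
  have hyx : yh - xh = σ • (y - x) + (τ * s) • p := by
    rw [hxh, hyh, smul_sub, mul_add, add_smul]; abel
  have hsτ : τ * s' / (τ * s) = s' / s := by field_simp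
  have h' : closedBall xh (τ * s' / (τ * s) * ‖yh - xh‖) ⊆ Ω := by
    rw [hsτ, hyx]; exact h
  obtain ⟨z, hz, hineq⟩ := sub_static hu (by positivity : 0 < τ * s)
    (by gcongr : τ * s ≤ τ * s') h'
  -- the new point
  set y' : E := x + σ⁻¹ • (z - xh - (τ * s') • p) with hy'
  have hzy : σ • (y' - x) + (τ * s') • p = z - xh := by
    rw [hy', add_sub_cancel_left, smul_smul, mul_inv_cancel₀ hσ.ne', one_smul]; abel
  have hz2 : z = x0 + σ • y' + (τ * (t + s')) • p := by
    have : z = (σ • (y' - x) + (τ * s') • p) + xh := by rw [hzy]; abel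
    rw [this, hxh, smul_sub, mul_add, add_smul]; abel
  refine ⟨y', ?_, ?_⟩
  · rw [hzy, ← hyx, ← hsτ]
    simpa [dist_eq_norm] using hz
  · have expand : ∀ (v : E) (q : ℝ), 0 < q →
        ‖σ • v + (τ * q) • p‖ ^ 2 / (2 * (τ * q))
          = η * (‖v‖ ^ 2 / (2 * q)) + σ * ⟪p, v⟫ + τ * q * ‖p‖ ^ 2 / 2 := by
      intro v q hq
      rw [norm_add_sq_real, norm_smul, norm_smul, inner_smul_left, inner_smul_right,
        Real.norm_of_nonneg hσ.le, Real.norm_of_nonneg (by positivity : 0 ≤ τ * q), mul_pow, mul_pow,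
        hst, real_inner_comm]
      simp only [conj_trivial]
      field_simp
    have e1 := expand (y - x) s hs
    have e2 := expand (y' - x) s' hs'
    rw [hyx, e1, ← hzy, e2] at hineq
    have b1 : u yh = η * bst u x0 p σ τ η b y (t + s) + u x0 + σ * ⟪p, y⟫ + τ * b * (t + s) := by
      unfold bst; rw [← hyh]; field_simp; ring
    have b2 : u xh = η * bst u x0 p σ τ η b x t + u x0 + σ * ⟪p, x⟫ + τ * b * t := by
      unfold bst; rw [← hxh]; field_simp; ring
    have b3 : u z = η * bst u x0 p σ τ η b y' (t + s') + u x0 + σ * ⟪p, y'⟫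
        + τ * b * (t + s') := by
      unfold bst; rw [← hz2]; field_simp; ring
    have hq : τ * s / (τ * s') = s / s' := by field_simp
    rw [b1, b2, b3, hq, inner_sub_right, inner_sub_right] at hineq
    have hs1 : s / s' * s' = s := by field_simp
    set W1 := bst u x0 p σ τ η b y (t + s)
    set W2 := bst u x0 p σ τ η b x t
    set W3 := bst u x0 p σ τ η b y' (t + s')
    set q := s / s' with hqdef
    set N1 := ‖y - x‖ ^ 2 / (2 * s)
    set N3 := ‖y' - x‖ ^ 2 / (2 * s')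
    have hfin : η * (W1 - N1) ≤ η * ((1 - q) * W2 + q * (W3 - N3)) := by
      have hsq : s = q * s' := hs1.symm
      linear_combination hineq - (τ * b - τ * ‖p‖ ^ 2 / 2) * hsq
    exact le_of_mul_le_mul_left hfin hη

/-- mirror `(Sup)` version (backward in time, infimum). -/
theorem sup_boost {u : E → ℝ} {Ω : Set E} (hu : CC u Ω) {x0 p : E} {σ τ η b : ℝ} (hσ : 0 < σ)
    (hτ : 0 < τ) (hη : 0 < η) (hst : σ ^ 2 = η * τ) {x y : E} {t s s' : ℝ} (hs : 0 < s)
    (hss : s ≤ s')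
    (h : closedBall (x0 + σ • x + (τ * t) • p) (s' / s * ‖σ • (y - x) - (τ * s) • p‖) ⊆ Ω) :
    ∃ y' : E, ‖σ • (y' - x) - (τ * s') • p‖ ≤ s' / s * ‖σ • (y - x) - (τ * s) • p‖ ∧
      (1 - s / s') * bst u x0 p σ τ η b x t
          + s / s' * (bst u x0 p σ τ η b y' (t - s') + ‖y' - x‖ ^ 2 / (2 * s'))
        ≤ bst u x0 p σ τ η b y (t - s) + ‖y - x‖ ^ 2 / (2 * s) := by
  -- apply `sub_boost` to `-u`, with `p ↦ -p`, `t ↦ -t`, `b ↦ b`
  have key : ∀ (z : E) (r : ℝ),
      bst (fun v => - u v) x0 (-p) σ τ η b z (-r) = - bst u x0 p σ τ η b z r := by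
    intro z r
    unfold bst
    have e : x0 + σ • z + (τ * -r) • (-p) = x0 + σ • z + (τ * r) • p := by
      simp
    rw [e, inner_neg_left]
    ring
  have hc : x0 + σ • x + (τ * -t) • (-p) = x0 + σ • x + (τ * t) • p := by simp
  have hn : ∀ (z : E) (r : ℝ), σ • (z - x) + (τ * r) • (-p) = σ • (z - x) - (τ * r) • p := by
    intro z r; rw [smul_neg]; abel
  obtain ⟨y', h1, h2⟩ := sub_boost hu.neg (x0 := x0) (p := -p) (b := b) hσ hτ hη hst
    (x := x) (y := y) (t := -t) hs hss (by rw [hc, hn]; exact h)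
  rw [hn, hn] at h1
  refine ⟨y', h1, ?_⟩
  have k1 : -t + s = -(t - s) := by ring
  have k2 : -t + s' = -(t - s') := by ring
  rw [k1, k2, key, key, key] at h2
  linarith

end Crest.Agent.R094.Cones
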