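/-
Row 94, Section 2: admissible functions, boxes for boosted rescaled functions, the defect `NN`.
-/
import Crest.Agent.R094.StaticSub
import Crest.Agent.R094.S2Slope
import Crest.Agent.R094.S2Camp

set_option autoImplicit false

namespace Crest.Agent.R094.S2

open Crest.Agent.R094.Cones Filter Set Metric
open scoped Topology RealInnerProductSpace

variable {ι : Type*} [Fintype ι]

local notation "E" => EuclideanSpace ℝ ι

/-! ### boxes -/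

/-- The increment of the boosted rescaled function in a moving box. -/
lemma bst_incr (u : E → ℝ) (x0 p0 : E) {σ τ η : ℝ} (b0 : ℝ) (hη : η ≠ 0) (hτ : τ ≠ 0)
    (hst : σ ^ 2 = η * τ) (X : E) (T : ℝ) (p : E) (b : ℝ) (x : E) (t : ℝ) :
    bst u x0 p0 σ τ η b0 (X + t • p + x) (T + t) - bst u x0 p0 σ τ η b0 X T - ⟪p, x⟫ - b * t =
      (u ((x0 + σ • X + (τ * T) • p0) + (τ * t) • (p0 + (σ / τ) • p) + σ • x)
        - u (x0 + σ • X + (τ * T) • p0) - ⟪p0 + (σ / τ) • p, σ • x⟫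
        - (b0 + (σ / τ) * ⟪p0, p⟫ + b * η / τ) * (τ * t)) / η := by
  have hpt : x0 + σ • (X + t • p + x) + (τ * (T + t)) • p0 =
      (x0 + σ • X + (τ * T) • p0) + (τ * t) • (p0 + (σ / τ) • p) + σ • x := by
    have e1 : (τ * t) • ((σ / τ) • p) = σ • t • p := by
      rw [smul_smul, smul_smul]; congr 1; field_simp
    rw [smul_add (τ * t), e1, mul_add, add_smul, smul_add, smul_add]
    abel
  have hin : ⟪p0 + (σ / τ) • p, σ • x⟫ = σ * ⟪p0, x⟫ + η * ⟪p, x⟫ := by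
    rw [inner_add_left, inner_smul_right, inner_smul_right, real_inner_smul_left]
    have : σ * (σ / τ * ⟪p, x⟫) = η * ⟪p, x⟫ := by
      have h1 : σ * (σ / τ) = η := by
        rw [← mul_div_assoc, ← pow_two, hst]; field_simp
      rw [← mul_assoc, h1]
    rw [this]
  unfold bst
  rw [hpt, hin, inner_add_right, inner_add_right, inner_smul_right]
  rw [eq_div_iff hη]
  field_simp
  ring

/-- Boxes of `u` give boxes of the boosted rescaled function. -/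
lemma FB_of_FU {u : E → ℝ} {x0 p0 : E} {σ τ η : ℝ} (b0 : ℝ) (hσ : 0 < σ) (hτ : 0 < τ)
    (hη : 0 < η) (hst : σ ^ 2 = η * τ) {X : E} {T s ζ : ℝ} (hs : 0 < s) (hsζ : s ≤ ζ)
    (h : FU u (x0 + σ • X + (τ * T) • p0) (τ * s) (η * ζ)) :
    ∃ (p : E) (b : ℝ), FB (bst u x0 p0 σ τ η b0) X T p b s ζ := by
  obtain ⟨q, β, hq⟩ := h
  refine ⟨(τ / σ) • (q - p0), (τ / η) * (β - b0 - ⟪p0, q - p0⟫), fun x t ht hx => ?_⟩
  rw [bst_incr u x0 p0 b0 hη.ne' hτ.ne' hst, abs_div, abs_of_pos hη, div_le_iff₀ hη]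
  have e1 : p0 + (σ / τ) • (τ / σ) • (q - p0) = q := by
    rw [smul_smul]
    have : σ / τ * (τ / σ) = 1 := by field_simp
    rw [this, one_smul]; abel
  have e2 : b0 + σ / τ * ⟪p0, (τ / σ) • (q - p0)⟫ + τ / η * (β - b0 - ⟪p0, q - p0⟫) * η / τ = β := by
    rw [inner_smul_right]
    field_simp
    ring
  rw [e1, e2]
  have h1 : |τ * t| ≤ τ * s := by
    rw [abs_mul, abs_of_pos hτ]; exact mul_le_mul_of_nonneg_left ht hτ.le
  have h2 : ‖σ • x‖ ^ 2 ≤ η * ζ * (τ * s) := by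
    rw [norm_smul, Real.norm_of_nonneg hσ.le, mul_pow, hst]
    calc η * τ * ‖x‖ ^ 2 ≤ η * τ * (s * s) := by
          apply mul_le_mul_of_nonneg_left _ (by positivity)
          rw [← pow_two]
          exact pow_le_pow_left₀ (norm_nonneg _) hx 2
      _ ≤ η * τ * (ζ * s) := by gcongr
      _ = _ := by ring
  have := hq (σ • x) (τ * t) h1 h2
  rw [mul_comm ζ η]
  exact this

/-- Converse at the base point. -/
lemma FU_of_FB {u : E → ℝ} {x0 p0 : E} {σ τ η : ℝ} (b0 : ℝ) (hσ : 0 < σ) (hτ : 0 < τ)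
    (hη : 0 < η) (hst : σ ^ 2 = η * τ) {p : E} {b ν : ℝ} (hν : ν * τ ≤ η) (hν' : η / 2 ≤ ν * τ)
    (h : FB (bst u x0 p0 σ τ η b0) 0 0 p b 1 (1 / 2)) : FU u x0 τ (ν * τ) := by
  refine ⟨p0 + (σ / τ) • p, b0 + (σ / τ) * ⟪p0, p⟫ + b * η / τ, fun ξ t' ht hξ => ?_⟩
  have h1 : |t' / τ| ≤ 1 := by
    rw [abs_div, abs_of_pos hτ, div_le_one hτ]; exact ht
  have h2 : ‖σ⁻¹ • ξ‖ ≤ 1 := by
    rw [norm_smul, norm_inv, Real.norm_of_nonneg hσ.le, inv_mul_le_iff₀ hσ, mul_one]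
    have : ‖ξ‖ ^ 2 ≤ σ ^ 2 := by
      rw [hst]
      exact hξ.trans (mul_le_mul_of_nonneg_right hν hτ.le)
    exact (pow_le_pow_iff_left₀ (norm_nonneg _) hσ.le two_ne_zero).1 this
  have e := h (σ⁻¹ • ξ) (t' / τ) h1 h2
  rw [bst_incr u x0 p0 b0 hη.ne' hτ.ne' hst, abs_div, abs_of_pos hη, div_le_iff₀ hη] at e
  have e1 : τ * (t' / τ) = t' := by field_simp
  have e2 : σ • σ⁻¹ • ξ = ξ := by rw [smul_smul, mul_inv_cancel₀ hσ.ne', one_smul]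
  rw [e1, e2] at e
  simp only [smul_zero, mul_zero, zero_smul, add_zero] at e
  refine e.trans ?_
  linarith

/-- the base box is normalised if `p0, b0` are the slopes of `u` in the base box -/
lemma FB_zero {u : E → ℝ} {x0 p0 : E} {σ τ η : ℝ} (b0 : ℝ) (hσ : 0 < σ) (hτ : 0 < τ)
    (hη : 0 < η) (hst : σ ^ 2 = η * τ) {ζ : ℝ} (hζ : 1 ≤ ζ)
    (h : ∀ (x : E) (t : ℝ), |t| ≤ τ → ‖x‖ ^ 2 ≤ η * ζ * τ →
      |u (x0 + t • p0 + x) - u x0 - ⟪p0, x⟫ - b0 * t| ≤ η * ζ) :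
    FB (bst u x0 p0 σ τ η b0) 0 0 0 0 1 ζ := by
  intro x t ht hx
  rw [bst_incr u x0 p0 b0 hη.ne' hτ.ne' hst, abs_div, abs_of_pos hη, div_le_iff₀ hη]
  simp only [smul_zero, mul_zero, zero_smul, add_zero, inner_zero_right, zero_mul, zero_div]
  have h1 : |τ * t| ≤ τ := by
    rw [abs_mul, abs_of_pos hτ]
    calc τ * |t| ≤ τ * 1 := mul_le_mul_of_nonneg_left ht hτ.le
      _ = τ := mul_one _
  have h2 : ‖σ • x‖ ^ 2 ≤ η * ζ * τ := by
    rw [norm_smul, Real.norm_of_nonneg hσ.le, mul_pow, hst]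
    calc η * τ * ‖x‖ ^ 2 ≤ η * τ * (1 : ℝ) ^ 2 := by
          apply mul_le_mul_of_nonneg_left _ (by positivity)
          exact pow_le_pow_left₀ (norm_nonneg _) hx 2
      _ = η * 1 * τ := by ring
      _ ≤ η * ζ * τ := by gcongr
  have := h (σ • x) (τ * t) h1 h2
  rw [mul_comm ζ η]
  exact this

/-! ### admissible functions -/

/-- bounded functions of the metric class on the unit ball -/
structure Adm (u : E → ℝ) : Prop where
  cc : CC u (ball 0 1)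
  bd : ∀ x ∈ ball (0 : E) 1, |u x| ≤ 1

lemma Adm.lip {u : E → ℝ} (hu : Adm u) {x y : E} (hx : ‖x‖ ≤ 1 / 2) (hy : ‖y‖ ≤ 1 / 2) :
    |u x - u y| ≤ 8 * ‖x - y‖ := by
  have hosc : ∀ z ∈ ball (0 : E) 1, ∀ z' ∈ ball (0 : E) 1, u z - u z' ≤ 2 := by
    intro z hz z' hz'
    have h1 := (abs_le.1 (hu.bd z hz)).2
    have h2 := (abs_le.1 (hu.bd z' hz')).1
    linarith
  have hsub : ∀ z : E, ‖z‖ ≤ 1 / 2 → closedBall z (1 / 4) ⊆ ball (0 : E) 1 := by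
    intro z hz
    apply closedBall_subset_ball'
    rw [dist_zero_right]; linarith
  have hin : ∀ z : E, ‖z‖ ≤ 1 / 2 → z ∈ ball (0 : E) 1 := fun z hz => by
    rw [mem_ball_zero_iff]; linarith
  have h1 := hu.cc.lipschitz (by norm_num : (0 : ℝ) < 1 / 4) (hsub y hy) hosc (hin x hx)
  have h2 := hu.cc.lipschitz (by norm_num : (0 : ℝ) < 1 / 4) (hsub x hx) hosc (hin y hy)
  rw [dist_eq_norm] at h1 h2
  rw [norm_sub_rev y x] at h2
  rw [abs_le]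
  constructor <;> linarith

lemma Adm.recentre {u : E → ℝ} (hu : Adm u) {x0 : E} (hx : ‖x0‖ ≤ 1 / 2) :
    Adm (fun x => u (x0 + (1 / 2 : ℝ) • x)) := by
  have hin : ∀ x ∈ ball (0 : E) 1, x0 + (1 / 2 : ℝ) • x ∈ ball (0 : E) 1 := by
    intro x hx1
    rw [mem_ball_zero_iff] at hx1 ⊢
    calc ‖x0 + (1 / 2 : ℝ) • x‖ ≤ ‖x0‖ + ‖(1 / 2 : ℝ) • x‖ := norm_add_le _ _
      _ = ‖x0‖ + 1 / 2 * ‖x‖ := by rw [norm_smul]; norm_num
      _ < 1 := by linarith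
  constructor
  · have h1 := hu.cc.comp_similarity (LinearIsometryEquiv.refl ℝ E) x0
      (by norm_num : (0 : ℝ) < 1 / 2)
    exact h1.mono hin
  · intro x hx1
    exact hu.bd _ (hin x hx1)

lemma FU_recentre {u : E → ℝ} {x0 : E} {τ η : ℝ}
    (h : FU (fun x => u (x0 + (1 / 2 : ℝ) • x)) 0 (4 * τ) η) : FU u x0 τ η := by
  obtain ⟨p, b, hp⟩ := h
  refine ⟨(2 : ℝ) • p, 4 * b, fun ξ t ht hξ => ?_⟩
  have h1 : |4 * t| ≤ 4 * τ := by
    rw [abs_mul, abs_of_pos (by norm_num : (0 : ℝ) < 4)]; linarith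
  have h2 : ‖(2 : ℝ) • ξ‖ ^ 2 ≤ η * (4 * τ) := by
    rw [norm_smul, mul_pow]; norm_num; linarith
  have e := hp ((2 : ℝ) • ξ) (4 * t) h1 h2
  have e1 : x0 + (1 / 2 : ℝ) • ((0 : E) + (4 * t) • p + (2 : ℝ) • ξ) =
      x0 + t • (2 : ℝ) • p + ξ := by
    rw [zero_add, smul_add, smul_smul, smul_smul, smul_smul]
    norm_num
    rw [show (1 / 2 * (4 * t) : ℝ) = t * 2 by ring, add_assoc]
  have e2 : ⟪(2 : ℝ) • p, ξ⟫ = ⟪p, (2 : ℝ) • ξ⟫ := by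
    rw [real_inner_smul_left, inner_smul_right]
  simp only [e1, smul_zero, add_zero] at e
  rw [e2, show 4 * b * t = b * (4 * t) by ring]
  exact e

/-! ### the defect -/

/-- `ν` is bad at scale `τ` -/
def Bad (ι : Type*) [Fintype ι] (τ ν : ℝ) : Prop :=
  0 ≤ ν ∧ ν * τ ^ 2 ≤ 1 / 4 ∧ ∃ u : EuclideanSpace ℝ ι → ℝ, Adm u ∧ ¬ FU u 0 τ (ν * τ)

lemma Bad.lt {τ ν : ℝ} (hτ : 0 < τ) (h : Bad ι τ ν) : ν < 64 := by
  obtain ⟨h0, h1, u, hu, hbad⟩ := h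
  by_contra hlt
  push Not at hlt
  apply hbad
  refine ⟨0, 0, fun x t _ hx => ?_⟩
  have hx2 : ‖x‖ ^ 2 ≤ 1 / 4 := by
    calc ‖x‖ ^ 2 ≤ ν * τ * τ := hx
      _ = ν * τ ^ 2 := by ring
      _ ≤ 1 / 4 := h1
  have hxn : ‖x‖ ≤ 1 / 2 := by
    nlinarith [norm_nonneg x]
  have hl := hu.lip hxn (by simp : ‖(0 : E)‖ ≤ 1 / 2)
  rw [sub_zero] at hl
  have hle : 8 * ‖x‖ ≤ ν * τ := by
    have : (8 * ‖x‖) ^ 2 ≤ (ν * τ) ^ 2 := by
      calc (8 * ‖x‖) ^ 2 = 64 * ‖x‖ ^ 2 := by ring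
        _ ≤ ν * (ν * τ * τ) := by
            apply mul_le_mul hlt hx (by positivity) h0
        _ = (ν * τ) ^ 2 := by ring
    exact (pow_le_pow_iff_left₀ (by positivity) (by positivity) two_ne_zero).1 this
  simp only [smul_zero, zero_add, inner_zero_left, zero_mul, sub_zero]
  exact hl.trans hle

/-- the defect at scale `τ` -/
noncomputable def NN (ι : Type*) [Fintype ι] (τ : ℝ) : ℝ := max (sSup {ν | Bad ι τ ν}) τ

lemma NN_bdd {τ : ℝ} (hτ : 0 < τ) : BddAbove {ν | Bad ι τ ν} :=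
  ⟨64, fun _ h => (h.lt hτ).le⟩

lemma NN_pos {τ : ℝ} (hτ : 0 < τ) : 0 < NN ι τ := lt_max_of_lt_right hτ

lemma le_NN {τ : ℝ} : τ ≤ NN ι τ := le_max_right _ _

lemma NN_le {τ : ℝ} (hτ : 0 < τ) (hτ1 : τ ≤ 1) : NN ι τ ≤ 64 := by
  apply max_le _ (by linarith)
  apply Real.sSup_le (fun ν h => (h.lt hτ).le) (by norm_num)

lemma good_of_NN_lt {τ ν : ℝ} (hτ : 0 < τ) (h : NN ι τ < ν) (h2 : ν * τ ^ 2 ≤ 1 / 4)
    {u : E → ℝ} (hu : Adm u) : FU u 0 τ (ν * τ) := by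
  by_contra hbad
  have : Bad ι τ ν := ⟨((NN_pos hτ).trans h).le, h2, u, hu, hbad⟩
  have h3 : ν ≤ NN ι τ := (le_csSup (NN_bdd hτ) this).trans (le_max_left _ _)
  linarith

lemma exists_bad {τ : ℝ} (hτ : 0 < τ) (h : τ < NN ι τ) :
    ∃ ν, NN ι τ / 2 < ν ∧ ν ≤ NN ι τ ∧ Bad ι τ ν := by
  have hN : 0 < NN ι τ := NN_pos hτ
  have hs : NN ι τ = sSup {ν | Bad ι τ ν} := by
    rcases max_choice (sSup {ν | Bad ι τ ν}) τ with h1 | h1
    · exact h1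
    · exfalso
      have : NN ι τ = τ := h1
      linarith
  have hne : {ν | Bad ι τ ν}.Nonempty := by
    by_contra hemp
    rw [not_nonempty_iff_eq_empty] at hemp
    rw [hemp, Real.sSup_empty] at hs
    linarith
  have hlt : NN ι τ / 2 < sSup {ν | Bad ι τ ν} := by rw [← hs]; linarith
  obtain ⟨ν, hν, hνlt⟩ := exists_lt_of_lt_csSup hne hlt
  exact ⟨ν, hνlt, (le_csSup (NN_bdd hτ) hν).trans (le_max_left _ _), hν⟩

end Crest.Agent.R094.S2
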