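/-
Row 94, Section 2: compactness of sequences of functions that are flat at all fixed scales
(locally in space-time, eventually in the sequence).
-/
import Crest.Agent.R094.Flat

set_option autoImplicit false

namespace Crest.Agent.R094.S2

open Filter Topology Set Metric

variable {V : Type*} [NormedAddCommGroup V] [InnerProductSpace ℝ V]

/-- an eventually bounded real sequence converges along an ultrafilter -/
lemma ultra_real {F : Ultrafilter ℕ} {f : ℕ → ℝ} {M : ℝ} (h : ∀ᶠ k in (F : Filter ℕ), |f k| ≤ M) :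
    ∃ a, |a| ≤ M ∧ Tendsto f F (𝓝 a) := by
  have hc : IsCompact (Icc (-M) M) := isCompact_Icc
  have hmem : Icc (-M) M ∈ (F.map f : Ultrafilter ℝ) := by
    rw [Ultrafilter.mem_map]
    filter_upwards [h] with k hk
    exact abs_le.1 hk
  obtain ⟨a, ha, hle⟩ := hc.ultrafilter_le_nhds (F.map f) (le_principal_iff.2 hmem)
  exact ⟨a, abs_le.2 ha, hle⟩

/-- an eventually bounded sequence of vectors converges along an ultrafilter -/
lemma ultra_vec [FiniteDimensional ℝ V] {F : Ultrafilter ℕ} {f : ℕ → V} {M : ℝ}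
    (h : ∀ᶠ k in (F : Filter ℕ), ‖f k‖ ≤ M) : ∃ a, Tendsto f F (𝓝 a) := by
  haveI : ProperSpace V := FiniteDimensional.proper ℝ V
  have hc : IsCompact (closedBall (0 : V) M) := isCompact_closedBall 0 M
  have hmem : closedBall (0 : V) M ∈ (F.map f : Ultrafilter V) := by
    rw [Ultrafilter.mem_map]
    filter_upwards [h] with k hk
    simpa using hk
  obtain ⟨a, ha, hle⟩ := hc.ultrafilter_le_nhds (F.map f) (le_principal_iff.2 hmem)
  exact ⟨a, hle⟩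

/-- Compactness along an ultrafilter. -/
theorem compactness [FiniteDimensional ℝ V] (F : Ultrafilter ℕ) (w : ℕ → V → ℝ → ℝ) {K κ : ℝ}
    (hK : 0 ≤ K) (hκ : 1 ≤ κ)
    (hgr : ∀ R : ℝ, ∀ᶠ k in (F : Filter ℕ), ∀ x t, ‖x‖ ≤ R → |t| ≤ R →
      |w k x t| ≤ K * (1 + (‖x‖ + |t|)) ^ (3 / 2 : ℝ))
    (hfl : ∀ R τ : ℝ, 0 < τ → ∀ᶠ k in (F : Filter ℕ), ∀ x t, ‖x‖ ≤ R → |t| ≤ R →
      ∃ p b, Flat.Win κ (w k) x t τ p b) :
    ∃ W : V → ℝ → ℝ, (Continuous fun q : V × ℝ => W q.1 q.2) ∧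
      (∀ x t, |W x t| ≤ K * (1 + (‖x‖ + |t|)) ^ (3 / 2 : ℝ)) ∧
      (∀ R ε : ℝ, 0 < ε → ∀ᶠ k in (F : Filter ℕ), ∀ x t, ‖x‖ ≤ R → |t| ≤ R →
        |w k x t - W x t| ≤ ε) ∧ Flat.FlatW κ W := by
  haveI : ProperSpace V := FiniteDimensional.proper ℝ V
  -- pointwise limits
  have hpt : ∀ x t, ∃ a, |a| ≤ K * (1 + (‖x‖ + |t|)) ^ (3 / 2 : ℝ) ∧
      Tendsto (fun k => w k x t) F (𝓝 a) := by
    intro x t
    apply ultra_real
    filter_upwards [hgr (max ‖x‖ |t|)] with k hk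
    exact hk x t (le_max_left _ _) (le_max_right _ _)
  choose W hWb hW using hpt
  -- uniform bound on bounded sets
  have hbd : ∀ R : ℝ, ∃ M : ℝ, 0 ≤ M ∧ ∀ᶠ k in (F : Filter ℕ), ∀ x t, ‖x‖ ≤ R → |t| ≤ R →
      |w k x t| ≤ M := by
    intro R
    refine ⟨K * (1 + (|R| + |R|)) ^ (3 / 2 : ℝ), by positivity, ?_⟩
    filter_upwards [hgr R] with k hk x t hx ht
    refine (hk x t hx ht).trans ?_
    have h1 : ‖x‖ ≤ |R| := hx.trans (le_abs_self R)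
    have h2 : |t| ≤ |R| := ht.trans (le_abs_self R)
    gcongr
  -- equicontinuity
  have heq : ∀ R ε : ℝ, 0 < ε → ∃ δ : ℝ, 0 < δ ∧ ∀ᶠ k in (F : Filter ℕ), ∀ x₀ t₀,
      ‖x₀‖ ≤ R → |t₀| ≤ R → ∀ x t, ‖x‖ ≤ δ → |t| ≤ δ →
        |w k (x₀ + x) (t₀ + t) - w k x₀ t₀| ≤ ε := by
    intro R ε hε
    obtain ⟨M, hM, hMk⟩ := hbd (R + 1)
    obtain ⟨δ, hδ, -, N, hN⟩ := Flat.modulus (V := V) hκ hM hε
    refine ⟨δ, hδ, ?_⟩
    have hwin : ∀ᶠ k in (F : Filter ℕ), ∀ j ∈ Finset.range (N + 1), ∀ x t, ‖x‖ ≤ R → |t| ≤ R →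
        ∃ p b, Flat.Win κ (w k) x t (2 ^ j * (1 / 2 ^ N)) p b := by
      rw [Filter.eventually_all_finset]
      intro j _
      exact hfl R _ (by positivity)
    filter_upwards [hMk, hwin] with k h1 h2 x₀ t₀ hx₀ ht₀
    apply hN (w k) x₀ t₀
    · intro x t hx ht
      apply h1
      · exact (norm_add_le _ _).trans (add_le_add hx₀ hx)
      · exact (abs_add_le _ _).trans (add_le_add ht₀ ht)
    · intro j hj
      exact h2 j (Finset.mem_range.2 (by omega)) x₀ t₀ hx₀ ht₀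
  -- modulus of continuity of the limit
  have hWeq : ∀ R ε : ℝ, 0 < ε → ∃ δ : ℝ, 0 < δ ∧ ∀ x₀ t₀,
      ‖x₀‖ ≤ R → |t₀| ≤ R → ∀ x t, ‖x‖ ≤ δ → |t| ≤ δ →
        |W (x₀ + x) (t₀ + t) - W x₀ t₀| ≤ ε := by
    intro R ε hε
    obtain ⟨δ, hδ, h⟩ := heq R ε hε
    refine ⟨δ, hδ, fun x₀ t₀ hx₀ ht₀ x t hx ht => ?_⟩
    have hl : Tendsto (fun k => |w k (x₀ + x) (t₀ + t) - w k x₀ t₀|) F
        (𝓝 |W (x₀ + x) (t₀ + t) - W x₀ t₀|) := ((hW _ _).sub (hW _ _)).abs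
    apply le_of_tendsto hl
    filter_upwards [h] with k hk
    exact hk x₀ t₀ hx₀ ht₀ x t hx ht
  have hcont : Continuous fun q : V × ℝ => W q.1 q.2 := by
    rw [Metric.continuous_iff]
    rintro ⟨x₀, t₀⟩ ε hε
    obtain ⟨δ, hδ, h⟩ := hWeq (max ‖x₀‖ |t₀|) (ε / 2) (by linarith)
    refine ⟨δ, hδ, ?_⟩
    rintro ⟨x, t⟩ hd
    rw [Prod.dist_eq, max_lt_iff] at hd
    have h1 : ‖x - x₀‖ ≤ δ := by rw [← dist_eq_norm]; exact hd.1.le
    have h2 : |t - t₀| ≤ δ := by rw [← Real.dist_eq]; exact hd.2.le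
    have := h x₀ t₀ (le_max_left _ _) (le_max_right _ _) (x - x₀) (t - t₀) h1 h2
    rw [add_sub_cancel, add_sub_cancel] at this
    rw [Real.dist_eq]
    simp only at this ⊢
    linarith
  -- locally uniform convergence
  have hconv : ∀ R ε : ℝ, 0 < ε → ∀ᶠ k in (F : Filter ℕ), ∀ x t, ‖x‖ ≤ R → |t| ≤ R →
      |w k x t - W x t| ≤ ε := by
    intro R ε hε
    obtain ⟨δ₁, hδ₁, h₁⟩ := heq R (ε / 3) (by linarith)
    obtain ⟨δ₂, hδ₂, h₂⟩ := hWeq R (ε / 3) (by linarith)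
    have hδ : 0 < min δ₁ δ₂ := lt_min hδ₁ hδ₂
    have hcomp : IsCompact (closedBall (0 : V) R ×ˢ Icc (-R) R) :=
      (isCompact_closedBall 0 R).prod isCompact_Icc
    obtain ⟨s, hsub, hfin, hcov⟩ := hcomp.finite_cover_balls hδ
    have hpts : ∀ᶠ k in (F : Filter ℕ), ∀ q ∈ s, |w k q.1 q.2 - W q.1 q.2| ≤ ε / 3 := by
      rw [Filter.eventually_all_finite hfin]
      intro q _
      have : Tendsto (fun k => |w k q.1 q.2 - W q.1 q.2|) F (𝓝 0) := by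
        have := ((hW q.1 q.2).sub_const (W q.1 q.2)).abs
        simpa using this
      exact this.eventually (ge_mem_nhds (by linarith))
    filter_upwards [h₁, hpts] with k hk hpk x t hx ht
    have hmem : (x, t) ∈ closedBall (0 : V) R ×ˢ Icc (-R) R :=
      ⟨by simpa using hx, abs_le.1 ht⟩
    obtain ⟨q, hq, hqx⟩ := mem_iUnion₂.1 (hcov hmem)
    have hqR := hsub hq
    have hq1 : ‖q.1‖ ≤ R := by simpa using hqR.1
    have hq2 : |q.2| ≤ R := abs_le.2 hqR.2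
    rw [mem_ball, Prod.dist_eq, max_lt_iff, lt_min_iff, lt_min_iff] at hqx
    have d1 : ‖x - q.1‖ ≤ δ₁ := by rw [← dist_eq_norm]; exact hqx.1.1.le
    have d2 : |t - q.2| ≤ δ₁ := by rw [← Real.dist_eq]; exact hqx.2.1.le
    have d3 : ‖x - q.1‖ ≤ δ₂ := by rw [← dist_eq_norm]; exact hqx.1.2.le
    have d4 : |t - q.2| ≤ δ₂ := by rw [← Real.dist_eq]; exact hqx.2.2.le
    have e1 := hk q.1 q.2 hq1 hq2 _ _ d1 d2
    have e2 := h₂ q.1 q.2 hq1 hq2 _ _ d3 d4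
    have e3 := hpk q hq
    rw [add_sub_cancel, add_sub_cancel] at e1 e2
    rw [abs_le] at e1 e2 e3 ⊢
    constructor <;> linarith [e1.1, e1.2, e2.1, e2.2, e3.1, e3.2]
  refine ⟨W, hcont, hWb, hconv, ?_⟩
  -- flatness
  intro x₀ t₀ τ hτ
  set R : ℝ := max ‖x₀‖ |t₀| with hR
  have hx₀ : ‖x₀‖ ≤ R := le_max_left _ _
  have ht₀ : |t₀| ≤ R := le_max_right _ _
  have hex : ∀ᶠ k in (F : Filter ℕ), ∃ q : V × ℝ, Flat.Win κ (w k) x₀ t₀ τ q.1 q.2 := by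
    filter_upwards [hfl R τ hτ] with k hk
    obtain ⟨p, b, h⟩ := hk x₀ t₀ hx₀ ht₀
    exact ⟨(p, b), h⟩
  obtain ⟨q, hq⟩ := hex.choice
  obtain ⟨M, hM, hMk⟩ := hbd (R + τ)
  have hb : ∀ᶠ k in (F : Filter ℕ), ‖(q k).1‖ ≤ κ + 2 * M / τ ∧
      |(q k).2| ≤ 2 * (1 + κ + 2 * M / τ) ^ 2 + (κ + 2 * M / τ) ^ 2 / 2 := by
    filter_upwards [hq, hMk] with k h1 h2
    obtain ⟨h3, h4⟩ := h1.bounds (by linarith) hM hτ (fun x t hx ht => by
      apply h2
      · exact (norm_add_le _ _).trans (add_le_add hx₀ hx)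
      · exact (abs_add_le _ _).trans (add_le_add ht₀ ht))
    refine ⟨h3, ?_⟩
    have h5 : ‖(q k).1‖ ^ 2 ≤ (κ + 2 * M / τ) ^ 2 := by gcongr
    have h6 : 0 ≤ ‖(q k).1‖ ^ 2 := by positivity
    rw [abs_le] at h4 ⊢
    constructor <;> linarith [h4.1, h4.2]
  obtain ⟨p, hp⟩ := ultra_vec (f := fun k => (q k).1) (hb.mono fun k h => h.1)
  obtain ⟨b, -, hb'⟩ := ultra_real (f := fun k => (q k).2) (hb.mono fun k h => h.2)
  refine ⟨p, b, fun x t hx ht => ?_⟩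
  -- joint convergence
  have hjoint : ∀ (y : ℕ → V) (s : ℝ) (y₀ : V), Tendsto y F (𝓝 y₀) →
      Tendsto (fun k => w k (y k) s) F (𝓝 (W y₀ s)) := by
    intro y s y₀ hy
    have hWy : Tendsto (fun k => W (y k) s) F (𝓝 (W y₀ s)) := by
      have h1 : Tendsto (fun k => (y k, s)) F (𝓝 (y₀, s)) :=
        hy.prodMk_nhds tendsto_const_nhds
      exact (hcont.tendsto (y₀, s)).comp h1
    have hdiff : Tendsto (fun k => w k (y k) s - W (y k) s) F (𝓝 0) := by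
      rw [Metric.tendsto_nhds]
      intro ε hε
      have hyb : ∀ᶠ k in (F : Filter ℕ), ‖y k‖ ≤ ‖y₀‖ + 1 := by
        have := hy.norm.eventually (ge_mem_nhds (show ‖y₀‖ < ‖y₀‖ + 1 by linarith))
        exact this
      filter_upwards [hconv (max (‖y₀‖ + 1) |s|) (ε / 2) (by linarith), hyb] with k h1 h2
      have := h1 (y k) s (h2.trans (le_max_left _ _)) (le_max_right _ _)
      rw [Real.dist_eq, sub_zero]; linarith
    have := hdiff.add hWy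
    simpa using this
  have hA : Tendsto (fun k => x₀ + t • (q k).1 + x) F (𝓝 (x₀ + t • p + x)) :=
    (tendsto_const_nhds.add (hp.const_smul t)).add tendsto_const_nhds
  have hlim : Tendsto (fun k => |w k (x₀ + t • (q k).1 + x) (t₀ + t) - w k x₀ t₀
      - inner ℝ (q k).1 x - (q k).2 * t|) F
      (𝓝 |W (x₀ + t • p + x) (t₀ + t) - W x₀ t₀ - inner ℝ p x - b * t|) := by
    apply Tendsto.abs
    exact (((hjoint _ _ _ hA).sub (hW x₀ t₀)).sub (hp.inner tendsto_const_nhds)).sub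
      (hb'.mul_const t)
  apply le_of_tendsto hlim
  filter_upwards [hq] with k hk
  exact hk x t hx ht

end Crest.Agent.R094.S2
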