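/-
Row 94, Section 2: scale estimates for the zoom sequence, and the case of a decaying defect.
-/
import Crest.Agent.R094.S2Adm
import Crest.Agent.R094.Final

set_option autoImplicit false

namespace Crest.Agent.R094.S2

open Crest.Agent.R094.Cones Filter Set Metric
open scoped Topology RealInnerProductSpace

/-! ### decay of the defect gives the expansion -/

theorem centred_of_decay {d : ℕ} {a C : ℝ} (ha : 0 < a)
    (h : ∀ t, 0 < t → t ≤ 1 → NN (Fin d) t ≤ C * t ^ a) : CentredExpansion d := by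
  set C1 : ℝ := |C| + 1 with hC1
  have hC10 : 0 < C1 := by positivity
  set τ1 : ℝ := min 1 (1 / (4 * C1)) with hτ1
  have hτ10 : 0 < τ1 := lt_min one_pos (by positivity)
  obtain ⟨α, hα0, hα1, C', hC', r1, hr1, hexp⟩ :=
    expansion (V := EuclideanSpace ℝ (Fin d)) ha hC10 hτ10
  set ρ : ℝ := min r1 (1 / 2) with hρ
  have hρ0 : 0 < ρ := lt_min hr1 (by norm_num)
  have hρr : ρ ≤ r1 := min_le_left _ _
  have hρ2 : ρ ≤ 1 / 2 := min_le_right _ _
  refine ⟨min α (1 / 3), lt_min hα0 (by norm_num), min_le_right _ _, 8 + C', ρ, hρ0,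
    by linarith, ?_⟩
  intro v hv hv1
  have hadm : Adm v := ⟨CC.of_harm hv, hv1⟩
  have hFU : ∀ τ, 0 < τ → τ ≤ τ1 → FU v 0 τ (C1 * τ ^ (1 + a)) := by
    intro τ hτ hττ1
    have hτle1 : τ ≤ 1 := hττ1.trans (min_le_left _ _)
    have hτle2 : τ ≤ 1 / (4 * C1) := hττ1.trans (min_le_right _ _)
    have hta : 0 < τ ^ a := Real.rpow_pos_of_pos hτ a
    have hta1 : τ ^ a ≤ 1 := Real.rpow_le_one hτ.le hτle1 ha.le
    have h1 : NN (Fin d) τ < C1 * τ ^ a := by
      calc NN (Fin d) τ ≤ C * τ ^ a := h τ hτ hτle1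
        _ < C1 * τ ^ a := by
            apply mul_lt_mul_of_pos_right _ hta
            rw [hC1]; linarith [le_abs_self C]
    have h2 : C1 * τ ^ a * τ ^ 2 ≤ 1 / 4 := by
      calc C1 * τ ^ a * τ ^ 2 ≤ C1 * 1 * τ := by
            apply mul_le_mul
            · exact mul_le_mul_of_nonneg_left hta1 hC10.le
            · nlinarith
            · positivity
            · positivity
        _ ≤ C1 * 1 * (1 / (4 * C1)) := by gcongr
        _ = 1 / 4 := by field_simp
    have h3 := good_of_NN_lt hτ h1 h2 hadm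
    rw [Real.rpow_add hτ, Real.rpow_one, mul_comm τ, ← mul_assoc]
    exact h3
  obtain ⟨p, hp⟩ := hexp v hFU
  have hsmall : ∀ x : EuclideanSpace ℝ (Fin d), ‖x‖ ≤ ρ → ‖x‖ ^ (1 + α) ≤ ‖x‖ := by
    intro x hx
    rcases (norm_nonneg x).eq_or_lt with h0 | h0
    · rw [← h0, Real.zero_rpow (by linarith)]
    · calc ‖x‖ ^ (1 + α) ≤ ‖x‖ ^ (1 : ℝ) :=
            Real.rpow_le_rpow_of_exponent_ge h0 (by linarith) (by linarith)
        _ = ‖x‖ := Real.rpow_one _
  refine ⟨p, ?_, ?_⟩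
  · have := slope_diff (u := v) (p := p) (p' := 0) (η := C' * ρ) (η' := 8 * ρ) hρ0
      (fun x hx => by
        calc |v x - v 0 - inner ℝ p x| ≤ C' * ‖x‖ ^ (1 + α) := hp x (hx.trans hρr)
          _ ≤ C' * ρ := mul_le_mul_of_nonneg_left ((hsmall x hx).trans hx) hC')
      (fun x hx => by
        rw [inner_zero_left, sub_zero]
        have h1 := hadm.lip (x := x) (y := 0) (hx.trans hρ2) (by simp)
        rw [sub_zero] at h1
        linarith)
    rw [sub_zero] at this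
    calc ‖p‖ ≤ (C' * ρ + 8 * ρ) / ρ := this
      _ = 8 + C' := by field_simp; ring
  · intro y hy
    have h1 := hp y (hy.le.trans hρr)
    refine h1.trans ?_
    have h2 : ‖y‖ ^ (1 + α) ≤ ‖y‖ ^ (1 + min α (1 / 3)) := by
      rcases (norm_nonneg y).eq_or_lt with h0 | h0
      · have : 0 ≤ min α (1 / 3) := le_min hα0.le (by norm_num)
        rw [← h0, Real.zero_rpow (by linarith), Real.zero_rpow (by linarith)]
      · apply Real.rpow_le_rpow_of_exponent_ge h0 (by linarith)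
        have := min_le_left α (1 / 3)
        linarith
    have h3 : 0 ≤ ‖y‖ ^ (1 + min α (1 / 3)) := by positivity
    calc C' * ‖y‖ ^ (1 + α) ≤ C' * ‖y‖ ^ (1 + min α (1 / 3)) := mul_le_mul_of_nonneg_left h2 hC'
      _ ≤ (8 + C') * ‖y‖ ^ (1 + min α (1 / 3)) := by
          apply mul_le_mul_of_nonneg_right _ h3; linarith

/-! ### one scale -/

variable {ι : Type*} [Fintype ι]

local notation "E" => EuclideanSpace ℝ ι

/-- the selected scale controls all other scales -/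
lemma scale_bound {τ ε : ℝ} (h0 : 0 < τ) (h1 : τ ≤ 1) (hε0 : 0 < ε) (hε8 : ε ≤ 1 / 8)
    (hsel : ∀ t, 0 < t → t ≤ 1 → NN ι t ≤ (1 + ε) * max (t / τ) (τ / t) ^ ε * NN ι τ)
    {τ' M : ℝ} (hτ' : 0 < τ') (hM1 : 4 * τ' ≤ M) (hM2 : 1 / (4 * τ') ≤ M)
    (hM : (1 + ε) * M ^ ε < 2) {s : ℝ} (hs : 1 ≤ s) (hs4 : 4 * (τ * (s * τ')) ≤ 1)
    (hs5 : 2 * s ^ ((1 : ℝ) / 8) * 64 * (4 * (τ * (s * τ'))) ^ 2 ≤ 1 / 4)
    {u : E → ℝ} (hu : Adm u) {x : E} (hx : ‖x‖ ≤ 1 / 2) :
    FU u x (τ * (s * τ')) (NN ι τ * τ * (8 * τ' * s ^ ((9 : ℝ) / 8))) := by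
  have hs0 : 0 < s := by linarith
  have hM0 : 0 < M := lt_of_lt_of_le (by positivity) hM1
  apply FU_recentre
  set t : ℝ := 4 * (τ * (s * τ')) with ht
  have ht0 : 0 < t := by positivity
  have hN : 0 < NN ι τ := NN_pos h0
  set ν : ℝ := 2 * s ^ ((1 : ℝ) / 8) * NN ι τ with hν
  have hνt : NN ι τ * τ * (8 * τ' * s ^ ((9 : ℝ) / 8)) = ν * t := by
    rw [rpow_nine_eighths hs0, hν, ht]; ring
  rw [hνt]
  apply good_of_NN_lt ht0 _ _ (hu.recentre hx)
  · have hmax : max (t / τ) (τ / t) ≤ s * M := by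
      apply max_le
      · calc t / τ = s * (4 * τ') := by rw [ht]; field_simp
          _ ≤ s * M := by gcongr
      · calc τ / t = (1 / s) * (1 / (4 * τ')) := by rw [ht]; field_simp
          _ ≤ s * M := by
              apply mul_le_mul _ hM2 (by positivity) hs0.le
              rw [div_le_iff₀ hs0]; nlinarith
    have hmax0 : 0 ≤ max (t / τ) (τ / t) := le_max_of_le_left (by positivity)
    have hp1 : max (t / τ) (τ / t) ^ ε ≤ s ^ ((1 : ℝ) / 8) * M ^ ε := by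
      calc max (t / τ) (τ / t) ^ ε ≤ (s * M) ^ ε := Real.rpow_le_rpow hmax0 hmax hε0.le
        _ = s ^ ε * M ^ ε := Real.mul_rpow hs0.le hM0.le
        _ ≤ s ^ ((1 : ℝ) / 8) * M ^ ε := by
            apply mul_le_mul_of_nonneg_right _ (by positivity)
            exact Real.rpow_le_rpow_of_exponent_le hs hε8
    have hs8 : 0 < s ^ ((1 : ℝ) / 8) := by positivity
    calc NN ι t ≤ (1 + ε) * max (t / τ) (τ / t) ^ ε * NN ι τ := hsel t ht0 hs4
      _ ≤ (1 + ε) * (s ^ ((1 : ℝ) / 8) * M ^ ε) * NN ι τ := by gcongr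
      _ = ((1 + ε) * M ^ ε) * (s ^ ((1 : ℝ) / 8) * NN ι τ) := by ring
      _ < 2 * (s ^ ((1 : ℝ) / 8) * NN ι τ) := by
          apply mul_lt_mul_of_pos_right hM (by positivity)
      _ = ν := by rw [hν]; ring
  · calc ν * t ^ 2 = 2 * s ^ ((1 : ℝ) / 8) * NN ι τ * t ^ 2 := by rw [hν]
      _ ≤ 2 * s ^ ((1 : ℝ) / 8) * 64 * t ^ 2 := by
          have := NN_le (ι := ι) h0 h1
          gcongr
      _ ≤ 1 / 4 := hs5

/-- bound of the slope of an admissible function in a box -/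
lemma slope_bound {u : E → ℝ} (hu : Adm u) {τ N : ℝ} (hτ : 0 < τ) (hN : 0 < N) (hN64 : N ≤ 64)
    (hτ1 : τ ≤ 1 / 64) {p : E} {b : ℝ}
    (h : ∀ (x : E) (t : ℝ), |t| ≤ τ → ‖x‖ ^ 2 ≤ N * τ * 8 * τ →
      |u ((0 : E) + t • p + x) - u 0 - ⟪p, x⟫ - b * t| ≤ N * τ * 8) : ‖p‖ ≤ 32 := by
  set r : ℝ := Real.sqrt (N * 8) * τ with hr
  have hsq : Real.sqrt (N * 8) ^ 2 = N * 8 := Real.sq_sqrt (by positivity)
  have hsq0 : 0 < Real.sqrt (N * 8) := Real.sqrt_pos.2 (by positivity)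
  have hsq23 : Real.sqrt (N * 8) ≤ 23 := by
    apply Real.sqrt_le_iff.2
    constructor
    · norm_num
    · nlinarith
  have hr0 : 0 < r := by positivity
  have hr2 : r ≤ 1 / 2 := by
    rw [hr]; nlinarith
  have := slope_diff (u := u) (p := p) (p' := 0) (η := N * τ * 8) (η' := 8 * r) hr0
    (fun x hx => by
      have hx2 : ‖x‖ ^ 2 ≤ N * τ * 8 * τ := by
        calc ‖x‖ ^ 2 ≤ r ^ 2 := pow_le_pow_left₀ (norm_nonneg _) hx 2
          _ = N * τ * 8 * τ := by rw [hr, mul_pow, hsq]; ring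
      have := h x 0 (by simpa using hτ.le) hx2
      simpa using this)
    (fun x hx => by
      rw [inner_zero_left, sub_zero]
      have h1 := hu.lip (x := x) (y := 0) (hx.trans hr2) (by simp)
      rw [sub_zero] at h1
      linarith)
  rw [sub_zero] at this
  have e : (N * τ * 8 + 8 * r) / r = Real.sqrt (N * 8) + 8 := by
    have e1 : N * τ * 8 = Real.sqrt (N * 8) * r := by
      rw [hr, ← mul_assoc, ← pow_two, hsq]; ring
    rw [e1]; field_simp
  rw [e] at this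
  linarith

/-- growth from the centre -/
lemma growth_centre {V : Type*} [NormedAddCommGroup V] [InnerProductSpace ℝ V]
    {w : V → ℝ → ℝ} {A Λ : ℝ} (hA : 0 ≤ A) (h1 : FB w 0 0 0 0 1 A)
    (h : ∀ s, 1 ≤ s → s ≤ Λ → ∃ (p : V) (b : ℝ), FB w 0 0 p b s (A * s ^ ((9 : ℝ) / 8)))
    (h0 : w 0 0 = 0) {x : V} {t R : ℝ} (hx : ‖x‖ + |t| ≤ R)
    (hΛ : (cD A * (1 + R)) ^ ((8 : ℝ) / 7) ≤ Λ) :
    |w x t| ≤ cK A * (1 + (‖x‖ + |t|)) ^ ((3 : ℝ) / 2) := by
  classical
  choose! P B hPB using h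
  let P' : ℝ → V := fun s => if s = 1 then 0 else P s
  let B' : ℝ → ℝ := fun s => if s = 1 then 0 else B s
  have hF : ∀ s, 1 ≤ s → s ≤ Λ →
      FB w 0 0 (P' s) (B' s) (s * 1) (A * 1 * s ^ ((9 : ℝ) / 8)) := by
    intro s hs hsΛ
    rw [mul_one, mul_one]
    by_cases hs1 : s = 1
    · subst hs1
      simp only [P', B', if_true]
      simpa using h1
    · simp only [P', B', if_neg hs1]
      exact hPB s hs hsΛ
  have hcD : 0 ≤ cD A := by unfold cD c1; positivity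
  have hr0 : 0 ≤ ‖x‖ + |t| := by positivity
  have := growth (w := w) (x0 := 0) (t0 := 0) (P := P') (B := B') (τ := 1) (A := A) (Λ := Λ)
    one_pos hA hF (x := x) (t := t) (r := ‖x‖ + |t|) hr0 (by rw [mul_one])
    (by
      refine le_trans ?_ hΛ
      apply Real.rpow_le_rpow (by positivity) _ (by norm_num)
      apply mul_le_mul_of_nonneg_left _ hcD
      linarith)
  simp only [P', B', if_true, smul_zero, zero_add, h0, inner_zero_left, zero_mul, sub_zero,
    mul_one] at this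
  exact this

end Crest.Agent.R094.S2
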