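/-
Row 94: selection of a near-extremal scale (definition-free).
-/
import Mathlib

set_option autoImplicit false

namespace Crest.Agent.R094.Select

open Real Set

/-- `m t0 t = min (t/t0) (t0/t)`. -/
private lemma min_ratio_mul {t0 s t : ℝ} (h0 : 0 < t0) (hs : 0 < s) (ht : 0 < t) :
    min (s / t0) (t0 / s) ≤ min (t / t0) (t0 / t) * max (t / s) (s / t) := by
  have hm : 0 < max (t / s) (s / t) := lt_max_of_lt_left (by positivity)
  rcases le_total (t / t0) (t0 / t) with h | h
  · rw [min_eq_left h]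
    calc min (s / t0) (t0 / s) ≤ s / t0 := min_le_left _ _
      _ = t / t0 * (s / t) := by field_simp
      _ ≤ t / t0 * max (t / s) (s / t) := by
          apply mul_le_mul_of_nonneg_left (le_max_right _ _) (by positivity)
  · rw [min_eq_right h]
    calc min (s / t0) (t0 / s) ≤ t0 / s := min_le_right _ _
      _ = t0 / t * (t / s) := by field_simp
      _ ≤ t0 / t * max (t / s) (s / t) := by
          apply mul_le_mul_of_nonneg_left (le_max_left _ _) (by positivity)

/-- Selection of a near-extremal scale.  If `N` is positive and bounded on `(0,1]` and is not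
`O(t^a)` for any `a > 0`, then for every `ε > 0` there is a scale `t* < ε` such that `N` grows away
from `t*` at most like `(1+ε) * max(t/t*, t*/t)^ε`. -/
theorem exists_scale {N : ℝ → ℝ} {B : ℝ} (hpos : ∀ t, 0 < t → t ≤ 1 → 0 < N t)
    (hB : ∀ t, 0 < t → t ≤ 1 → N t ≤ B)
    (hnot : ∀ a : ℝ, 0 < a → ¬ ∃ C : ℝ, ∀ t, 0 < t → t ≤ 1 → N t ≤ C * t ^ a)
    {ε : ℝ} (hε : 0 < ε) :
    ∃ s : ℝ, 0 < s ∧ s < ε ∧ s ≤ 1 ∧ ∀ t, 0 < t → t ≤ 1 →
      N t ≤ (1 + ε) * max (t / s) (s / t) ^ ε * N s := by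
  by_contra hcon
  push Not at hcon
  apply hnot ε hε
  have hBpos : 0 < B := lt_of_lt_of_le (hpos 1 one_pos le_rfl) (hB 1 one_pos le_rfl)
  refine ⟨(1 + ε) * B * (1 / ε) ^ ε, ?_⟩
  intro t0 h0 h1
  -- the weighted function
  set g : ℝ → ℝ := fun t => N t * min (t / t0) (t0 / t) ^ ε with hg
  have hgB : ∀ t, 0 < t → t ≤ 1 → g t ≤ B := by
    intro t ht ht1
    have hm : min (t / t0) (t0 / t) ≤ 1 := by
      rcases le_total t t0 with h | h
      · exact (min_le_left _ _).trans ((div_le_one h0).2 h)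
      · exact (min_le_right _ _).trans ((div_le_one ht).2 h)
    have hm0 : 0 ≤ min (t / t0) (t0 / t) := le_min (by positivity) (by positivity)
    calc g t ≤ N t * 1 := by
          apply mul_le_mul_of_nonneg_left (Real.rpow_le_one hm0 hm hε.le) (hpos t ht ht1).le
      _ ≤ B := by rw [mul_one]; exact hB t ht ht1
  set S : Set ℝ := g '' Ioc 0 1 with hS
  have hne : S.Nonempty := ⟨g t0, t0, ⟨h0, h1⟩, rfl⟩
  have hbdd : BddAbove S := ⟨B, by rintro _ ⟨t, ⟨ht, ht1⟩, rfl⟩; exact hgB t ht ht1⟩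
  have hg0 : g t0 = N t0 := by
    simp [hg, div_self h0.ne']
  have hGpos : 0 < sSup S := by
    have : g t0 ≤ sSup S := le_csSup hbdd ⟨t0, ⟨h0, h1⟩, rfl⟩
    rw [hg0] at this
    exact lt_of_lt_of_le (hpos t0 h0 h1) this
  have hlt : sSup S / (1 + ε) < sSup S := by
    rw [div_lt_iff₀ (by positivity)]
    nlinarith
  obtain ⟨_, ⟨s, ⟨hs, hs1⟩, rfl⟩, hgs⟩ := exists_lt_of_lt_csSup hne hlt
  rw [div_lt_iff₀ (by positivity)] at hgs
  -- property of s
  have key : ∀ t, 0 < t → t ≤ 1 → N t ≤ (1 + ε) * max (t / s) (s / t) ^ ε * N s := by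
    intro t ht ht1
    have hgt : g t ≤ sSup S := le_csSup hbdd ⟨t, ⟨ht, ht1⟩, rfl⟩
    have hmt : 0 < min (t / t0) (t0 / t) := lt_min (by positivity) (by positivity)
    have hms : 0 < min (s / t0) (t0 / s) := lt_min (by positivity) (by positivity)
    have hM : 0 < max (t / s) (s / t) := lt_max_of_lt_left (by positivity)
    have h1' : N t * min (t / t0) (t0 / t) ^ ε ≤
        N s * (min (t / t0) (t0 / t) * max (t / s) (s / t)) ^ ε * (1 + ε) := by
      calc N t * min (t / t0) (t0 / t) ^ ε ≤ sSup S := hgt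
        _ ≤ N s * min (s / t0) (t0 / s) ^ ε * (1 + ε) := hgs.le
        _ ≤ _ := by
            apply mul_le_mul_of_nonneg_right _ (by positivity)
            apply mul_le_mul_of_nonneg_left _ (hpos s hs hs1).le
            exact Real.rpow_le_rpow hms.le (min_ratio_mul h0 hs ht) hε.le
    rw [Real.mul_rpow hmt.le hM.le] at h1'
    have hp : 0 < min (t / t0) (t0 / t) ^ ε := Real.rpow_pos_of_pos hmt _
    have : N t * min (t / t0) (t0 / t) ^ ε ≤
        ((1 + ε) * max (t / s) (s / t) ^ ε * N s) * min (t / t0) (t0 / t) ^ ε := by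
      calc _ ≤ _ := h1'
        _ = _ := by ring
    exact le_of_mul_le_mul_right this hp
  -- hence ε ≤ s
  have hεs : ε ≤ s := by
    by_contra hlt'
    push Not at hlt'
    obtain ⟨t, ht, ht1, h⟩ := hcon s hs hlt' hs1
    exact absurd (key t ht ht1) (not_le.2 h)
  -- conclusion
  have hNs : N t0 ≤ (1 + ε) * (N s * min (s / t0) (t0 / s) ^ ε) := by
    have : g t0 ≤ sSup S := le_csSup hbdd ⟨t0, ⟨h0, h1⟩, rfl⟩
    rw [hg0] at this
    calc N t0 ≤ sSup S := this
      _ ≤ g s * (1 + ε) := hgs.le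
      _ = _ := by simp only [hg]; ring
  have hms : 0 < min (s / t0) (t0 / s) := lt_min (by positivity) (by positivity)
  have h2 : min (s / t0) (t0 / s) ^ ε ≤ (1 / ε) ^ ε * t0 ^ ε := by
    rw [← Real.mul_rpow (by positivity) h0.le]
    apply Real.rpow_le_rpow hms.le _ hε.le
    calc min (s / t0) (t0 / s) ≤ t0 / s := min_le_right _ _
      _ ≤ t0 / ε := by apply div_le_div_of_nonneg_left h0.le hε hεs
      _ = 1 / ε * t0 := by ring
  calc N t0 ≤ (1 + ε) * (N s * min (s / t0) (t0 / s) ^ ε) := hNs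
    _ ≤ (1 + ε) * (B * ((1 / ε) ^ ε * t0 ^ ε)) := by
        apply mul_le_mul_of_nonneg_left _ (by positivity)
        apply mul_le_mul (hB s hs hs1) h2 (Real.rpow_nonneg hms.le _) hBpos.le
    _ = (1 + ε) * B * (1 / ε) ^ ε * t0 ^ ε := by ring

end Crest.Agent.R094.Select
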