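/-
Row 94, Section 2: from the Liouville theorem to the centred expansion.
-/
import Crest.Agent.R094.S2Zoom
import Crest.Agent.R094.S2Compact
import Crest.Agent.R094.LocSub
import Crest.Agent.R094.Iface
import Crest.Agent.R094.Select

set_option autoImplicit false

namespace Crest.Agent.R094.S2

open Crest.Agent.R094.Cones Crest.Agent.R094.LocSub Filter Set Metric
open scoped Topology RealInnerProductSpace

variable {ι : Type*} [Fintype ι]

local notation "E" => EuclideanSpace ℝ ι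

/-- A zoom sequence: near extremal scales tending to zero with bad admissible functions. -/
structure Zoom (ι : Type*) [Fintype ι] where
  τ : ℕ → ℝ
  ε : ℕ → ℝ
  ν : ℕ → ℝ
  u : ℕ → EuclideanSpace ℝ ι → ℝ
  τpos : ∀ k, 0 < τ k
  τle : ∀ k, τ k ≤ 1 / 64
  τlim : Tendsto τ atTop (𝓝 0)
  εpos : ∀ k, 0 < ε k
  εle : ∀ k, ε k ≤ 1 / 8
  εlim : Tendsto ε atTop (𝓝 0)
  sel : ∀ k t, 0 < t → t ≤ 1 →
    NN ι t ≤ (1 + ε k) * max (t / τ k) (τ k / t) ^ (ε k) * NN ι (τ k)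
  low : ∀ k, τ k ^ ((1 : ℝ) / 8) ≤ 2 * NN ι (τ k)
  adm : ∀ k, Adm (u k)
  νlow : ∀ k, NN ι (τ k) / 2 < ν k
  νup : ∀ k, ν k ≤ NN ι (τ k)
  bad : ∀ k, ¬ FU (u k) 0 (τ k) (ν k * τ k)

theorem exists_zoom
    (hnot : ∀ a : ℝ, 0 < a → ¬ ∃ C : ℝ, ∀ t, 0 < t → t ≤ 1 → NN ι t ≤ C * t ^ a) :
    Nonempty (Zoom ι) := by
  have hsel : ∀ k : ℕ, ∃ s : ℝ, 0 < s ∧ s < 1 / ((k : ℝ) + 64) ∧ s ≤ 1 ∧ ∀ t, 0 < t → t ≤ 1 →
      NN ι t ≤ (1 + 1 / ((k : ℝ) + 64)) * max (t / s) (s / t) ^ (1 / ((k : ℝ) + 64)) * NN ι s := by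
    intro k
    exact Select.exists_scale (N := NN ι) (B := 64) (fun t ht _ => NN_pos ht)
      (fun t ht ht1 => NN_le ht ht1) hnot (by positivity)
  choose τ hτ0 hτε hτ1 hτsel using hsel
  have hε64 : ∀ k : ℕ, 1 / ((k : ℝ) + 64) ≤ 1 / 64 := by
    intro k
    apply one_div_le_one_div_of_le (by norm_num)
    have : (0 : ℝ) ≤ k := Nat.cast_nonneg k
    linarith
  have hεlim : Tendsto (fun k : ℕ => 1 / ((k : ℝ) + 64)) atTop (𝓝 0) := by
    apply Tendsto.div_atTop tendsto_const_nhds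
    exact tendsto_atTop_add_const_right _ _ tendsto_natCast_atTop_atTop
  have hlow : ∀ k, τ k ^ ((1 : ℝ) / 8) ≤ 2 * NN ι (τ k) := by
    intro k
    have hε0 : 0 < 1 / ((k : ℝ) + 64) := by positivity
    have h1 := hτsel k 1 one_pos le_rfl
    have hτk := hτ0 k
    have hmax : max (1 / τ k) (τ k / 1) = 1 / τ k := by
      apply max_eq_left
      rw [div_one, le_div_iff₀ hτk]
      nlinarith [hτ1 k]
    rw [hmax] at h1
    have h2 : (1 / τ k) ^ (1 / ((k : ℝ) + 64)) ≤ (1 / τ k) ^ ((1 : ℝ) / 8) := by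
      apply Real.rpow_le_rpow_of_exponent_le
      · rw [le_div_iff₀ hτk]; linarith [hτ1 k]
      · linarith [hε64 k]
    have hN := NN_pos (ι := ι) hτk
    have h3 : (1 : ℝ) ≤ 2 * (1 / τ k) ^ ((1 : ℝ) / 8) * NN ι (τ k) := by
      calc (1 : ℝ) ≤ NN ι 1 := le_NN
        _ ≤ (1 + 1 / ((k : ℝ) + 64)) * (1 / τ k) ^ (1 / ((k : ℝ) + 64)) * NN ι (τ k) := h1
        _ ≤ 2 * (1 / τ k) ^ ((1 : ℝ) / 8) * NN ι (τ k) := by
            apply mul_le_mul_of_nonneg_right _ hN.le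
            apply mul_le_mul _ h2 (by positivity) (by norm_num)
            linarith [hε64 k]
    have hp : 0 < τ k ^ ((1 : ℝ) / 8) := Real.rpow_pos_of_pos hτk _
    rw [Real.div_rpow zero_le_one hτk.le, Real.one_rpow] at h3
    have h4 : 2 * (1 / τ k ^ ((1 : ℝ) / 8)) * NN ι (τ k) = 2 * NN ι (τ k) / τ k ^ ((1 : ℝ) / 8) := by
      ring
    rw [h4, le_div_iff₀ hp, one_mul] at h3
    exact h3
  have hlt : ∀ k, τ k < NN ι (τ k) := by
    intro k
    have hτk := hτ0 k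
    set y : ℝ := τ k ^ ((1 : ℝ) / 8) with hy
    have hy0 : 0 < y := Real.rpow_pos_of_pos hτk _
    have hy8 : y ^ 8 = τ k := by
      rw [hy, ← Real.rpow_natCast, ← Real.rpow_mul hτk.le]; norm_num
    have hτ8 : y ^ 8 < 1 / 64 := by
      rw [hy8]; exact (hτε k).trans_le (hε64 k)
    have hy1 : y < 1 := by
      by_contra hcon
      push Not at hcon
      have : (1 : ℝ) ≤ y ^ 8 := one_le_pow₀ hcon
      linarith
    have hy7 : y ^ 7 < 1 / 2 := by
      by_contra hcon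
      push Not at hcon
      have h1 : y ^ 7 ≤ y := by
        calc y ^ 7 ≤ y ^ 1 := pow_le_pow_of_le_one hy0.le hy1.le (by norm_num)
          _ = y := pow_one y
      have h2 : (1 / 2 : ℝ) * (1 / 2) ≤ y ^ 7 * y :=
        mul_le_mul hcon (hcon.trans h1) (by norm_num) (by positivity)
      have h3 : y ^ 7 * y = y ^ 8 := by ring
      linarith
    have h1 : y ≤ 2 * NN ι (τ k) := hlow k
    have h2 : y ^ 8 = y ^ 7 * y := by ring
    have h3 : τ k < y / 2 := by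
      rw [← hy8, h2]
      nlinarith
    linarith
  choose ν hν1 hν2 hbad using fun k => exists_bad (hτ0 k) (hlt k)
  choose hν0 hνq u hadm hFU using hbad
  exact ⟨{
    τ := τ
    ε := fun k => 1 / ((k : ℝ) + 64)
    ν := ν
    u := u
    τpos := hτ0
    τle := fun k => (hτε k).le.trans (hε64 k)
    τlim := squeeze_zero (fun k => (hτ0 k).le) (fun k => (hτε k).le) hεlim
    εpos := fun k => by positivity
    εle := fun k => (hε64 k).trans (by norm_num)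
    εlim := hεlim
    sel := hτsel
    low := hlow
    adm := hadm
    νlow := hν1
    νup := hν2
    bad := hFU }⟩

namespace Zoom

variable (Z : Zoom ι)

/-- the defect at the selected scale -/
noncomputable def N (k : ℕ) : ℝ := NN ι (Z.τ k)
/-- vertical scale -/
noncomputable def η (k : ℕ) : ℝ := Z.N k * Z.τ k
/-- space scale -/
noncomputable def σ (k : ℕ) : ℝ := Real.sqrt (Z.η k * Z.τ k)
/-- inverse time scale -/
noncomputable def θ (k : ℕ) : ℝ := 1 / Z.τ k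

lemma N_pos (k : ℕ) : 0 < Z.N k := NN_pos (Z.τpos k)

lemma N_le (k : ℕ) : Z.N k ≤ 64 := NN_le (Z.τpos k) ((Z.τle k).trans (by norm_num))

lemma η_pos (k : ℕ) : 0 < Z.η k := mul_pos (Z.N_pos k) (Z.τpos k)

lemma σ_pos (k : ℕ) : 0 < Z.σ k := Real.sqrt_pos.2 (mul_pos (Z.η_pos k) (Z.τpos k))

lemma σ_sq (k : ℕ) : Z.σ k ^ 2 = Z.η k * Z.τ k :=
  Real.sq_sqrt (mul_pos (Z.η_pos k) (Z.τpos k)).le

lemma σ_le (k : ℕ) : Z.σ k ≤ 8 * Z.τ k := by
  have h0 := Z.τpos k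
  apply Real.sqrt_le_iff.2
  refine ⟨by positivity, ?_⟩
  have := Z.N_le k
  calc Z.η k * Z.τ k = Z.N k * Z.τ k ^ 2 := by unfold η; ring
    _ ≤ 64 * Z.τ k ^ 2 := by gcongr
    _ = (8 * Z.τ k) ^ 2 := by ring

lemma θ_pos (k : ℕ) : 0 < Z.θ k := one_div_pos.2 (Z.τpos k)

lemma one_le_θ (k : ℕ) : 1 ≤ Z.θ k := by
  unfold θ
  rw [le_div_iff₀ (Z.τpos k)]
  have := Z.τle k
  linarith

lemma θ_lim : Tendsto Z.θ atTop atTop := by
  have h1 : Tendsto Z.τ atTop (𝓝[>] 0) :=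
    tendsto_nhdsWithin_iff.2 ⟨Z.τlim, Eventually.of_forall fun k => Z.τpos k⟩
  have h2 : Tendsto (fun k => (Z.τ k)⁻¹) atTop atTop := h1.inv_tendsto_nhdsGT_zero
  refine h2.congr fun k => ?_
  simp [θ]

lemma ev_rpow (C : ℝ) {a b : ℝ} (hab : a < b) :
    ∀ᶠ k in atTop, C * Z.θ k ^ a ≤ Z.θ k ^ b := by
  have h1 : Tendsto (fun k => Z.θ k ^ (b - a)) atTop atTop :=
    (tendsto_rpow_atTop (by linarith)).comp Z.θ_lim
  filter_upwards [h1.eventually_ge_atTop C] with k hk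
  have h0 := Z.θ_pos k
  calc C * Z.θ k ^ a ≤ Z.θ k ^ (b - a) * Z.θ k ^ a :=
        mul_le_mul_of_nonneg_right hk (by positivity)
    _ = Z.θ k ^ b := by rw [← Real.rpow_add h0]; congr 1; ring

lemma ev_rpow_const (C : ℝ) {b : ℝ} (hb : 0 < b) : ∀ᶠ k in atTop, C ≤ Z.θ k ^ b := by
  filter_upwards [Z.ev_rpow C hb] with k hk
  simpa using hk

lemma τ_div_σ_le (k : ℕ) : Z.τ k / Z.σ k ≤ 2 * Z.θ k ^ ((1 : ℝ) / 16) := by
  have hτ := Z.τpos k
  have hσ := Z.σ_pos k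
  have hN := Z.N_pos k
  have hθ := Z.θ_pos k
  have h1 : (Z.τ k / Z.σ k) ^ 2 = 1 / Z.N k := by
    rw [div_pow, Z.σ_sq]; unfold η; field_simp
  have h2 : 1 / Z.N k ≤ 2 * Z.θ k ^ ((1 : ℝ) / 8) := by
    have hl : Z.τ k ^ ((1 : ℝ) / 8) ≤ 2 * Z.N k := Z.low k
    unfold θ
    rw [Real.div_rpow zero_le_one hτ.le, Real.one_rpow]
    have hp : 0 < Z.τ k ^ ((1 : ℝ) / 8) := Real.rpow_pos_of_pos hτ _
    rw [div_le_iff₀ hN]
    have : 2 * (1 / Z.τ k ^ ((1 : ℝ) / 8)) * Z.N k = 2 * Z.N k / Z.τ k ^ ((1 : ℝ) / 8) := by ring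
    rw [this, le_div_iff₀ hp]
    linarith
  have h3 : (Z.τ k / Z.σ k) ^ 2 ≤ (2 * Z.θ k ^ ((1 : ℝ) / 16)) ^ 2 := by
    rw [h1, mul_pow, ← Real.rpow_natCast (Z.θ k ^ ((1 : ℝ) / 16)), ← Real.rpow_mul hθ.le]
    have e : (1 : ℝ) / 16 * ((2 : ℕ) : ℝ) = 1 / 8 := by norm_num
    rw [e]
    have : 0 ≤ Z.θ k ^ ((1 : ℝ) / 8) := by positivity
    linarith
  exact (pow_le_pow_iff_left₀ (by positivity) (by positivity) two_ne_zero).1 h3

/-- flatness of all the `u k` at all scales between `τ k` and `sqrt (τ k)` -/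
lemma eventually_FU {τ' : ℝ} (hτ' : 0 < τ') : ∀ᶠ k in atTop, ∀ s, 1 ≤ s →
    s ≤ Z.θ k ^ ((1 : ℝ) / 2) → ∀ x : E, ‖x‖ ≤ 1 / 2 →
      FU (Z.u k) x (Z.τ k * (s * τ')) (Z.η k * (8 * τ' * s ^ ((9 : ℝ) / 8))) := by
  set M : ℝ := max (4 * τ') (1 / (4 * τ')) with hM
  have hM0 : 0 < M := lt_max_of_lt_left (by positivity)
  have hlim : Tendsto (fun k => (1 + Z.ε k) * M ^ Z.ε k) atTop (𝓝 1) := by
    have h1 : Tendsto (fun k => M ^ Z.ε k) atTop (𝓝 (M ^ (0 : ℝ))) :=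
      ((Real.continuousAt_const_rpow hM0.ne').tendsto).comp Z.εlim
    have h2 : Tendsto (fun k => 1 + Z.ε k) atTop (𝓝 (1 + 0)) := tendsto_const_nhds.add Z.εlim
    have := h2.mul h1
    simpa using this
  have hev1 : ∀ᶠ k in atTop, (1 + Z.ε k) * M ^ Z.ε k < 2 :=
    hlim.eventually (gt_mem_nhds (by norm_num))
  filter_upwards [hev1, Z.ev_rpow_const (4 * τ') (b := 1 / 2) (by norm_num),
    Z.ev_rpow_const (8192 * τ' ^ 2) (b := 1 / 2) (by norm_num)] with k h1 h2 h3 s hs hsθ x hx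
  have hτ := Z.τpos k
  have hτ1 : Z.τ k ≤ 1 := (Z.τle k).trans (by norm_num)
  have hs0 : 0 < s := by linarith
  -- `q = θ^(1/2)`
  set q : ℝ := Z.θ k ^ ((1 : ℝ) / 2) with hq
  have hq0 : 0 < q := Real.rpow_pos_of_pos (Z.θ_pos k) _
  have hq2 : q * q = Z.θ k := by
    rw [hq, ← Real.rpow_add (Z.θ_pos k)]; norm_num
  have hτq : Z.τ k * (q * q) = 1 := by
    rw [hq2]; unfold θ; field_simp
  have hτs : Z.τ k * s ≤ Z.τ k * q := mul_le_mul_of_nonneg_left hsθ hτ.le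
  -- `τ q = 1/q`
  have hτq' : Z.τ k * q = 1 / q := by
    rw [eq_div_iff hq0.ne']; linarith
  have hs4 : 4 * (Z.τ k * (s * τ')) ≤ 1 := by
    calc 4 * (Z.τ k * (s * τ')) = (Z.τ k * s) * (4 * τ') := by ring
      _ ≤ (Z.τ k * q) * q := by
          apply mul_le_mul hτs h2 (by positivity) (by positivity)
      _ = 1 := by rw [mul_assoc, hτq]
  have hs8 : s ^ ((1 : ℝ) / 8) ≤ s := by
    calc s ^ ((1 : ℝ) / 8) ≤ s ^ (1 : ℝ) :=
          Real.rpow_le_rpow_of_exponent_le hs (by norm_num)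
      _ = s := Real.rpow_one s
  have hs5 : 2 * s ^ ((1 : ℝ) / 8) * 64 * (4 * (Z.τ k * (s * τ'))) ^ 2 ≤ 1 / 4 := by
    have hss : Z.τ k * (s * s) ≤ 1 := by
      rw [← hτq]
      apply mul_le_mul_of_nonneg_left _ hτ.le
      exact mul_le_mul hsθ hsθ hs0.le hq0.le
    calc 2 * s ^ ((1 : ℝ) / 8) * 64 * (4 * (Z.τ k * (s * τ'))) ^ 2
        ≤ 2 * s * 64 * (4 * (Z.τ k * (s * τ'))) ^ 2 := by gcongr
      _ = 2048 * τ' ^ 2 * ((Z.τ k * (s * s)) * (Z.τ k * s)) := by ring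
      _ ≤ 2048 * τ' ^ 2 * (1 * (Z.τ k * q)) := by
          apply mul_le_mul_of_nonneg_left _ (by positivity)
          exact mul_le_mul hss hτs (by positivity) (by norm_num)
      _ = (8192 * τ' ^ 2) * (Z.τ k * q) / 4 := by ring
      _ ≤ q * (Z.τ k * q) / 4 := by gcongr
      _ = 1 / 4 := by
          have : q * (Z.τ k * q) = 1 := by rw [← hτq]; ring
          rw [this]
  have hmain := scale_bound hτ hτ1 (Z.εpos k) (Z.εle k) (Z.sel k) hτ' (le_max_left _ _)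
    (le_max_right _ _) h1 hs hs4 hs5 (Z.adm k) hx
  exact hmain

/-- the slopes in the base box -/
lemma exists_slopes : ∃ (p : ℕ → E) (b : ℕ → ℝ), ∀ᶠ k in atTop, ‖p k‖ ≤ 32 ∧
    ∀ (x : E) (t : ℝ), |t| ≤ Z.τ k → ‖x‖ ^ 2 ≤ Z.η k * 8 * Z.τ k →
      |Z.u k ((0 : E) + t • p k + x) - Z.u k 0 - ⟪p k, x⟫ - b k * t| ≤ Z.η k * 8 := by
  have h : ∀ᶠ k in atTop, ∃ q : E × ℝ, ∀ (x : E) (t : ℝ), |t| ≤ Z.τ k →
      ‖x‖ ^ 2 ≤ Z.η k * 8 * Z.τ k →
      |Z.u k ((0 : E) + t • q.1 + x) - Z.u k 0 - ⟪q.1, x⟫ - q.2 * t| ≤ Z.η k * 8 := by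
    filter_upwards [Z.eventually_FU one_pos] with k hk
    have h1 : (1 : ℝ) ≤ Z.θ k ^ ((1 : ℝ) / 2) := Real.one_le_rpow (Z.one_le_θ k) (by norm_num)
    obtain ⟨p, b, hpb⟩ := hk 1 le_rfl h1 0 (by simp)
    refine ⟨(p, b), ?_⟩
    simpa using hpb
  obtain ⟨q, hq⟩ := h.choice
  refine ⟨fun k => (q k).1, fun k => (q k).2, ?_⟩
  filter_upwards [hq] with k hk
  refine ⟨?_, hk⟩
  exact slope_bound (Z.adm k) (Z.τpos k) (Z.N_pos k) (Z.N_le k) (Z.τle k) hk

/-- The zoom is impossible. -/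
theorem absurd_of_liouville (Z : Zoom ι) (hL : GK.Liouville (EuclideanSpace ℝ ι)) : False := by
  obtain ⟨p, b, hpb⟩ := Z.exists_slopes
  set w : ℕ → E → ℝ → ℝ :=
    fun k => bst (Z.u k) 0 (p k) (Z.σ k) (Z.τ k) (Z.η k) (b k) with hw
  have hw0 : ∀ k, w k 0 0 = 0 := by intro k; simp [hw, bst]
  -- growth
  have hgrow : ∀ᶠ k in atTop, ∀ (x : E) (t : ℝ), ‖x‖ + |t| ≤ 2 * Z.θ k ^ ((1 : ℝ) / 4) →
      |w k x t| ≤ cK 8 * (1 + (‖x‖ + |t|)) ^ ((3 : ℝ) / 2) := by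
    have hcD : 0 < cD 8 := by unfold cD c1; norm_num
    filter_upwards [hpb, Z.eventually_FU one_pos,
      Z.ev_rpow ((cD 8 * 3) ^ ((8 : ℝ) / 7)) (a := 2 / 7) (b := 1 / 2) (by norm_num)]
      with k h1 h2 h3 x t hxt
    have hθ := Z.θ_pos k
    have hθ4 : 1 ≤ Z.θ k ^ ((1 : ℝ) / 4) := Real.one_le_rpow (Z.one_le_θ k) (by norm_num)
    apply growth_centre (w := w k) (A := 8) (Λ := Z.θ k ^ ((1 : ℝ) / 2)) (by norm_num) _ _ (hw0 k)
      hxt
    · calc (cD 8 * (1 + 2 * Z.θ k ^ ((1 : ℝ) / 4))) ^ ((8 : ℝ) / 7)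
          ≤ (cD 8 * (3 * Z.θ k ^ ((1 : ℝ) / 4))) ^ ((8 : ℝ) / 7) := by
            apply Real.rpow_le_rpow (by positivity) _ (by norm_num)
            apply mul_le_mul_of_nonneg_left _ hcD.le
            linarith
        _ = (cD 8 * 3) ^ ((8 : ℝ) / 7) * Z.θ k ^ ((2 : ℝ) / 7) := by
            rw [← mul_assoc, Real.mul_rpow (by positivity) (by positivity),
              ← Real.rpow_mul hθ.le]
            norm_num
        _ ≤ _ := h3
    · exact FB_zero (b k) (Z.σ_pos k) (Z.τpos k) (Z.η_pos k) (Z.σ_sq k) (by norm_num) h1.2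
    · intro s hs hsΛ
      have hs0 : 0 < s := by linarith
      have hs98 : s ≤ 8 * s ^ ((9 : ℝ) / 8) := by
        have : s ≤ s ^ ((9 : ℝ) / 8) := by
          calc s = s ^ (1 : ℝ) := (Real.rpow_one s).symm
            _ ≤ s ^ ((9 : ℝ) / 8) := Real.rpow_le_rpow_of_exponent_le hs (by norm_num)
        linarith
      apply FB_of_FU (b k) (Z.σ_pos k) (Z.τpos k) (Z.η_pos k) (Z.σ_sq k) hs0 hs98
      have := h2 s hs hsΛ 0 (by simp)
      simpa using this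
  -- windows
  have hwinF : ∀ R τ' : ℝ, 0 < τ' → ∀ᶠ k in atTop, ∀ x t, ‖x‖ ≤ R → |t| ≤ R →
      ∃ q β, Flat.Win 8 (w k) x t τ' q β := by
    intro R τ' hτ'
    have hsmall : ∀ᶠ k in atTop, Z.τ k * (40 * (|R| + 1)) < 1 / 2 := by
      have : Tendsto (fun k => Z.τ k * (40 * (|R| + 1))) atTop (𝓝 (0 * (40 * (|R| + 1)))) :=
        Z.τlim.mul_const _
      rw [zero_mul] at this
      exact this.eventually (gt_mem_nhds (by norm_num))
    filter_upwards [hpb, Z.eventually_FU hτ', hsmall] with k h1 h2 h3 x t hx ht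
    have hτ := Z.τpos k
    have hσ := Z.σ_pos k
    have hxR : ‖x‖ ≤ |R| := hx.trans (le_abs_self R)
    have htR : |t| ≤ |R| := ht.trans (le_abs_self R)
    have hpt : ‖(0 : E) + Z.σ k • x + (Z.τ k * t) • p k‖ ≤ 1 / 2 := by
      calc ‖(0 : E) + Z.σ k • x + (Z.τ k * t) • p k‖
          ≤ ‖(0 : E) + Z.σ k • x‖ + ‖(Z.τ k * t) • p k‖ := norm_add_le _ _
        _ = Z.σ k * ‖x‖ + Z.τ k * |t| * ‖p k‖ := by
            rw [zero_add, norm_smul, norm_smul, Real.norm_of_nonneg hσ.le, Real.norm_eq_abs,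
              abs_mul, abs_of_pos hτ]
        _ ≤ 8 * Z.τ k * |R| + Z.τ k * |R| * 32 := by
            have := Z.σ_le k
            have := h1.1
            gcongr
        _ ≤ Z.τ k * (40 * (|R| + 1)) := by
            have : 0 ≤ |R| := abs_nonneg R
            nlinarith
        _ ≤ 1 / 2 := h3.le
    have h4 : (1 : ℝ) ≤ Z.θ k ^ ((1 : ℝ) / 2) := Real.one_le_rpow (Z.one_le_θ k) (by norm_num)
    have h5 := h2 1 le_rfl h4 _ hpt
    rw [one_mul, Real.one_rpow, mul_one] at h5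
    obtain ⟨q, β, hq⟩ := FB_of_FU (b k) hσ hτ (Z.η_pos k) (Z.σ_sq k) hτ'
      (by linarith : τ' ≤ 8 * τ') h5
    exact ⟨q, β, fun y s hy hs => hq y s hs hy⟩
  -- the ultrafilter
  set F : Ultrafilter ℕ := hyperfilter ℕ with hF
  have hFle : (F : Filter ℕ) ≤ atTop := Nat.hyperfilter_le_atTop
  have hcK : 0 ≤ cK 8 := by unfold cK cD c1 c2; positivity
  obtain ⟨W, hWc, hWg, hWconv, hWflat⟩ := compactness F w hcK (by norm_num : (1 : ℝ) ≤ 8)
    (by
      intro R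
      filter_upwards [hFle hgrow, hFle (Z.ev_rpow_const |R| (b := 1 / 4) (by norm_num))]
        with k h1 h2 x t hx ht
      apply h1
      have := le_abs_self R
      linarith)
    (fun R τ' hτ' => (hwinF R τ' hτ').filter_mono hFle)
  -- the limit is a solution
  have hsol : Sol.IsSol W := by
    refine isSol_limit (l := (F : Filter ℕ)) (Ω := fun _ => ball (0 : E) 1) (u := Z.u)
      (x0 := fun _ => 0) (p := p) (σ := Z.σ) (τ := Z.τ) (η := Z.η) (b := b)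
      (Λ := fun k => Z.θ k ^ ((1 : ℝ) / 4)) (W := W)
      (Eventually.of_forall fun k => (Z.adm k).cc)
      (Eventually.of_forall fun k => ⟨Z.σ_pos k, Z.τpos k, Z.η_pos k, Z.σ_sq k⟩) ?_ ?_ ?_ hWc hWconv
    · intro R
      have hsmall : ∀ᶠ k in atTop, Z.τ k * (40 * |R|) < 1 := by
        have : Tendsto (fun k => Z.τ k * (40 * |R|)) atTop (𝓝 (0 * (40 * |R|))) :=
          Z.τlim.mul_const _
        rw [zero_mul] at this
        exact this.eventually (gt_mem_nhds (by norm_num))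
      filter_upwards [hFle hsmall, hFle hpb] with k h1 h2
      apply closedBall_subset_ball
      have hτ := Z.τpos k
      have hσ := Z.σ_pos k
      calc R * (Z.σ k + Z.τ k * ‖p k‖) ≤ |R| * (8 * Z.τ k + Z.τ k * 32) := by
            have := Z.σ_le k
            have := h2.1
            have := le_abs_self R
            gcongr
        _ = Z.τ k * (40 * |R|) := by ring
        _ < 1 := h1
    · intro M
      filter_upwards [hFle (Z.ev_rpow (|M| * 65) (a := 1 / 16) (b := 1 / 4) (by norm_num)),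
        hFle hpb] with k h1 h2
      have hτ := Z.τpos k
      have hσ := Z.σ_pos k
      have h3 := Z.τ_div_σ_le k
      have h4 : (1 : ℝ) ≤ Z.θ k ^ ((1 : ℝ) / 16) := Real.one_le_rpow (Z.one_le_θ k) (by norm_num)
      calc M * (1 + Z.τ k * ‖p k‖ / Z.σ k) = M * (1 + Z.τ k / Z.σ k * ‖p k‖) := by ring
        _ ≤ |M| * (1 + (2 * Z.θ k ^ ((1 : ℝ) / 16)) * 32) := by
            have := le_abs_self M
            have := h2.1
            gcongr
        _ ≤ |M| * 65 * Z.θ k ^ ((1 : ℝ) / 16) := by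
            have : 0 ≤ |M| := abs_nonneg M
            nlinarith
        _ ≤ _ := h1
    · intro R ε hε
      set c : ℝ := ε / (2 * (cK 8 + 1)) with hc
      have hc0 : 0 < c := by positivity
      obtain ⟨C, hC⟩ := Flat.g_le_quad hc0
      refine ⟨cK 8 * (c * (2 * R ^ 2) + C), ?_⟩
      filter_upwards [hFle hgrow, hFle (Z.ev_rpow_const |R| (b := 1 / 4) (by norm_num))]
        with k h1 h2 y t hy ht
      have hR : |t| ≤ |R| := ht.trans (le_abs_self R)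
      have h3 := h1 y t (by linarith)
      refine h3.trans ?_
      have h4 := hC (‖y‖ + |t|) (by positivity)
      have h5 : (‖y‖ + |t|) ^ 2 ≤ 2 * ‖y‖ ^ 2 + 2 * R ^ 2 := by
        have h6 : |t| ^ 2 ≤ R ^ 2 := by
          rw [← sq_abs R]
          exact pow_le_pow_left₀ (abs_nonneg t) hR 2
        nlinarith [sq_nonneg (‖y‖ - |t|)]
      unfold Flat.g at h4
      calc cK 8 * (1 + (‖y‖ + |t|)) ^ ((3 : ℝ) / 2)
          ≤ cK 8 * (c * (‖y‖ + |t|) ^ 2 + C) := mul_le_mul_of_nonneg_left h4 hcK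
        _ ≤ cK 8 * (c * (2 * ‖y‖ ^ 2 + 2 * R ^ 2) + C) := by
            apply mul_le_mul_of_nonneg_left _ hcK
            have := mul_le_mul_of_nonneg_left h5 hc0.le
            linarith
        _ = (cK 8 * (2 * c)) * ‖y‖ ^ 2 + cK 8 * (c * (2 * R ^ 2) + C) := by ring
        _ ≤ ε * ‖y‖ ^ 2 + cK 8 * (c * (2 * R ^ 2) + C) := by
            have : cK 8 * (2 * c) ≤ ε := by
              rw [hc]
              calc cK 8 * (2 * (ε / (2 * (cK 8 + 1)))) = ε * (cK 8 / (cK 8 + 1)) := by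
                    field_simp
                _ ≤ ε * 1 := by
                    apply mul_le_mul_of_nonneg_left _ hε.le
                    rw [div_le_one (by linarith)]; linarith
                _ = ε := mul_one ε
            have hy2 : 0 ≤ ‖y‖ ^ 2 := by positivity
            have := mul_le_mul_of_nonneg_right this hy2
            linarith
  -- the limit is in the class
  have hcls : GK.Cls (Flat.Kg 8) W := by
    refine ⟨Flat.Kg_pos (by norm_num), hsol, ?_⟩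
    intro x₀ t₀ τ hτ
    obtain ⟨q, β, hq⟩ := hWflat.flatG (by norm_num) x₀ t₀ τ hτ
    exact ⟨q, β, hq⟩
  obtain ⟨q, β, c, haff⟩ := hL _ W hcls
  -- contradiction
  have hev := hWconv (‖q‖ + 1) (1 / 4) (by norm_num)
  obtain ⟨k, hk⟩ := hev.exists
  apply Z.bad k
  apply FU_of_FB (b k) (Z.σ_pos k) (Z.τpos k) (Z.η_pos k) (Z.σ_sq k)
    (p := q) (b := β + ‖q‖ ^ 2)
    (mul_le_mul_of_nonneg_right (Z.νup k) (Z.τpos k).le)
  · have h1 := Z.νlow k
    have h2 : Z.η k / 2 = NN ι (Z.τ k) / 2 * Z.τ k := by unfold η N; ring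
    rw [h2]
    exact mul_le_mul_of_nonneg_right h1.le (Z.τpos k).le
  · intro x t ht hx
    have hq0 := norm_nonneg q
    have e1 := hk (t • q + x) t (by
      calc ‖t • q + x‖ ≤ ‖t • q‖ + ‖x‖ := norm_add_le _ _
        _ = |t| * ‖q‖ + ‖x‖ := by rw [norm_smul, Real.norm_eq_abs]
        _ ≤ 1 * ‖q‖ + 1 := by gcongr
        _ = ‖q‖ + 1 := by ring) (by linarith)
    have e2 := hk 0 0 (by rw [norm_zero]; linarith) (by rw [abs_zero]; linarith)
    rw [haff] at e1 e2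
    rw [inner_add_right, inner_smul_right, real_inner_self_eq_norm_sq] at e1
    rw [inner_zero_right] at e2
    have e3 : bst (Z.u k) 0 (p k) (Z.σ k) (Z.τ k) (Z.η k) (b k) (0 + t • q + x) (0 + t) =
        bst (Z.u k) 0 (p k) (Z.σ k) (Z.τ k) (Z.η k) (b k) (t • q + x) t := by
      rw [zero_add, zero_add]
    rw [e3]
    simp only [hw] at e1 e2
    rw [abs_le] at e1 e2 ⊢
    constructor <;> linarith [e1.1, e1.2, e2.1, e2.2]

end Zoom

/-- **Section 2**: the Liouville theorem implies the centred expansion. -/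
theorem centred_of_liouville (d : ℕ) (hL : GK.Liouville (EuclideanSpace ℝ (Fin d))) :
    CentredExpansion d := by
  by_contra hcon
  have hnot : ∀ a : ℝ, 0 < a → ¬ ∃ C : ℝ, ∀ t, 0 < t → t ≤ 1 → NN (Fin d) t ≤ C * t ^ a := by
    rintro a ha ⟨C, hC⟩
    exact hcon (centred_of_decay ha hC)
  obtain ⟨Z⟩ := exists_zoom hnot
  exact Z.absurd_of_liouville hL

end Crest.Agent.R094.S2
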