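import Crest.Agent.R094.StageCUpB

/-! Row 94: assembly of `StageC_stmt` from the lower bound at time `1+s` (helper431). -/

set_option autoImplicit false
set_option linter.unusedSectionVars false

namespace Crest.Agent.R094.GK

open Sol Set Filter Topology
open Crest.Agent.R094.CUpB (stageC_upper exists_max_val supGrad_of_max)

variable {V : Type*} [NormedAddCommGroup V] [InnerProductSpace ℝ V] [FiniteDimensional ℝ V]

/-- `StageC_stmt` from the lower bound at time `1+s` -/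
theorem stageC_of_low
    (hLow : ∀ K κ : ℝ, 0 < κ → IsKap V K κ → ∀ (w : V → ℝ → ℝ) (x₀ : V), Cls K w →
      Uf w x₀ 1 = w x₀ 1 + κ → ∃ C, 0 ≤ C ∧ ∀ s, 0 < s → s ≤ 1 / 2 →
        κ - C * s ≤ Vf (Uf w) w (1 / 36) 0 s (1 + s)) : StageC_stmt V := by
  intro K κ hκ hkap w x₀ hw htouch
  obtain ⟨C1, hC1, hup⟩ := stageC_upper hκ hkap hw
  obtain ⟨C2, hC2, hlow⟩ := hLow K κ hκ hkap w x₀ hw htouch
  have hU : SubPos (Uf w) := EnvSub K w hw
  set C3 := 2 * κ + 2 * C2 + C1 with hC3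
  have hC3n : 0 ≤ C3 := by positivity
  refine ⟨C3 + C1 + 12 * (C3 + C1 + 1), by positivity, ?_⟩
  intro t s ht ht1 hs hst
  have hs1 : s ≤ 1 / 2 := by linarith
  -- maximiser at time t
  obtain ⟨x, z, hmax⟩ := exists_max_val hU hw.sol (0 : V) (by norm_num : (0:ℝ) < 1 / 36) hs ht
  have hV : Vf (Uf w) w (1 / 36) 0 s t = val (Uf w) w (1 / 36) 0 s t x z := by
    apply le_antisymm
    · exact ciSup_le fun q => hmax q.1 q.2
    · exact le_ciSup (bddAbove_val hU hw.sol.grow 0 (by norm_num) hs ht) (x, z)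
  have h1 := hup t s ht (by linarith) hs (by linarith) hst x z hmax
  have hY0 : 0 ≤ ‖x - (t / s) • (x - z)‖ ^ 2 / 144 := by positivity
  -- upper bound at the reflected time
  have ht' : 0 < 2 + 2 * s - t := by linarith
  obtain ⟨x', z', hmax'⟩ := exists_max_val hU hw.sol (0 : V) (by norm_num : (0:ℝ) < 1 / 36) hs ht'
  have h2 := hup (2 + 2 * s - t) s ht' (by linarith) hs (by linarith) (by linarith) x' z' hmax'
  have hV' : Vf (Uf w) w (1 / 36) 0 s (2 + 2 * s - t) ≤ κ * (2 + 2 * s - t) + s * C1 := by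
    refine ciSup_le fun q => ?_
    have a1 := hmax' q.1 q.2
    have a2 : 0 ≤ s * (‖x' - ((2 + 2 * s - t) / s) • (x' - z')‖ ^ 2 / 144) := by positivity
    linarith
  -- convexity
  have h3 := propC (Uf w) w hU hw.sol (1 / 36) 0 s (1 + s) (1 + s - t) (by norm_num) hs
    (by linarith) (by linarith) (by linarith) (by
      have : (2 * (1 + s + (1 + s - t))) ^ 2 ≤ (6 : ℝ) ^ 2 := by
        apply sq_le_sq' <;> linarith
      linarith)
  have e1 : 1 + s - (1 + s - t) = t := by ring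
  have e2 : 1 + s + (1 + s - t) = 2 + 2 * s - t := by ring
  rw [e1, e2] at h3
  have h4 := hlow s hs hs1
  have h5 : κ * t - C3 * s ≤ val (Uf w) w (1 / 36) 0 s t x z := by
    rw [← hV, hC3]; linarith
  have hCs : 0 ≤ 12 * (C3 + C1 + 1) * s := by positivity
  have hC1s : 0 ≤ C1 * s := by positivity
  have hC3s : 0 ≤ C3 * s := by positivity
  refine ⟨?_, x, z, hmax, ?_, ?_, ?_⟩
  · intro a b
    have a1 := hmax a b
    have a2 : 0 ≤ s * (‖x - (t / s) • (x - z)‖ ^ 2 / 144) := by positivity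
    linarith
  · linarith
  · have h6 : s * (‖x - (t / s) • (x - z)‖ ^ 2 / 144) ≤ s * (C3 + C1) := by linarith
    have h7 : ‖x - (t / s) • (x - z)‖ ^ 2 / 144 ≤ C3 + C1 := le_of_mul_le_mul_left h6 hs
    have h8 : ‖x - (t / s) • (x - z)‖ ^ 2 ≤ (12 * (C3 + C1 + 1)) ^ 2 := by nlinarith
    have h9 := abs_le_of_sq_le_sq h8 (by positivity)
    have h10 := (le_abs_self _).trans h9
    linarith
  · have := supGrad_of_max (Y₀ := (0 : V)) (c := 1 / 36) hs ht (CUpB.concaveOn_Uf hw.sol.grow ht)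
      (fun x' => hmax x' z)
    rwa [sub_zero] at this

end Crest.Agent.R094.GK
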