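import Crest.Agent.R094.StageC

/-! Row 94: the lower bound `κ - C s ≤ V_s(1+s)` of the first stage (helper330), hence `StageC_stmt`. -/

set_option autoImplicit false
set_option linter.unusedSectionVars false

namespace Crest.Agent.R094.CLow

open Sol Set Filter Topology GK

variable {V : Type*} [NormedAddCommGroup V] [InnerProductSpace ℝ V] [FiniteDimensional ℝ V]

theorem nsq_le_two (a b : V) : ‖a - b‖ ^ 2 ≤ 2 * ‖a‖ ^ 2 + 2 * ‖b‖ ^ 2 := by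
  have h1 := norm_sub_sq_real a b
  have h2 := norm_add_sq_real a b
  have h3 : 0 ≤ ‖a + b‖ ^ 2 := by positivity
  linarith

theorem nsq_add_le_two (a b : V) : ‖a + b‖ ^ 2 ≤ 2 * ‖a‖ ^ 2 + 2 * ‖b‖ ^ 2 := by
  have := nsq_le_two a (-b)
  rwa [sub_neg_eq_add, norm_neg] at this

/-- one-sided Lipschitz bound in time of a sub-function which is semiconcave in space. -/
theorem time_lower {U : V → ℝ → ℝ} (hU : SubPos U)
    (hconc : ∀ t, 0 < t → ConcaveOn ℝ univ (fun x => U x t - ‖x‖ ^ 2 / (2 * t))) (x₀ : V) :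
    ∃ C, 0 ≤ C ∧ ∃ M, 0 ≤ M ∧ ∀ s, 0 < s → s ≤ 1 / 2 → ∃ x ν : V, x = x₀ + s • ν ∧
      ‖ν‖ ^ 2 ≤ M ∧ U x₀ 1 - C * s ≤ U x (1 + s) - s * ‖ν‖ ^ 2 / 2 := by
  obtain ⟨C, hC⟩ := hU.grow 2 (1 / 14) (by norm_num)
  have hCn : 0 ≤ C := by
    have := (abs_nonneg _).trans (hC 0 1 (by norm_num) (by norm_num))
    simpa using this
  set M := 2 * ‖x₀‖ ^ 2 + 8 * C with hM
  have hMn : 0 ≤ M := by positivity
  have hqup : ∀ t, 0 < t → QUp (fun y => U y t) := by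
    intro t ht ε hε
    obtain ⟨C', hC'⟩ := hU.grow t ε hε
    exact ⟨C', fun y => (abs_le.mp (hC' y t ht le_rfl)).2⟩
  refine ⟨2 * ((2 * ‖x₀‖ ^ 2 + M / 2) / 14 + C + M / 4 + ‖x₀‖ ^ 2 / 14 + C), by positivity,
    M, hMn, ?_⟩
  intro s hs hs2
  have h1s : 0 < 1 + s := by linarith
  obtain ⟨x, hx⟩ := exists_supc (CUpB.SubPos.cont_slice hU h1s) (hqup _ h1s) hs x₀
  set ν := (1 / s) • (x - x₀) with hν
  have hxe : x = x₀ + s • ν := by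
    rw [hν, smul_smul, mul_one_div, div_self hs.ne', one_smul]; abel
  -- supergradient
  have hsg : SupGrad (1 + s) (fun y => U y (1 + s)) x ν := by
    refine CUpB.supGrad_of_quad (M := 1 / (2 * s)) h1s (hconc _ h1s) fun ξ => ?_
    have h := le_supc (hqup _ h1s) hs x₀ (x + ξ)
    rw [hx] at h
    have e1 : x₀ - (x + ξ) = (x₀ - x) - ξ := by abel
    rw [e1, norm_sub_sq_real (x₀ - x) ξ] at h
    have e2 : inner ℝ ν ξ = - (inner ℝ (x₀ - x) ξ) / s := by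
      rw [hν, real_inner_smul_left, ← neg_sub x₀ x, inner_neg_left]; ring
    rw [e2]
    have e3 : (‖x₀ - x‖ ^ 2 - 2 * inner ℝ (x₀ - x) ξ + ‖ξ‖ ^ 2) / (2 * s)
        = ‖x₀ - x‖ ^ 2 / (2 * s) - inner ℝ (x₀ - x) ξ / s + 1 / (2 * s) * ‖ξ‖ ^ 2 := by
      field_simp
    rw [e3] at h
    have e4 : - (inner ℝ (x₀ - x) ξ) / s = - (inner ℝ (x₀ - x) ξ / s) := by ring
    rw [e4]
    linarith
  -- bound of ν
  have hνb : ‖ν‖ ^ 2 ≤ M := by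
    have h := hsg (-ν)
    simp only at h
    rw [inner_neg_right, real_inner_self_eq_norm_sq, norm_neg] at h
    have h1 : ‖ν‖ ^ 2 / (2 * (1 + s)) ≤ ‖ν‖ ^ 2 / 2 := by
      apply div_le_div_of_nonneg_left (by positivity) (by norm_num) (by linarith)
    have h2 := (abs_le.mp (hC x (1 + s) h1s (by linarith))).2
    have h3 := (abs_le.mp (hC (x + -ν) (1 + s) h1s (by linarith))).1
    have h4 : ‖x + -ν‖ ^ 2 ≤ 2 * ‖x‖ ^ 2 + 2 * ‖ν‖ ^ 2 := by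
      have := nsq_add_le_two x (-ν)
      rwa [norm_neg] at this
    have h5 : ‖x‖ ^ 2 ≤ 2 * ‖x₀‖ ^ 2 + ‖ν‖ ^ 2 / 2 := by
      have h6 := nsq_add_le_two x₀ (s • ν)
      rw [← hxe, norm_smul, mul_pow, Real.norm_eq_abs, sq_abs] at h6
      have h7 : s ^ 2 * ‖ν‖ ^ 2 ≤ (1 / 2) ^ 2 * ‖ν‖ ^ 2 := by gcongr
      linarith
    rw [hM]
    linarith [sq_nonneg ‖x₀‖]
  refine ⟨x, ν, hxe, hνb, ?_⟩
  -- base point
  set b := x₀ - (1 / 2 : ℝ) • ν with hb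
  have hT2 : T (1 / 2 + s) U b (1 / 2) ≤ U x (1 + s) - (1 / 2 + s) * ‖ν‖ ^ 2 / 2 := by
    rw [T_eq]
    refine supc_le fun y => ?_
    obtain ⟨ξ, rfl⟩ : ∃ ξ, y = x + ξ := ⟨y - x, by abel⟩
    have e1 : (1:ℝ) / 2 + (1 / 2 + s) = 1 + s := by ring
    have e2 : b - (x + ξ) = -((1 / 2 + s) • ν + ξ) := by
      rw [hb, hxe]; module
    rw [e1, e2, norm_neg, norm_add_sq_real, real_inner_smul_left, norm_smul, mul_pow,
      Real.norm_eq_abs, sq_abs]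
    have h := hsg ξ
    simp only at h
    have h1 : ‖ξ‖ ^ 2 / (2 * (1 + s)) ≤ ‖ξ‖ ^ 2 / (2 * (1 / 2 + s)) := by
      apply div_le_div_of_nonneg_left (by positivity) (by positivity) (by linarith)
    have e3 : ((1 / 2 + s) ^ 2 * ‖ν‖ ^ 2 + 2 * ((1 / 2 + s) * inner ℝ ν ξ) + ‖ξ‖ ^ 2)
        / (2 * (1 / 2 + s)) = (1 / 2 + s) * ‖ν‖ ^ 2 / 2 + inner ℝ ν ξ
          + ‖ξ‖ ^ 2 / (2 * (1 / 2 + s)) := by
      have : (1 / 2 + s) ≠ 0 := by positivity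
      field_simp
    rw [e3]
    linarith
  have hT1 : U x₀ 1 - ‖ν‖ ^ 2 / 4 ≤ T (1 / 2) U b (1 / 2) := by
    rw [T_eq]
    have e1 : (1:ℝ) / 2 + 1 / 2 = 1 := by norm_num
    rw [e1]
    have h := le_supc (hqup 1 one_pos) (by norm_num : (0:ℝ) < 1 / 2) b x₀
    have e2 : b - x₀ = -((1 / 2 : ℝ) • ν) := by rw [hb]; abel
    rw [e2, norm_neg, norm_smul, mul_pow, Real.norm_eq_abs, sq_abs] at h
    have e3 : ((1:ℝ) / 2) ^ 2 * ‖ν‖ ^ 2 / (2 * (1 / 2)) = ‖ν‖ ^ 2 / 4 := by ring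
    rw [e3] at h
    exact h
  have hsub := hU.sub b (1 / 2) (1 / 2) (1 / 2 + s) (by norm_num) (by norm_num) (by linarith)
  have hp : 0 < 1 / 2 + s := by linarith
  have hsub2 : (1 / 2 + s) * T (1 / 2) U b (1 / 2)
      ≤ s * U b (1 / 2) + 1 / 2 * T (1 / 2 + s) U b (1 / 2) := by
    have h := mul_le_mul_of_nonneg_left hsub hp.le
    have e : (1 / 2 + s) * ((1 - 1 / 2 / (1 / 2 + s)) * U b (1 / 2)
        + 1 / 2 / (1 / 2 + s) * T (1 / 2 + s) U b (1 / 2))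
        = s * U b (1 / 2) + 1 / 2 * T (1 / 2 + s) U b (1 / 2) := by
      field_simp; ring
    rwa [e] at h
  have hUb := (abs_le.mp (hC b (1 / 2) (by norm_num) (by norm_num))).2
  have hU0 := (abs_le.mp (hC x₀ 1 (by norm_num) (by norm_num))).1
  have hbn : ‖b‖ ^ 2 ≤ 2 * ‖x₀‖ ^ 2 + M / 2 := by
    have h6 := nsq_le_two x₀ ((1 / 2 : ℝ) • ν)
    rw [← hb, norm_smul, mul_pow, Real.norm_eq_abs, sq_abs] at h6
    linarith
  have h10 : (1 / 2 + s) * (U x₀ 1 - ‖ν‖ ^ 2 / 4) ≤ (1 / 2 + s) * T (1 / 2) U b (1 / 2) :=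
    mul_le_mul_of_nonneg_left hT1 hp.le
  -- U x (1+s) - s|ν|²/2 ≥ U x₀ 1 - 2 s (U b + |ν|²/4 - U x₀ 1)
  have h11 : U x₀ 1 - 2 * s * (U b (1 / 2) + ‖ν‖ ^ 2 / 4 - U x₀ 1)
      ≤ U x (1 + s) - s * ‖ν‖ ^ 2 / 2 := by
    nlinarith
  have h12 : U b (1 / 2) + ‖ν‖ ^ 2 / 4 - U x₀ 1
      ≤ (2 * ‖x₀‖ ^ 2 + M / 2) / 14 + C + M / 4 + ‖x₀‖ ^ 2 / 14 + C := by
    linarith
  have h13 := mul_le_mul_of_nonneg_left h12 (by positivity : 0 ≤ 2 * s)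
  linarith

/-- the lower bound of the first stage -/
theorem stageC_low : ∀ K κ : ℝ, 0 < κ → IsKap V K κ → ∀ (w : V → ℝ → ℝ) (x₀ : V), Cls K w →
    Uf w x₀ 1 = w x₀ 1 + κ → ∃ C, 0 ≤ C ∧ ∀ s, 0 < s → s ≤ 1 / 2 →
      κ - C * s ≤ Vf (Uf w) w (1 / 36) 0 s (1 + s) := by
  intro K κ _ _ w x₀ hw htouch
  have hU : SubPos (Uf w) := EnvSub K w hw
  obtain ⟨C, hC, M, hM, h⟩ := time_lower hU (fun t ht => CUpB.concaveOn_Uf hw.sol.grow ht) x₀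
  refine ⟨C + (2 * ‖x₀‖ ^ 2 + 2 * M) / 72, by positivity, ?_⟩
  intro s hs hs2
  obtain ⟨x, ν, hxe, hνb, h1⟩ := h s hs hs2
  have hle : val (Uf w) w (1 / 36) 0 s (1 + s) x x₀ ≤ Vf (Uf w) w (1 / 36) 0 s (1 + s) :=
    le_ciSup (bddAbove_val hU hw.sol.grow 0 (by norm_num : (0:ℝ) < 1 / 36) hs
      (by linarith : 0 < 1 + s)) ((x, x₀) : V × V)
  refine le_trans ?_ hle
  unfold val Phi
  have e1 : x - x₀ = s • ν := by rw [hxe]; abel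
  have e2 : x - ((1 + s) / s) • (x - x₀) - 0 = x₀ - ν := by
    rw [e1, smul_smul, hxe, div_mul_cancel₀ _ hs.ne']; module
  have e3 : (1 + s) - s = 1 := by ring
  rw [e2, e1, e3, norm_smul, mul_pow, Real.norm_eq_abs, sq_abs]
  have e4 : s ^ 2 * ‖ν‖ ^ 2 / (2 * s) = s * ‖ν‖ ^ 2 / 2 := by field_simp
  rw [e4]
  have h2 := nsq_le_two x₀ ν
  have h3 : s * (1 / 36) / 2 * ‖x₀ - ν‖ ^ 2 ≤ s * (1 / 36) / 2 * (2 * ‖x₀‖ ^ 2 + 2 * M) := by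
    gcongr
    linarith
  rw [htouch] at h1
  nlinarith

theorem stageC : StageC_stmt V := stageC_of_low stageC_low

end Crest.Agent.R094.CLow
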