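import Crest.Agent.R094.Iface
import Crest.Agent.R094.SolBasic
import Crest.Agent.R094.EnvK

/-!
Row 94 (S0124), route 7921, first stage, UPPER bound (helper404).
-/

set_option autoImplicit false
set_option linter.unusedSectionVars false

noncomputable section

open Filter Topology Set

namespace Crest.Agent.R094.GK

open Sol

variable {V : Type*} [NormedAddCommGroup V] [InnerProductSpace ℝ V]

/-- Upper bound of the first stage. -/
def StageCUp_stmt (V : Type*) [NormedAddCommGroup V] [InnerProductSpace ℝ V]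
    [FiniteDimensional ℝ V] : Prop :=
  ∀ K κ : ℝ, 0 < κ → IsKap V K κ → ∀ w : V → ℝ → ℝ, Cls K w →
    ∃ C, 0 ≤ C ∧ ∀ t s, 0 < t → t ≤ 3 → 0 < s → s ≤ 1 → s ≤ t →
      ∀ x z, val (Uf w) w (1 / 36) 0 s t x z ≤ κ * t + C * s

/-- Position of a near-maximiser is controlled by its vertex position. -/
theorem cup_position {w : V → ℝ → ℝ} (hg : Grow w) {κ : ℝ} (hκ : 0 < κ)
    (hl : ∀ t, 0 < t → ∀ x, w x t ≤ Uf w x t)
    (hu : ∀ t, 0 < t → ∀ x, Uf w x t ≤ w x t + κ * t) :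
    ∃ C, 0 ≤ C ∧ ∀ t s, 0 < t → t ≤ 3 → 0 < s → s ≤ t → ∀ x z : V,
      SupGrad t (fun y => Uf w y t) x
        ((1 / s) • (x - z) - ((1 / 36) * (t - s)) • (x - (t / s) • (x - z))) →
      ‖x‖ ^ 2 ≤ 8 * ‖x - (t / s) • (x - z)‖ ^ 2 + C := by
  obtain ⟨C0, hC0⟩ := hg 3 (1 / 96) (by norm_num)
  have hC0' : 0 ≤ C0 := by
    have := hC0 0 0 (by norm_num)
    rw [norm_zero] at this
    have h2 := abs_nonneg (w 0 0)
    linarith
  refine ⟨2 * (12 * (3 * κ + 2 * C0)), by positivity, fun t s ht ht3 hs hst x z hq => ?_⟩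
  set Y : V := x - (t / s) • (x - z) with hY
  set q : V := (1 / s) • (x - z) - ((1 / 36) * (t - s)) • Y with hqdef
  -- `x = (1 + c t (t-s)) Y + t q`
  have hx : x = (1 + 1 / 36 * t * (t - s)) • Y + t • q := by
    have h1 : t • q = (t / s) • (x - z) - (1 / 36 * t * (t - s)) • Y := by
      rw [hqdef, smul_sub, smul_smul, smul_smul]
      congr 1
      · congr 1; ring
      · congr 1; ring
    rw [h1, add_smul, one_smul]
    have h2 : x = Y + (t / s) • (x - z) := by rw [hY]; abel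
    calc x = Y + (t / s) • (x - z) := h2
      _ = _ := by abel
  set r : ℝ := t * ‖q‖ with hr
  have hr0 : 0 ≤ r := by positivity
  have hxn : ‖x‖ ≤ 5 / 4 * ‖Y‖ + r := by
    have h1 : ‖x‖ ≤ ‖(1 + 1 / 36 * t * (t - s)) • Y‖ + ‖t • q‖ := by
      conv_lhs => rw [hx]
      exact norm_add_le _ _
    rw [norm_smul, norm_smul, Real.norm_eq_abs, Real.norm_eq_abs, abs_of_pos ht] at h1
    have h2 : |1 + 1 / 36 * t * (t - s)| ≤ 5 / 4 := by
      have h3 : 0 ≤ 1 / 36 * t * (t - s) := by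
        have : 0 ≤ t - s := by linarith
        positivity
      rw [abs_of_nonneg (by linarith)]
      nlinarith
    have h4 := mul_le_mul_of_nonneg_right h2 (norm_nonneg Y)
    linarith
  have hx2 : ‖x‖ ^ 2 ≤ 25 / 8 * ‖Y‖ ^ 2 + 2 * r ^ 2 := by
    have h1 := pow_le_pow_left₀ (norm_nonneg x) hxn 2
    nlinarith [sq_nonneg (5 / 4 * ‖Y‖ - r)]
  -- test the supergradient with `-t q`
  have h1 := hq (-(t • q))
  simp only at h1
  rw [inner_neg_right, inner_smul_right, real_inner_self_eq_norm_sq, norm_neg, norm_smul,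
    Real.norm_eq_abs, abs_of_pos ht] at h1
  have h2 := hl t ht (x + -(t • q))
  have h3 := hu t ht x
  have habs : |t| ≤ 3 := by rw [abs_of_pos ht]; exact ht3
  have h4 := (abs_le.1 (hC0 x t habs)).2
  have h5 := (abs_le.1 (hC0 (x + -(t • q)) t habs)).1
  have h6 : ‖x + -(t • q)‖ ^ 2 ≤ 2 * ‖x‖ ^ 2 + 2 * r ^ 2 := by
    have h7 : ‖x + -(t • q)‖ ≤ ‖x‖ + r := by
      refine (norm_add_le _ _).trans ?_
      rw [norm_neg, norm_smul, Real.norm_eq_abs, abs_of_pos ht]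
    have h8 := pow_le_pow_left₀ (norm_nonneg _) h7 2
    nlinarith [sq_nonneg (‖x‖ - r)]
  have h9 : r ^ 2 / 6 ≤ r ^ 2 / (2 * t) := by
    apply div_le_div_of_nonneg_left (sq_nonneg r) (by positivity)
    linarith
  have h10 : t * ‖q‖ ^ 2 - r ^ 2 / (2 * t) = r ^ 2 / (2 * t) := by
    rw [hr]; field_simp; ring
  have h11 : κ * t ≤ 3 * κ := by nlinarith
  have h12 : r ^ 2 / 6 ≤ 3 * κ + 2 * C0 + 3 / 96 * ‖x‖ ^ 2 + 2 / 96 * r ^ 2 := by
    have h13 : (t * ‖q‖) ^ 2 = r ^ 2 := by rw [hr]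
    rw [h13] at h1
    linarith
  nlinarith [h12, hx2]

/-- bound of the backward slope at scale `1` -/
theorem cup_slope {w : V → ℝ → ℝ} (hg : Grow w) (ε : ℝ) (hε : 0 < ε) :
    ∃ C, 0 ≤ C ∧ ∀ t, 0 < t → t ≤ 3 → ∀ x, hm 1 w x t ≤ ε * ‖x‖ ^ 2 + C := by
  set δ : ℝ := min (ε / 3) (1 / 4) with hδ
  have hδ0 : 0 < δ := by positivity
  have hδ1 : δ ≤ ε / 3 := min_le_left _ _
  have hδ2 : δ ≤ 1 / 4 := min_le_right _ _
  obtain ⟨C0, hC0⟩ := hg 3 δ hδ0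
  have hC0' : 0 ≤ C0 := by
    have := hC0 0 0 (by norm_num)
    rw [norm_zero] at this
    have h2 := abs_nonneg (w 0 0)
    linarith
  refine ⟨2 * C0, by positivity, fun t ht ht3 x => ?_⟩
  have h1 : -(2 * δ * ‖x‖ ^ 2 + C0) ≤ B 1 w x t := by
    apply le_B
    intro y
    have h2 := (abs_le.1 (hC0 y (t - 1) (by rw [abs_le]; constructor <;> linarith))).1
    have h3 : ‖y‖ ^ 2 ≤ 2 * ‖x - y‖ ^ 2 + 2 * ‖x‖ ^ 2 := by
      have h4 : ‖y‖ ≤ ‖x - y‖ + ‖x‖ := by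
        calc ‖y‖ = ‖x - (x - y)‖ := by rw [sub_sub_cancel]
          _ ≤ ‖x‖ + ‖x - y‖ := norm_sub_le _ _
          _ = _ := by ring
      have h5 := pow_le_pow_left₀ (norm_nonneg _) h4 2
      nlinarith [sq_nonneg (‖x - y‖ - ‖x‖)]
    have h6 := mul_le_mul_of_nonneg_left h3 hδ0.le
    have h7 : δ * ‖x - y‖ ^ 2 ≤ 1 / 4 * ‖x - y‖ ^ 2 :=
      mul_le_mul_of_nonneg_right hδ2 (sq_nonneg _)
    have h8 : ‖x - y‖ ^ 2 / (2 * 1) = 1 / 2 * ‖x - y‖ ^ 2 := by ring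
    rw [h8]
    nlinarith
  have h2 := (abs_le.1 (hC0 x t (by rw [abs_of_pos ht]; exact ht3))).2
  have h3 : hm 1 w x t = w x t - B 1 w x t := by unfold hm; rw [div_one]
  rw [h3]
  have h4 : 3 * δ * ‖x‖ ^ 2 ≤ ε * ‖x‖ ^ 2 :=
    mul_le_mul_of_nonneg_right (by linarith) (sq_nonneg _)
  linarith

/-- **Core of the upper bound**: at a pair with the supergradient property. -/
theorem cup_core {w : V → ℝ → ℝ} (hsol : IsSol w) {κ : ℝ} (hκ : 0 < κ)
    (hl : ∀ t, 0 < t → ∀ x, w x t ≤ Uf w x t)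
    (hu : ∀ t, 0 < t → ∀ x, Uf w x t ≤ w x t + κ * t) :
    ∃ C, 0 ≤ C ∧ ∀ t s, 0 < t → t ≤ 3 → 0 < s → s ≤ 1 → s ≤ t → ∀ x z : V,
      SupGrad t (fun y => Uf w y t) x
        ((1 / s) • (x - z) - ((1 / 36) * (t - s)) • (x - (t / s) • (x - z))) →
      val (Uf w) w (1 / 36) 0 s t x z ≤
        κ * t + s * (C - 1 / 144 * ‖x - (t / s) • (x - z)‖ ^ 2) := by
  obtain ⟨C1, hC1, hpos⟩ := cup_position hsol.grow hκ hl hu
  obtain ⟨C2, hC2, hslope⟩ := cup_slope hsol.grow (1 / 1152) (by norm_num)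
  refine ⟨C2 + C1 / 1152, by positivity, fun t s ht ht3 hs hs1 hst x z hq => ?_⟩
  have h1 := hpos t s ht ht3 hs hst x z hq
  have h2 := hslope t ht ht3 x
  have h3 := hsol.sup.hm_mono hs hs1 x t
  have h4 := B_le hsol.grow hs x z t
  rw [B_eq_hm s hs] at h4
  have h5 := hu t ht x
  have h6 : s * hm s w x t ≤ s * (1 / 1152 * ‖x‖ ^ 2 + C2) :=
    mul_le_mul_of_nonneg_left (h3.trans h2) hs.le
  have h7 : s * (1 / 1152 * ‖x‖ ^ 2) ≤
      s * (1 / 1152 * (8 * ‖x - (t / s) • (x - z)‖ ^ 2 + C1)) :=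
    mul_le_mul_of_nonneg_left (mul_le_mul_of_nonneg_left h1 (by norm_num)) hs.le
  unfold val Phi
  rw [sub_zero]
  nlinarith

theorem cup_hyp [FiniteDimensional ℝ V] {K κ : ℝ} (hkap : IsKap V K κ) {w : V → ℝ → ℝ}
    (hw : Cls K w) : ∀ t, 0 < t → ∀ x, Uf w x t ≤ w x t + κ * t :=
  fun t ht x => hkap w hw x t t ht

/-- **Upper bound of the first stage.** -/
theorem stageCUp [FiniteDimensional ℝ V] (hVA : VfAttained_stmt V) : StageCUp_stmt V := by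
  intro K κ hκ hkap w hw
  obtain ⟨C, hC, h⟩ := cup_core hw.sol hκ (fun t ht x => le_Uf hw.sol.grow ht x) (cup_hyp hkap hw)
  refine ⟨C, hC, fun t s ht ht3 hs hs1 hst x z => ?_⟩
  obtain ⟨hbdd, x0, z0, hval, hsup⟩ := hVA K w hw (1 / 36) 0 s t (by norm_num) hs ht
  rw [sub_zero] at hsup
  have h1 : val (Uf w) w (1 / 36) 0 s t x z ≤ Vf (Uf w) w (1 / 36) 0 s t :=
    le_ciSup hbdd (x, z)
  have h2 := h t s ht ht3 hs hs1 hst x0 z0 hsup
  rw [hval] at h1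
  have h3 : s * (C - 1 / 144 * ‖x0 - (t / s) • (x0 - z0)‖ ^ 2) ≤ s * C :=
    mul_le_mul_of_nonneg_left (by
      have := sq_nonneg ‖x0 - (t / s) • (x0 - z0)‖
      linarith) hs.le
  linarith

/-- vertex position of a pair with the supergradient property and large value -/
theorem stageCUp_vertex [FiniteDimensional ℝ V] {K κ : ℝ} (hκ : 0 < κ) (hkap : IsKap V K κ)
    {w : V → ℝ → ℝ} (hw : Cls K w) (C₁ : ℝ) :
    ∃ C, 0 ≤ C ∧ ∀ t s, 0 < t → t ≤ 3 → 0 < s → s ≤ 1 → s ≤ t → ∀ x z : V,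
      SupGrad t (fun y => Uf w y t) x
        ((1 / s) • (x - z) - ((1 / 36) * (t - s)) • (x - (t / s) • (x - z))) →
      κ * t - C₁ * s ≤ val (Uf w) w (1 / 36) 0 s t x z →
      ‖x - (t / s) • (x - z)‖ ≤ C := by
  obtain ⟨C, hC, h⟩ := cup_core hw.sol hκ (fun t ht x => le_Uf hw.sol.grow ht x) (cup_hyp hkap hw)
  refine ⟨144 * (C + |C₁|) + 1, by positivity, fun t s ht ht3 hs hs1 hst x z hq hv => ?_⟩
  have h1 := h t s ht ht3 hs hs1 hst x z hq
  set n := ‖x - (t / s) • (x - z)‖ with hn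
  have hn0 : 0 ≤ n := norm_nonneg _
  have h2 : s * (1 / 144 * n ^ 2) ≤ s * (C + |C₁|) := by
    have := le_abs_self C₁
    nlinarith
  have h3 := le_of_mul_le_mul_left h2 hs
  have h4 : n ≤ n ^ 2 + 1 := by nlinarith [sq_nonneg (n - 1)]
  linarith

end Crest.Agent.R094.GK
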