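import Crest.Agent.R094.PropCIface
import Crest.Agent.R094.EnvK
import Crest.Agent.R094.SolBasic

/-! Row 94: `VfAttained_stmt` and the upper bound of Stage C (helper431). -/

set_option autoImplicit false
set_option linter.unusedSectionVars false

namespace Crest.Agent.R094.CUpB

open Sol Set Filter Topology GK

variable {V : Type*} [NormedAddCommGroup V] [InnerProductSpace ℝ V]

/-- a quadratic upper bound at `x` of a semiconcave function upgrades to the sharp one -/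
theorem supGrad_of_quad {f : V → ℝ} {t : ℝ} (ht : 0 < t)
    (hf : ConcaveOn ℝ univ (fun x => f x - ‖x‖ ^ 2 / (2 * t))) {x q : V} {M : ℝ}
    (h : ∀ ξ, f (x + ξ) ≤ f x + inner ℝ q ξ + M * ‖ξ‖ ^ 2) : SupGrad t f x q := by
  intro ξ
  by_contra hcon
  push Not at hcon
  set D := f (x + ξ) - (f x + inner ℝ q ξ + ‖ξ‖ ^ 2 / (2 * t)) with hD
  have hDp : 0 < D := by linarith
  set K := |M| * ‖ξ‖ ^ 2 with hK
  have hKp : 0 ≤ K := by positivity
  -- the inequality for every θ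
  have key : ∀ θ : ℝ, 0 < θ → θ ≤ 1 → D ≤ θ * K := by
    intro θ h0 h1
    have h2 := hf.2 (mem_univ x) (mem_univ (x + ξ)) (sub_nonneg.mpr h1) h0.le (by ring)
    have e1 : (1 - θ) • x + θ • (x + ξ) = x + θ • ξ := by module
    rw [e1] at h2
    simp only [smul_eq_mul] at h2
    have e2 : ‖x + θ • ξ‖ ^ 2 = ‖x‖ ^ 2 + 2 * θ * inner ℝ x ξ + θ ^ 2 * ‖ξ‖ ^ 2 := by
      rw [norm_add_sq_real, real_inner_smul_right, norm_smul, Real.norm_eq_abs, mul_pow, sq_abs]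
      ring
    have e3 : ‖x + ξ‖ ^ 2 = ‖x‖ ^ 2 + 2 * inner ℝ x ξ + ‖ξ‖ ^ 2 := norm_add_sq_real _ _
    have e4 : (1 - θ) * (‖x‖ ^ 2 / (2 * t)) + θ * (‖x + ξ‖ ^ 2 / (2 * t))
        - ‖x + θ • ξ‖ ^ 2 / (2 * t) = θ * (1 - θ) * (‖ξ‖ ^ 2 / (2 * t)) := by
      rw [e2, e3]; ring
    have h3 := h (θ • ξ)
    rw [real_inner_smul_right, norm_smul, mul_pow, Real.norm_eq_abs, sq_abs] at h3
    have h4 : θ * (f (x + ξ) - f x) ≤ θ * inner ℝ q ξ + M * (θ ^ 2 * ‖ξ‖ ^ 2)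
        + θ * (1 - θ) * (‖ξ‖ ^ 2 / (2 * t)) := by nlinarith
    have h5 : M * (θ ^ 2 * ‖ξ‖ ^ 2) ≤ θ * (θ * K) := by
      rw [hK]
      have : M * (θ ^ 2 * ‖ξ‖ ^ 2) ≤ |M| * (θ ^ 2 * ‖ξ‖ ^ 2) :=
        mul_le_mul_of_nonneg_right (le_abs_self M) (by positivity)
      linarith
    have h6 : 0 ≤ θ * θ * (‖ξ‖ ^ 2 / (2 * t)) := by positivity
    have h7 : θ * D ≤ θ * (θ * K) := by rw [hD]; nlinarith
    exact le_of_mul_le_mul_left h7 h0
  have h1 := key (min 1 (D / (2 * (K + 1)))) (by positivity) (min_le_left _ _)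
  have h2 : min 1 (D / (2 * (K + 1))) * K ≤ D / (2 * (K + 1)) * K := by
    gcongr; exact min_le_right _ _
  have h3 : D / (2 * (K + 1)) * K < D := by
    rw [div_mul_eq_mul_div, div_lt_iff₀ (by positivity)]
    nlinarith
  linarith

/-- coercive upper bound of the functional -/
theorem val_coer {U w : V → ℝ → ℝ} (hU : SubPos U) (hw : Grow w) {c : ℝ} (Y₀ : V)
    {s t : ℝ} (hc : 0 < c) (hs : 0 < s) (ht : 0 < t) :
    ∃ C₀ lam : ℝ, 0 < lam ∧ ∀ x z, val U w c Y₀ s t x z ≤ C₀ - lam * (‖x‖ ^ 2 + ‖z‖ ^ 2) := by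
  set R := t + s with hR
  set M := 18 / (s * c) + (9 * (R / s) ^ 2 + 2) * (2 * s) with hM
  have hMp : 0 < M := by positivity
  have hep : (0:ℝ) < 1 / (2 * M) := by positivity
  obtain ⟨C1, hC1⟩ := hU.grow R _ hep
  obtain ⟨C2, hC2⟩ := hw R _ hep
  refine ⟨C1 + C2 + (9 * (1 / (2 * M)) + 9 / (2 * M)) * ‖Y₀‖ ^ 2, 1 / (2 * M), hep,
    fun x z => ?_⟩
  have := PropC.F_le (R := R) (M := M) (e := 1 / (2 * M)) (C1 := C1) (C2 := C2) hs hc Y₀ (t := t)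
    (by rw [abs_of_pos ht]; linarith) hM hep.le (le_of_eq (by field_simp))
    (f := fun x => U x t) (g := fun z => w z (t - s))
    (fun y => (abs_le.mp (hC1 y t ht (by linarith))).2)
    (fun y => (abs_le.mp (hC2 y (t - s) (by rw [abs_le]; constructor <;> linarith))).1) x z
  have e : (‖x‖ ^ 2 + ‖z‖ ^ 2) / (2 * M) = 1 / (2 * M) * (‖x‖ ^ 2 + ‖z‖ ^ 2) := by ring
  rw [e] at this
  exact this

theorem SubPos.cont_slice {U : V → ℝ → ℝ} (hU : SubPos U) {t : ℝ} (ht : 0 < t) :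
    Continuous (fun y => U y t) := by
  have h : Continuous (fun y : V => ((y, t) : V × ℝ)) := by fun_prop
  exact hU.cont.comp_continuous h (fun _ => ht)

variable [FiniteDimensional ℝ V]

/-- existence of maximisers -/
theorem exists_max_val {U w : V → ℝ → ℝ} (hU : SubPos U) (hw : IsSol w) {c : ℝ} (Y₀ : V)
    {s t : ℝ} (hc : 0 < c) (hs : 0 < s) (ht : 0 < t) :
    ∃ x z, ∀ x' z', val U w c Y₀ s t x' z' ≤ val U w c Y₀ s t x z := by
  obtain ⟨C₀, lam, hlam, hb⟩ := val_coer hU hw.grow Y₀ hc hs ht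
  have hcont : Continuous (fun q : V × V => val U w c Y₀ s t q.1 q.2) := by
    have h1 : Continuous (fun q : V × V => U q.1 t) := (SubPos.cont_slice hU ht).comp continuous_fst
    have h2 : Continuous (fun q : V × V => w q.2 (t - s)) :=
      (slice_cont hw.cont (t - s)).comp continuous_snd
    have h3 : Continuous (fun q : V × V => Phi c Y₀ s t q.1 q.2) := by
      unfold Phi
      have a1 : Continuous (fun q : V × V => q.1 - q.2) := continuous_fst.sub continuous_snd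
      have a2 : Continuous (fun q : V × V => q.1 - (t / s) • (q.1 - q.2) - Y₀) :=
        (continuous_fst.sub (a1.const_smul (t / s))).sub continuous_const
      exact ((a1.norm.pow 2).div_const _).add (continuous_const.mul (a2.norm.pow 2))
    exact (h1.sub h2).sub h3
  set A := val U w c Y₀ s t 0 0 with hA
  set r := Real.sqrt ((|C₀| + |A|) / lam) + 1 with hr
  obtain ⟨q, hq⟩ := hcont.exists_forall_ge' (0 : V × V) (by
    have hK := (isCompact_closedBall (0 : V × V) r).compl_mem_cocompact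
    filter_upwards [hK] with q hq
    simp only [mem_compl_iff, Metric.mem_closedBall, dist_zero_right, not_le] at hq
    have h1 := hb q.1 q.2
    have h2 : ‖q‖ ^ 2 ≤ ‖q.1‖ ^ 2 + ‖q.2‖ ^ 2 := by
      rw [Prod.norm_def]
      rcases max_cases ‖q.1‖ ‖q.2‖ with ⟨h, _⟩ | ⟨h, _⟩ <;> rw [h] <;>
        nlinarith [sq_nonneg ‖q.1‖, sq_nonneg ‖q.2‖]
    have h3 : (|C₀| + |A|) / lam ≤ ‖q‖ ^ 2 := by
      have h4 : Real.sqrt ((|C₀| + |A|) / lam) ≤ ‖q‖ := by rw [hr] at hq; linarith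
      calc (|C₀| + |A|) / lam = Real.sqrt ((|C₀| + |A|) / lam) ^ 2 :=
            (Real.sq_sqrt (by positivity)).symm
        _ ≤ ‖q‖ ^ 2 := by gcongr
    rw [div_le_iff₀ hlam] at h3
    have h5 : val U w c Y₀ s t (0 : V × V).1 (0 : V × V).2 = A := rfl
    rw [h5]
    have h6 := le_abs_self C₀
    have h7 := neg_abs_le A
    nlinarith)
  exact ⟨q.1, q.2, fun x' z' => hq (x', z')⟩

/-- at a maximiser there is a supergradient -/
theorem supGrad_of_max {U w : V → ℝ → ℝ} {c : ℝ} {Y₀ : V} {s t : ℝ} (hs : 0 < s) (ht : 0 < t)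
    (hUc : ConcaveOn ℝ univ (fun x => U x t - ‖x‖ ^ 2 / (2 * t))) {x z : V}
    (hmax : ∀ x', val U w c Y₀ s t x' z ≤ val U w c Y₀ s t x z) :
    SupGrad t (fun y => U y t) x
      ((1 / s) • (x - z) - (c * (t - s)) • (x - (t / s) • (x - z) - Y₀)) := by
  refine supGrad_of_quad (M := 1 / (2 * s) + s * c / 2 * (1 - t / s) ^ 2) ht hUc fun ξ => ?_
  have h := hmax (x + ξ)
  unfold val Phi at h
  set Y := x - (t / s) • (x - z) - Y₀ with hY
  have e1 : x + ξ - z = (x - z) + ξ := by abel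
  have e2 : x + ξ - (t / s) • (x + ξ - z) - Y₀ = Y + (1 - t / s) • ξ := by rw [hY]; module
  rw [e2, e1, norm_add_sq_real (x - z) ξ, norm_add_sq_real Y, real_inner_smul_right, norm_smul,
    mul_pow, Real.norm_eq_abs, sq_abs] at h
  rw [inner_sub_left, real_inner_smul_left, real_inner_smul_left]
  have e3 : s * c / 2 * (‖Y‖ ^ 2 + 2 * ((1 - t / s) * inner ℝ Y ξ) + (1 - t / s) ^ 2 * ‖ξ‖ ^ 2)
      = s * c / 2 * ‖Y‖ ^ 2 - c * (t - s) * inner ℝ Y ξ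
        + s * c / 2 * (1 - t / s) ^ 2 * ‖ξ‖ ^ 2 := by
    field_simp; ring
  have e4 : (‖x - z‖ ^ 2 + 2 * inner ℝ (x - z) ξ + ‖ξ‖ ^ 2) / (2 * s)
      = ‖x - z‖ ^ 2 / (2 * s) + 1 / s * inner ℝ (x - z) ξ + 1 / (2 * s) * ‖ξ‖ ^ 2 := by
    field_simp
  rw [e3, e4] at h
  linarith

theorem concaveOn_Uf {w : V → ℝ → ℝ} (h : Grow w) {t : ℝ} (ht : 0 < t) :
    ConcaveOn ℝ univ (fun x => Uf w x t - ‖x‖ ^ 2 / (2 * t)) :=
  concaveOn_env (slice_subQ h t) ht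

theorem VfAttained : VfAttained_stmt V := by
  intro K w hw c Y₀ s t hc hs ht
  have hU : SubPos (Uf w) := EnvSub K w hw
  obtain ⟨x, z, hmax⟩ := exists_max_val hU hw.sol Y₀ hc hs ht
  refine ⟨bddAbove_val hU hw.sol.grow Y₀ hc hs ht, x, z, ?_, ?_⟩
  · apply le_antisymm
    · exact ciSup_le fun q => hmax q.1 q.2
    · exact le_ciSup (bddAbove_val hU hw.sol.grow Y₀ hc hs ht) (x, z)
  · exact supGrad_of_max hs ht (concaveOn_Uf hw.sol.grow ht) fun x' => hmax x' z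

/-- UPPER BOUND of Stage C at a maximiser (with the good term `- s‖Y‖²/144`). -/
theorem stageC_upper {K κ : ℝ} (hκ : 0 < κ) (hkap : IsKap V K κ) {w : V → ℝ → ℝ} (hw : Cls K w) :
    ∃ C, 0 ≤ C ∧ ∀ t s, 0 < t → t ≤ 2 → 0 < s → s ≤ 1 → s ≤ t / 2 → ∀ x z,
      (∀ x' z', val (Uf w) w (1 / 36) 0 s t x' z' ≤ val (Uf w) w (1 / 36) 0 s t x z) →
        val (Uf w) w (1 / 36) 0 s t x z
          ≤ κ * t + s * (C - ‖x - (t / s) • (x - z)‖ ^ 2 / 144) := by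
  have hg := hw.sol.grow
  obtain ⟨C1, hC1⟩ := hg 2 (1 / 96) (by norm_num)
  obtain ⟨C2, hC2⟩ := hg 2 (1 / 6912) (by norm_num)
  have hC1n : 0 ≤ C1 := by
    have := (abs_nonneg _).trans (hC1 0 0 (by norm_num))
    simpa using this
  have hC2n : 0 ≤ C2 := by
    have := (abs_nonneg _).trans (hC2 0 0 (by norm_num))
    simpa using this
  set C' := 4 * (κ + C1) with hC'
  refine ⟨48 / 6912 * (4 * C') + 2 * C2, by positivity, ?_⟩
  intro t s ht ht2 hs hs1 hst x z hmax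
  set ν := (1 / s) • (x - z) with hν
  set Y := x - (t / s) • (x - z) with hY
  set q := ν - (1 / 36 * (t - s)) • Y with hq
  have hsg : SupGrad t (fun y => Uf w y t) x q := by
    have := supGrad_of_max hs ht (concaveOn_Uf hg ht) (fun x' => hmax x' z)
    rw [sub_zero] at this
    exact this
  -- (1) bound of t q
  have hkt : ∀ y, Uf w y t ≤ w y t + κ * t := fun y => hkap w hw y t t ht
  have hwt : ∀ y, w y t ≤ Uf w y t := fun y => le_Uf hg ht y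
  have htabs : |t| ≤ 2 := by rw [abs_of_pos ht]; exact ht2
  have h1 : t * ‖q‖ ^ 2 / 2 ≤ κ * t + w x t - w (x + -(t • q)) t := by
    have h := hsg (-(t • q))
    simp only at h
    rw [inner_neg_right, real_inner_smul_right, real_inner_self_eq_norm_sq, norm_neg, norm_smul,
      mul_pow, Real.norm_eq_abs, sq_abs] at h
    have h2 := hkt x
    have h3 := hwt (x + -(t • q))
    have h4 : t ^ 2 * ‖q‖ ^ 2 / (2 * t) = t * ‖q‖ ^ 2 / 2 := by field_simp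
    rw [h4] at h
    linarith
  have hn : ‖t • q‖ ^ 2 = t ^ 2 * ‖q‖ ^ 2 := by
    rw [norm_smul, mul_pow, Real.norm_eq_abs, sq_abs]
  have h2 : ‖x + -(t • q)‖ ^ 2 ≤ 2 * ‖x‖ ^ 2 + 2 * ‖t • q‖ ^ 2 := by
    have := PropC.sq_le_two x (x + -(t • q))
    have e : x - (x + -(t • q)) = t • q := by abel
    rwa [e] at this
  have h3 := (abs_le.mp (hC1 x t htabs)).2
  have h4 := (abs_le.mp (hC1 (x + -(t • q)) t htabs)).1
  have h5 : t * ‖q‖ ^ 2 / 2 ≤ κ * t + 2 * C1 + 3 / 96 * ‖x‖ ^ 2 + 2 / 96 * ‖t • q‖ ^ 2 := by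
    linarith
  have h6 : ‖t • q‖ ^ 2 ≤ 4 * C' + 1 / 4 * ‖x‖ ^ 2 := by
    have a1 : t * (t * ‖q‖ ^ 2 / 2)
        ≤ t * (κ * t + 2 * C1 + 3 / 96 * ‖x‖ ^ 2 + 2 / 96 * ‖t • q‖ ^ 2) :=
      mul_le_mul_of_nonneg_left h5 ht.le
    have a2 : t * (κ * t + 2 * C1 + 3 / 96 * ‖x‖ ^ 2 + 2 / 96 * ‖t • q‖ ^ 2)
        ≤ 2 * (κ * 2 + 2 * C1 + 3 / 96 * ‖x‖ ^ 2 + 2 / 96 * ‖t • q‖ ^ 2) := by
      gcongr
    have a3 : t * (t * ‖q‖ ^ 2 / 2) = ‖t • q‖ ^ 2 / 2 := by rw [hn]; ring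
    rw [a3] at a1
    have a4 : 0 ≤ ‖t • q‖ ^ 2 := by positivity
    rw [hC']
    nlinarith [sq_nonneg ‖x‖]
  -- (2) bound of x
  have h7 : ‖x‖ ^ 2 ≤ 16 * ‖Y‖ ^ 2 + 16 * C' := by
    have e1 : x = (1 + 1 / 36 * (t * (t - s))) • Y + t • q := by
      have e2 : x = Y + t • ν := by
        rw [hY, hν, smul_smul, mul_one_div]; abel
      have e3 : (1 + 1 / 36 * (t * (t - s))) • Y + t • q = Y + t • ν := by rw [hq]; module
      rw [e3]; exact e2
    have h8 : ‖x‖ ≤ 2 * ‖Y‖ + ‖t • q‖ := by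
      have a0 : t * (t - s) ≤ 2 * 2 := by nlinarith
      have a1 : 0 ≤ t * (t - s) := mul_nonneg ht.le (by linarith)
      calc ‖x‖ = ‖(1 + 1 / 36 * (t * (t - s))) • Y + t • q‖ := by rw [← e1]
        _ ≤ ‖(1 + 1 / 36 * (t * (t - s))) • Y‖ + ‖t • q‖ := norm_add_le _ _
        _ ≤ 2 * ‖Y‖ + ‖t • q‖ := by
          rw [norm_smul, Real.norm_eq_abs, abs_of_nonneg (by positivity)]
          gcongr
          linarith
    have h9 : ‖x‖ ^ 2 ≤ (2 * ‖Y‖ + ‖t • q‖) ^ 2 := by gcongr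
    have h10 : (2 * ‖Y‖ + ‖t • q‖) ^ 2 ≤ 8 * ‖Y‖ ^ 2 + 2 * ‖t • q‖ ^ 2 := by
      nlinarith [sq_nonneg (2 * ‖Y‖ - ‖t • q‖)]
    linarith
  -- (3) the backward slope
  have h11 : w x t - B s w x t ≤ s * (w x t - B 1 w x t) := by
    have a1 := hw.sol.sup x t s 1 hs hs1
    rw [div_one] at a1
    linarith
  have h12 : -(2 * (1 / 6912) * ‖x‖ ^ 2 + C2) ≤ B 1 w x t := by
    refine PropC.B_ge_of one_pos (by norm_num) (by norm_num) (fun y => ?_) x
    exact (abs_le.mp (hC2 y (t - 1) (by rw [abs_le]; constructor <;> linarith))).1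
  have h13 := (abs_le.mp (hC2 x t htabs)).2
  have h14 : B s w x t ≤ w z (t - s) + ‖x - z‖ ^ 2 / (2 * s) := B_le hg hs x z t
  have h15 := hkt x
  have h16 : w x t - B 1 w x t ≤ 3 / 6912 * ‖x‖ ^ 2 + 2 * C2 := by linarith
  have h17 := mul_le_mul_of_nonneg_left h16 hs.le
  have h18 : Uf w x t - w z (t - s) - ‖x - z‖ ^ 2 / (2 * s)
      ≤ κ * t + s * (3 / 6912 * ‖x‖ ^ 2 + 2 * C2) := by linarith
  have h19 : val (Uf w) w (1 / 36) 0 s t x z
      = Uf w x t - w z (t - s) - ‖x - z‖ ^ 2 / (2 * s) - s * (‖Y‖ ^ 2 / 72) := by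
    unfold val Phi
    rw [sub_zero, ← hY]; ring
  have h20 : s * (3 / 6912 * ‖x‖ ^ 2 + 2 * C2)
      ≤ s * (3 / 6912 * (16 * ‖Y‖ ^ 2 + 16 * C') + 2 * C2) := by gcongr
  rw [h19]
  have h21 : s * (3 / 6912 * (16 * ‖Y‖ ^ 2 + 16 * C') + 2 * C2) - s * (‖Y‖ ^ 2 / 72)
      ≤ s * (48 / 6912 * (4 * C') + 2 * C2 - ‖Y‖ ^ 2 / 144) := by
    have hC'p : 0 ≤ C' := by positivity
    nlinarith [mul_nonneg hs.le hC'p]
  linarith

end Crest.Agent.R094.CUpB
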