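import Mathlib

/-!
# Row 94, step (d) of the blueprint 7921: the zoom (helper566)

Definition-free: `V` finite dimensional inner product space, `w : V → ℝ → ℝ`.
-/

set_option autoImplicit false
set_option linter.unusedSectionVars false
set_option linter.style.haveILetI false

namespace Crest.Agent.R094.StageD

open Filter Topology
open scoped InnerProductSpace RealInnerProductSpace

variable {V : Type*} [NormedAddCommGroup V] [InnerProductSpace ℝ V]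

/-- the envelope `U = B_t T_t w` (vertex time `0`), `t > 0`. -/
noncomputable def envU (w : V → ℝ → ℝ) (x : V) (t : ℝ) : ℝ :=
  sInf {a | ∃ q : V, ∀ y, w y t ≤ a + ⟪q, y - x⟫_ℝ + ‖y - x‖ ^ 2 / (2 * t)}

/-- normalisation of `w` at `(Y,0)`, scale `l`, frame `p, b`. -/
noncomputable def Nrm (w : V → ℝ → ℝ) (Y : V) (l : ℝ) (p : V) (b : ℝ) : V → ℝ → ℝ :=
  fun x t => (w (Y + l • (x + t • p)) (l * t) - w Y 0 - l * ⟪p, x⟫_ℝ - l * b * t) / l

/-- `h⁻(x,t;s) ≥ γ` -/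
def Hm (w : V → ℝ → ℝ) (x : V) (t s γ : ℝ) : Prop :=
  ∃ z, w z (t - s) + ‖x - z‖ ^ 2 / (2 * s) ≤ w x t - γ * s

/-- `h⁺(x,t;s) ≥ γ` -/
def Hp (w : V → ℝ → ℝ) (x : V) (t s γ : ℝ) : Prop :=
  ∃ y, w x t + γ * s ≤ w y (t + s) - ‖y - x‖ ^ 2 / (2 * s)

/-- the weighted functional of Prop C -/
noncomputable def val (w U : V → ℝ → ℝ) (c s t : ℝ) (x z : V) : ℝ :=
  U x t - w z (t - s) - ‖x - z‖ ^ 2 / (2 * s) - (s * c / 2) * ‖x - (t / s) • (x - z)‖ ^ 2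

/-- what is needed of the class `G_K` -/
structure ClassHyp (G : ℝ → ℝ) (Cls : (V → ℝ → ℝ) → Prop) : Prop where
  monoG : ∀ r r', r ≤ r' → G r ≤ G r'
  subquad : ∀ ε > 0, ∃ C, ∀ r, 0 ≤ r → G r ≤ ε * r ^ 2 + C
  norm : ∀ w, Cls w → ∀ (Y : V) (l : ℝ), 0 < l → ∃ p b, ∀ x t, |Nrm w Y l p b x t| ≤ G (‖x‖ + |t|)
  nrm : ∀ w, Cls w → ∀ (Y : V) (l : ℝ) p b, 0 < l → Cls (Nrm w Y l p b)
  lin : ∀ w, Cls w → ∀ a : ℝ, Cls (fun x t => w x t + a * t)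
  cpt : ∀ wk : ℕ → V → ℝ → ℝ, (∀ k, Cls (wk k)) → (∀ k x t, |wk k x t| ≤ G (‖x‖ + |t|)) →
    ∃ W, Cls W ∧ ∀ R > 0, ∀ ε > 0, ∀ᶠ k in (hyperfilter ℕ : Filter ℕ), ∀ x t, ‖x‖ ≤ R → |t| ≤ R →
      |wk k x t - W x t| ≤ ε
  cont : ∀ w, Cls w → Continuous (fun X : V × ℝ => w X.1 X.2)
  monoM : ∀ w, Cls w → ∀ x t s s' γ, 0 < s → s ≤ s' → Hm w x t s γ → Hm w x t s' γ
  monoP : ∀ w, Cls w → ∀ x t s s' γ, 0 < s → s ≤ s' → Hp w x t s γ → Hp w x t s' γ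

/-! ### algebra -/

theorem norm_add_smul_sq (a p : V) (s : ℝ) :
    ‖a + s • p‖ ^ 2 = ‖a‖ ^ 2 + 2 * s * ⟪a, p⟫_ℝ + s ^ 2 * ‖p‖ ^ 2 := by
  rw [norm_add_sq_real, inner_smul_right, norm_smul, mul_pow, Real.norm_eq_abs, sq_abs]; ring

theorem norm_smul_sq (a : V) (s : ℝ) : ‖s • a‖ ^ 2 = s ^ 2 * ‖a‖ ^ 2 := by
  rw [norm_smul, mul_pow, Real.norm_eq_abs, sq_abs]

/-- normalisation of the envelope -/
noncomputable def NrmU (w U : V → ℝ → ℝ) (Y : V) (l : ℝ) (p : V) (b : ℝ) : V → ℝ → ℝ :=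
  fun x t => (U (Y + l • (x + t • p)) (l * t) - w Y 0 - l * ⟪p, x⟫_ℝ - l * b * t) / l

/-- exact covariance of the functional -/
theorem val_nrm (w U : V → ℝ → ℝ) (Y : V) {l : ℝ} (hl : 0 < l) (p : V) (b c s t : ℝ)
    (hs : 0 < s) (x z : V) :
    val w U c (l * s) (l * t) (Y + l • (x + t • p)) (Y + l • (z + (t - s) • p)) =
      l * (NrmU w U Y l p b x t - Nrm w Y l p b z (t - s) - ‖x - z‖ ^ 2 / (2 * s)
        + s * (b - ‖p‖ ^ 2 / 2) - (s * c / 2) * ‖Y + l • (x - (t / s) • (x - z))‖ ^ 2) := by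
  have hl0 : l ≠ 0 := hl.ne'
  have hs0 : s ≠ 0 := hs.ne'
  have e1 : Y + l • (x + t • p) - (Y + l • (z + (t - s) • p)) = l • ((x - z) + s • p) := by
    module
  have e2 : Y + l • (x + t • p) - (l * t / (l * s)) • (l • ((x - z) + s • p)) =
      Y + l • (x - (t / s) • (x - z)) := by
    have : l * t / (l * s) = t / s := by field_simp
    rw [this]
    have h3 : (t / s) • (l • ((x - z) + s • p)) = l • ((t / s) • (x - z)) + l • (t • p) := by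
      rw [smul_comm, smul_add, smul_smul (t / s) s p, div_mul_cancel₀ _ hs0, smul_add]
    rw [h3]
    module
  have e3 : l * t - l * s = l * (t - s) := by ring
  unfold val NrmU Nrm
  rw [e1, e2, e3, norm_smul_sq, norm_add_smul_sq]
  have e4 : ⟪p, x⟫_ℝ - ⟪p, z⟫_ℝ = ⟪x - z, p⟫_ℝ := by
    rw [← inner_sub_right, real_inner_comm]
  have e5 : ⟪p, x⟫_ℝ = ⟪p, z⟫_ℝ + ⟪x - z, p⟫_ℝ := by linarith
  rw [e5]
  field_simp
  ring

/-! ### the envelope -/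

/-- subquadratic growth of `w`, uniformly on bounded times -/
def Grow (G : ℝ → ℝ) (w : V → ℝ → ℝ) : Prop := ∀ x t, |w x t| ≤ G (‖x‖ + |t|)

/-- assumptions on the growth function -/
structure GOK (G : ℝ → ℝ) : Prop where
  mono : ∀ r r', r ≤ r' → G r ≤ G r'
  sub : ∀ ε > 0, ∃ C, ∀ r, 0 ≤ r → G r ≤ ε * r ^ 2 + C

theorem GOK.shift {G : ℝ → ℝ} (h : GOK G) (B : ℝ) : ∀ ε > 0, ∃ C, ∀ r, 0 ≤ r →
    G (r + B) ≤ ε * r ^ 2 + C := by
  intro ε hε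
  obtain ⟨C, hC⟩ := h.sub (ε / 2) (by positivity)
  refine ⟨ε * B ^ 2 + C, fun r hr => ?_⟩
  have h1 : G (r + B) ≤ G (r + |B|) := h.mono _ _ (by linarith [le_abs_self B])
  have h2 := hC (r + |B|) (by positivity)
  have h3 : (r + |B|) ^ 2 ≤ 2 * r ^ 2 + 2 * B ^ 2 := by
    nlinarith [sq_nonneg (r - |B|), sq_abs B]
  nlinarith

theorem GOK.nonneg_of {G : ℝ → ℝ} (h : GOK G) {w : V → ℝ → ℝ} (hw : Grow G w) {r : ℝ}
    (hr : 0 ≤ r) : 0 ≤ G r := by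
  have h1 := hw (0 : V) 0
  have h2 : G (‖(0 : V)‖ + |(0 : ℝ)|) ≤ G r := h.mono _ _ (by simpa using hr)
  exact (abs_nonneg _).trans (h1.trans h2)

/-- `lam r² ≤ A + G (r + B)` bounds `r`. -/
theorem GOK.bound {G : ℝ → ℝ} (h : GOK G) {lam : ℝ} (hl : 0 < lam) (A B : ℝ) :
    ∃ C, 0 ≤ C ∧ ∀ r, 0 ≤ r → lam * r ^ 2 ≤ A + G (r + B) → r ≤ C := by
  obtain ⟨C, hC⟩ := h.shift B (lam / 2) (by positivity)
  refine ⟨Real.sqrt (2 * (|A| + |C|) / lam), Real.sqrt_nonneg _, fun r hr h1 => ?_⟩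
  apply Real.le_sqrt_of_sq_le
  rw [le_div_iff₀ hl]
  have h2 := hC r hr
  nlinarith [le_abs_self A, le_abs_self C]

theorem envU_le {w : V → ℝ → ℝ} {x : V} {t a : ℝ} {q : V}
    (h : ∀ y, w y t ≤ a + ⟪q, y - x⟫_ℝ + ‖y - x‖ ^ 2 / (2 * t)) : envU w x t ≤ a := by
  refine csInf_le ?_ (show a ∈ {a | ∃ q : V, ∀ y, w y t ≤ a + ⟪q, y - x⟫_ℝ +
    ‖y - x‖ ^ 2 / (2 * t)} from ⟨q, h⟩)
  refine ⟨w x t, ?_⟩
  rintro a' ⟨q', h'⟩
  have := h' x
  simpa using this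

theorem exists_upper {G : ℝ → ℝ} (hG : GOK G) {t : ℝ} (ht : 0 < t) (x : V) :
    ∃ a, ∀ w : V → ℝ → ℝ, Grow G w → ∀ y, w y t ≤ a + ⟪(0 : V), y - x⟫_ℝ +
      ‖y - x‖ ^ 2 / (2 * t) := by
  obtain ⟨C, hC⟩ := hG.shift (‖x‖ + |t|) (1 / (2 * t)) (by positivity)
  refine ⟨C, fun w hw y => ?_⟩
  have h1 := (le_abs_self _).trans (hw y t)
  have h2 : G (‖y‖ + |t|) ≤ G (‖y - x‖ + (‖x‖ + |t|)) := by
    apply hG.mono
    have := norm_add_le (y - x) x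
    rw [sub_add_cancel] at this
    linarith
  have h3 := hC ‖y - x‖ (norm_nonneg _)
  rw [inner_zero_left]
  have h4 : 1 / (2 * t) * ‖y - x‖ ^ 2 = ‖y - x‖ ^ 2 / (2 * t) := by ring
  linarith

/-- uniform bound of the envelope -/
theorem exists_envU_le {G : ℝ → ℝ} (hG : GOK G) {t : ℝ} (ht : 0 < t) (x : V) :
    ∃ a, ∀ w : V → ℝ → ℝ, Grow G w → envU w x t ≤ a := by
  obtain ⟨a, ha⟩ := exists_upper hG ht x
  exact ⟨a, fun w hw => envU_le (ha w hw)⟩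

theorem le_envU {G : ℝ → ℝ} (hG : GOK G) {w : V → ℝ → ℝ} (hw : Grow G w) {x : V} {t : ℝ}
    (ht : 0 < t) : w x t ≤ envU w x t := by
  obtain ⟨a, ha⟩ := exists_upper hG ht x
  have hne : {a | ∃ q : V, ∀ y, w y t ≤ a + ⟪q, y - x⟫_ℝ + ‖y - x‖ ^ 2 / (2 * t)}.Nonempty :=
    ⟨a, 0, ha w hw⟩
  refine le_csInf hne ?_
  rintro a' ⟨q', h'⟩
  have := h' x
  simpa using this

/-- bound of the slope `q` of a paraboloid touching from above -/
theorem slope_bound {G : ℝ → ℝ} (hG : GOK G) {w : V → ℝ → ℝ} (hw : Grow G w) {x : V} {t : ℝ}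
    (ht : 0 < t) {a : ℝ} {q : V}
    (h : ∀ y, w y t ≤ a + ⟪q, y - x⟫_ℝ + ‖y - x‖ ^ 2 / (2 * t)) :
    ‖q‖ ≤ a + 1 / (2 * t) + G (‖x‖ + 1 + |t|) := by
  by_cases hq : q = 0
  · subst hq
    have h1 := h x
    simp only [sub_self, inner_zero_right, norm_zero] at h1
    have h2 := neg_le_of_abs_le (hw x t)
    have h3 : G (‖x‖ + |t|) ≤ G (‖x‖ + 1 + |t|) := hG.mono _ _ (by linarith)
    have h4 : 0 < 1 / (2 * t) := by positivity
    simp only [norm_zero]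
    norm_num at h1
    linarith
  · have hq' : ‖q‖ ≠ 0 := norm_ne_zero_iff.2 hq
    have h1 := h (x - ‖q‖⁻¹ • q)
    have e1 : x - ‖q‖⁻¹ • q - x = -(‖q‖⁻¹ • q) := by abel
    have e2 : ‖‖q‖⁻¹ • q‖ = 1 := by
      rw [norm_smul, norm_inv, norm_norm, inv_mul_cancel₀ hq']
    rw [e1, inner_neg_right, inner_smul_right, real_inner_self_eq_norm_sq, norm_neg, e2] at h1
    have e3 : ‖q‖⁻¹ * ‖q‖ ^ 2 = ‖q‖ := by field_simp
    rw [e3] at h1
    have h2 := neg_le_of_abs_le (hw (x - ‖q‖⁻¹ • q) t)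
    have h3 : G (‖x - ‖q‖⁻¹ • q‖ + |t|) ≤ G (‖x‖ + 1 + |t|) := by
      apply hG.mono
      have := norm_sub_le x (‖q‖⁻¹ • q)
      rw [e2] at this
      linarith
    norm_num at h1 ⊢
    linarith

theorem ultra_exists_lim [FiniteDimensional ℝ V] (𝒰 : Ultrafilter ℕ) {x : ℕ → V} {R : ℝ}
    (h : ∀ᶠ k in (𝒰 : Filter ℕ), ‖x k‖ ≤ R) : ∃ a, Tendsto x (𝒰 : Filter ℕ) (𝓝 a) := by
  have := FiniteDimensional.proper ℝ V
  have hc : IsCompact (Metric.closedBall (0 : V) R) := isCompact_closedBall 0 R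
  obtain ⟨a, _, ha⟩ := hc.ultrafilter_le_nhds (𝒰.map x) (by
    rw [Ultrafilter.coe_map, le_principal_iff, mem_map]
    filter_upwards [h] with k hk
    simpa using hk)
  exact ⟨a, ha⟩

theorem ultra_exists_lim_real (𝒰 : Ultrafilter ℕ) {x : ℕ → ℝ} {R : ℝ}
    (h : ∀ᶠ k in (𝒰 : Filter ℕ), |x k| ≤ R) : ∃ a, Tendsto x (𝒰 : Filter ℕ) (𝓝 a) := by
  have hc : IsCompact (Metric.closedBall (0 : ℝ) R) := isCompact_closedBall 0 R
  obtain ⟨a, _, ha⟩ := hc.ultrafilter_le_nhds (𝒰.map x) (by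
    rw [Ultrafilter.coe_map, le_principal_iff, mem_map]
    filter_upwards [h] with k hk
    simpa using hk)
  exact ⟨a, ha⟩

/-- convergence of functions: uniform on bounded sets along the ultrafilter -/
def LU (𝒰 : Ultrafilter ℕ) (wk : ℕ → V → ℝ → ℝ) (W : V → ℝ → ℝ) : Prop :=
  ∀ R > 0, ∀ ε > 0, ∀ᶠ k in (𝒰 : Filter ℕ), ∀ x t, ‖x‖ ≤ R → |t| ≤ R → |wk k x t - W x t| ≤ ε

theorem LU.tendsto {𝒰 : Ultrafilter ℕ} {wk : ℕ → V → ℝ → ℝ} {W : V → ℝ → ℝ} (h : LU 𝒰 wk W)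
    (hW : Continuous (fun X : V × ℝ => W X.1 X.2)) {x : ℕ → V} {t : ℕ → ℝ} {x₀ : V} {t₀ : ℝ}
    (hx : Tendsto x (𝒰 : Filter ℕ) (𝓝 x₀)) (ht : Tendsto t (𝒰 : Filter ℕ) (𝓝 t₀)) :
    Tendsto (fun k => wk k (x k) (t k)) (𝒰 : Filter ℕ) (𝓝 (W x₀ t₀)) := by
  have h1 : Tendsto (fun k => W (x k) (t k)) (𝒰 : Filter ℕ) (𝓝 (W x₀ t₀)) :=
    (hW.tendsto (x₀, t₀)).comp (hx.prodMk_nhds ht)
  have h2 : Tendsto (fun k => wk k (x k) (t k) - W (x k) (t k)) (𝒰 : Filter ℕ) (𝓝 0) := by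
    rw [Metric.tendsto_nhds]
    intro ε hε
    have b1 : ∀ᶠ k in (𝒰 : Filter ℕ), ‖x k‖ < ‖x₀‖ + 1 :=
      (hx.norm).eventually (gt_mem_nhds (by linarith))
    have b2 : ∀ᶠ k in (𝒰 : Filter ℕ), |t k| < |t₀| + 1 :=
      (ht.abs).eventually (gt_mem_nhds (by linarith))
    filter_upwards [b1, b2, h (‖x₀‖ + |t₀| + 1) (by positivity) (ε / 2) (by positivity)]
      with k h1 h2 h3
    rw [dist_zero_right, Real.norm_eq_abs]
    have := h3 (x k) (t k) (by linarith [abs_nonneg t₀]) (by linarith [norm_nonneg x₀])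
    linarith
  have := h2.add h1
  simpa using this

theorem LU.grow {𝒰 : Ultrafilter ℕ} {wk : ℕ → V → ℝ → ℝ} {W : V → ℝ → ℝ} (h : LU 𝒰 wk W)
    {G : ℝ → ℝ} (hg : ∀ k, Grow G (wk k)) : Grow G W := by
  intro x t
  refine le_of_forall_pos_le_add fun ε hε => ?_
  have h1 := h (‖x‖ + |t| + 1) (by positivity) ε hε
  obtain ⟨k, hk⟩ := h1.exists
  have h2 := hk x t (by linarith [abs_nonneg t]) (by linarith [norm_nonneg x])
  have h3 := hg k x t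
  have : |W x t| ≤ |wk k x t| + |wk k x t - W x t| := by
    have := abs_sub_abs_le_abs_sub (W x t) (wk k x t)
    rw [abs_sub_comm] at this
    linarith
  linarith

/-- the envelope is attained -/
theorem envU_spec [FiniteDimensional ℝ V] {G : ℝ → ℝ} (hG : GOK G) {w : V → ℝ → ℝ}
    (hw : Grow G w) {x : V} {t : ℝ} (ht : 0 < t) :
    ∃ q, ∀ y, w y t ≤ envU w x t + ⟪q, y - x⟫_ℝ + ‖y - x‖ ^ 2 / (2 * t) := by
  obtain ⟨a₀, ha₀⟩ := exists_upper hG ht x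
  have hne : {a | ∃ q : V, ∀ y, w y t ≤ a + ⟪q, y - x⟫_ℝ + ‖y - x‖ ^ 2 / (2 * t)}.Nonempty :=
    ⟨a₀, 0, ha₀ w hw⟩
  have hex : ∀ n : ℕ, ∃ a : ℝ, ∃ q : V, a < envU w x t + 1 / ((n : ℝ) + 1) ∧
      ∀ y, w y t ≤ a + ⟪q, y - x⟫_ℝ + ‖y - x‖ ^ 2 / (2 * t) := by
    intro n
    obtain ⟨a, ⟨q, hq⟩, ha⟩ := exists_lt_of_csInf_lt hne
      (show envU w x t < envU w x t + 1 / ((n : ℝ) + 1) by
        have : (0 : ℝ) < 1 / ((n : ℝ) + 1) := by positivity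
        linarith)
    exact ⟨a, q, ha, hq⟩
  choose a q ha hq using hex
  have hqb : ∀ n, ‖q n‖ ≤ envU w x t + 1 + 1 / (2 * t) + G (‖x‖ + 1 + |t|) := by
    intro n
    have h1 := slope_bound hG hw ht (hq n)
    have h2 := ha n
    have h3 : 1 / ((n : ℝ) + 1) ≤ 1 := by
      rw [div_le_one (by positivity)]
      have : (0 : ℝ) ≤ n := Nat.cast_nonneg n
      linarith
    linarith
  obtain ⟨q₀, hq₀⟩ := ultra_exists_lim (hyperfilter ℕ) (x := q) (Eventually.of_forall hqb)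
  refine ⟨q₀, fun y => ?_⟩
  have hlim : Tendsto (fun n : ℕ => envU w x t + 1 / ((n : ℝ) + 1) + ⟪q n, y - x⟫_ℝ
      + ‖y - x‖ ^ 2 / (2 * t)) (hyperfilter ℕ : Filter ℕ)
      (𝓝 (envU w x t + 0 + ⟪q₀, y - x⟫_ℝ + ‖y - x‖ ^ 2 / (2 * t))) := by
    have l1 : Tendsto (fun n : ℕ => 1 / ((n : ℝ) + 1)) (hyperfilter ℕ : Filter ℕ) (𝓝 0) :=
      tendsto_one_div_add_atTop_nhds_zero_nat.mono_left Nat.hyperfilter_le_atTop
    exact ((l1.const_add _).add (hq₀.inner tendsto_const_nhds)).add_const _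
  rw [add_zero] at hlim
  refine ge_of_tendsto hlim (Eventually.of_forall fun n => ?_)
  have := hq n y
  have := ha n
  linarith

/-- lower semicontinuity of the envelope under locally uniform convergence -/
theorem envU_lsc [FiniteDimensional ℝ V] {G : ℝ → ℝ} (hG : GOK G) {𝒰 : Ultrafilter ℕ}
    {wk : ℕ → V → ℝ → ℝ} {W : V → ℝ → ℝ} (hk : ∀ k, Grow G (wk k)) (h : LU 𝒰 wk W)
    {x : V} {t : ℝ} (ht : 0 < t) {β : ℕ → ℝ} {β₀ : ℝ}
    (hβ : ∀ᶠ k in (𝒰 : Filter ℕ), envU (wk k) x t ≤ β k)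
    (hβ₀ : Tendsto β (𝒰 : Filter ℕ) (𝓝 β₀)) : envU W x t ≤ β₀ := by
  obtain ⟨A, hA⟩ := exists_envU_le (V := V) hG ht x
  choose q hq using fun k => envU_spec hG (hk k) (x := x) ht
  have hqb : ∀ k, ‖q k‖ ≤ A + 1 / (2 * t) + G (‖x‖ + 1 + |t|) := by
    intro k
    have h1 := slope_bound hG (hk k) ht (hq k)
    have h2 := hA (wk k) (hk k)
    linarith
  obtain ⟨q₀, hq₀⟩ := ultra_exists_lim 𝒰 (x := q) (Eventually.of_forall hqb)
  apply envU_le (q := q₀)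
  intro y
  have l1 : Tendsto (fun k => wk k y t) (𝒰 : Filter ℕ) (𝓝 (W y t)) := by
    rw [Metric.tendsto_nhds]
    intro ε hε
    filter_upwards [h (‖y‖ + |t| + 1) (by positivity) (ε / 2) (by positivity)] with k hk'
    rw [Real.dist_eq]
    have := hk' y t (by linarith [abs_nonneg t]) (by linarith [norm_nonneg y])
    linarith
  have l2 : Tendsto (fun k => β k + ⟪q k, y - x⟫_ℝ + ‖y - x‖ ^ 2 / (2 * t)) (𝒰 : Filter ℕ)
      (𝓝 (β₀ + ⟪q₀, y - x⟫_ℝ + ‖y - x‖ ^ 2 / (2 * t))) :=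
    (hβ₀.add (hq₀.inner tendsto_const_nhds)).add_const _
  refine le_of_tendsto_of_tendsto l1 l2 ?_
  filter_upwards [hβ] with k hβk
  have := hq k y
  linarith

/-- upper semicontinuity -/
theorem envU_usc [FiniteDimensional ℝ V] {G : ℝ → ℝ} (hG : GOK G) {𝒰 : Ultrafilter ℕ}
    {wk : ℕ → V → ℝ → ℝ} {W : V → ℝ → ℝ} (hk : ∀ k, Grow G (wk k)) (h : LU 𝒰 wk W)
    {xk : ℕ → V} {x : V} (hx : Tendsto xk (𝒰 : Filter ℕ) (𝓝 x))
    {t : ℝ} (ht : 0 < t) {β : ℕ → ℝ} {β₀ : ℝ}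
    (hβ : ∀ᶠ k in (𝒰 : Filter ℕ), β k ≤ envU (wk k) (xk k) t)
    (hβ₀ : Tendsto β (𝒰 : Filter ℕ) (𝓝 β₀)) : β₀ ≤ envU W x t := by
  have hW := h.grow hk
  obtain ⟨q, hq⟩ := envU_spec hG hW (x := x) ht
  refine le_of_forall_pos_le_add fun δ hδ => ?_
  set P : V → ℝ := fun y => envU W x t + ⟪q, y - x⟫_ℝ + ‖y - x‖ ^ 2 / (2 * t) with hP
  -- outside a large ball `G ≤ P`
  obtain ⟨R, hR⟩ : ∃ R, 0 < R ∧ ∀ y, R ≤ ‖y‖ → G (‖y‖ + |t|) ≤ P y := by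
    obtain ⟨C, hC⟩ := hG.shift |t| (1 / (16 * t)) (by positivity)
    obtain ⟨R₁, hR₁⟩ : ∃ R₁ : ℝ, ∀ r, R₁ ≤ r → 1 / (16 * t) * r ^ 2 + C ≤
        envU W x t - ‖q‖ * r - ‖q‖ * ‖x‖ + (r - ‖x‖) ^ 2 / (2 * t) := by
      set B : ℝ := |C| + |envU W x t| + ‖q‖ * ‖x‖ with hB
      have hB0 : 0 ≤ B := by positivity
      refine ⟨‖x‖ * 4 + 16 * t * (‖q‖ + B) + 1, fun r hr => ?_⟩
      have hx0 := norm_nonneg x
      have hq0 := norm_nonneg q
      have hr1 : 1 ≤ r := by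
        have : 0 ≤ 16 * t * (‖q‖ + B) := by positivity
        linarith
      have h1 : (r / 2) ^ 2 ≤ (r - ‖x‖) ^ 2 := by
        have : r / 2 ≤ r - ‖x‖ := by
          have : 0 ≤ 16 * t * (‖q‖ + B) := by positivity
          linarith
        exact pow_le_pow_left₀ (by linarith) this 2
      have h2 : (r / 2) ^ 2 / (2 * t) ≤ (r - ‖x‖) ^ 2 / (2 * t) := by
        gcongr
      have h3 : (r / 2) ^ 2 / (2 * t) = 1 / (16 * t) * r ^ 2 + 1 / (16 * t) * r ^ 2 := by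
        field_simp; ring
      have h4 : (‖q‖ + B) * r ≤ 1 / (16 * t) * r ^ 2 := by
        have h5 : 16 * t * (‖q‖ + B) ≤ r := by linarith
        have h6 : (‖q‖ + B) ≤ r / (16 * t) := by
          rw [le_div_iff₀ (by positivity)]; linarith
        have h7 := mul_le_mul_of_nonneg_right h6 (by linarith : 0 ≤ r)
        calc (‖q‖ + B) * r ≤ r / (16 * t) * r := h7
          _ = 1 / (16 * t) * r ^ 2 := by ring
      have h8 : B ≤ B * r := by nlinarith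
      have h9 := le_abs_self C
      have h10 := neg_abs_le (envU W x t)
      nlinarith
    refine ⟨max R₁ 1, by positivity, fun y hy => ?_⟩
    have h1 := hC ‖y‖ (norm_nonneg _)
    have h2 := hR₁ ‖y‖ ((le_max_left _ _).trans hy)
    have h3 : -(‖q‖ * (‖y‖ + ‖x‖)) ≤ ⟪q, y - x⟫_ℝ := by
      have := neg_le_of_abs_le (abs_real_inner_le_norm q (y - x))
      have h4 : ‖q‖ * ‖y - x‖ ≤ ‖q‖ * (‖y‖ + ‖x‖) :=
        mul_le_mul_of_nonneg_left (norm_sub_le y x) (norm_nonneg _)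
      linarith
    have h4 : (‖y‖ - ‖x‖) ^ 2 ≤ ‖y - x‖ ^ 2 := by
      rw [← sq_abs (‖y‖ - ‖x‖)]
      exact pow_le_pow_left₀ (abs_nonneg _) (abs_norm_sub_norm_le y x) 2
    have h5 : (‖y‖ - ‖x‖) ^ 2 / (2 * t) ≤ ‖y - x‖ ^ 2 / (2 * t) := by gcongr
    simp only [hP]
    nlinarith
  have key : ∀ᶠ k in (𝒰 : Filter ℕ), ∀ y, wk k y t ≤ P y + δ := by
    filter_upwards [h (R + |t|) (by have := abs_nonneg t; linarith [hR.1]) δ hδ] with k hk'
    intro y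
    rcases le_or_gt R ‖y‖ with hy | hy
    · have h1 := (le_abs_self _).trans (hk k y t)
      have h2 := hR.2 y hy
      linarith
    · have h1 := hk' y t (by linarith [abs_nonneg t]) (by linarith [hR.1])
      have h2 := hq y
      have h3 := (abs_le.1 h1).2
      simp only [hP]
      linarith
  have key2 : ∀ᶠ k in (𝒰 : Filter ℕ), β k ≤ P (xk k) + δ := by
    filter_upwards [key, hβ] with k h1 h2
    refine h2.trans (envU_le (q := q + (1 / t) • (xk k - x)) fun y => (h1 y).trans (le_of_eq ?_))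
    simp only [hP]
    have e1 : y - x = (y - xk k) + (xk k - x) := by abel
    rw [inner_add_left, inner_smul_left, e1, norm_add_sq_real, inner_add_right,
      real_inner_comm (xk k - x) (y - xk k)]
    simp only [RCLike.conj_to_real]
    rw [real_inner_comm (y - xk k) (xk k - x)]
    field_simp
    ring
  have l1 : Tendsto (fun k => P (xk k) + δ) (𝒰 : Filter ℕ) (𝓝 (P x + δ)) := by
    have hc : Continuous P := by
      simp only [hP]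
      fun_prop
    exact ((hc.tendsto x).comp hx).add_const δ
  have l2 := le_of_tendsto_of_tendsto hβ₀ l1 key2
  simpa [hP] using l2

/-! ### covariance of the envelope -/

theorem envU_nrm [FiniteDimensional ℝ V] {G : ℝ → ℝ} (hG : GOK G) {w : V → ℝ → ℝ}
    (hw : Grow G w) {G' : ℝ → ℝ} (hG' : GOK G') (Y : V) {l : ℝ} (hl : 0 < l) (p : V) (b : ℝ)
    (hw' : Grow G' (Nrm w Y l p b)) {x : V} {t : ℝ} (ht : 0 < t) :
    envU (Nrm w Y l p b) x t = NrmU w (envU w) Y l p b x t := by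
  have hl0 : l ≠ 0 := hl.ne'
  have hlt : 0 < l * t := mul_pos hl ht
  apply le_antisymm
  · obtain ⟨q, hq⟩ := envU_spec hG hw (x := Y + l • (x + t • p)) hlt
    apply envU_le (q := q - p)
    intro y
    have h1 := hq (Y + l • (y + t • p))
    have e1 : Y + l • (y + t • p) - (Y + l • (x + t • p)) = l • (y - x) := by module
    rw [e1, inner_smul_right, norm_smul_sq] at h1
    unfold Nrm NrmU
    rw [inner_sub_left, div_add' _ _ _ hl0, div_add' _ _ _ hl0, div_le_div_iff_of_pos_right hl]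
    have e2 : ⟪p, y - x⟫_ℝ = ⟪p, y⟫_ℝ - ⟪p, x⟫_ℝ := inner_sub_right _ _ _
    have e3 : l ^ 2 * ‖y - x‖ ^ 2 / (2 * (l * t)) = ‖y - x‖ ^ 2 / (2 * t) * l := by
      field_simp
    rw [e2]
    rw [e3] at h1
    linarith
  · obtain ⟨q, hq⟩ := envU_spec hG' hw' (x := x) ht
    generalize envU (Nrm w Y l p b) x t = M at hq ⊢
    unfold NrmU
    rw [div_le_iff₀ hl]
    have h2 : envU w (Y + l • (x + t • p)) (l * t) ≤
        M * l + w Y 0 + l * ⟪p, x⟫_ℝ + l * b * t := by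
      apply envU_le (q := q + p)
      intro y
      -- y = Y + l • (z + t • p)
      set z : V := l⁻¹ • (y - Y) - t • p with hz
      have e1 : Y + l • (z + t • p) = y := by
        rw [hz, sub_add_cancel, smul_smul, mul_inv_cancel₀ hl0, one_smul]; abel
      have h1 := hq z
      unfold Nrm at h1
      rw [e1, div_le_iff₀ hl] at h1
      have e2 : y - (Y + l • (x + t • p)) = l • (z - x) := by
        rw [← e1]; module
      rw [e2, inner_smul_right, norm_smul_sq, inner_add_left]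
      have e3 : ⟪p, z - x⟫_ℝ = ⟪p, z⟫_ℝ - ⟪p, x⟫_ℝ := inner_sub_right _ _ _
      have e4 : l ^ 2 * ‖z - x‖ ^ 2 / (2 * (l * t)) = ‖z - x‖ ^ 2 / (2 * t) * l := by
        field_simp
      rw [e3, e4]
      nlinarith
    linarith

theorem envU_lin [FiniteDimensional ℝ V] {G : ℝ → ℝ} (hG : GOK G) {w : V → ℝ → ℝ}
    (hw : Grow G w) (a : ℝ) {G' : ℝ → ℝ} (hG' : GOK G')
    (hw' : Grow G' (fun x t => w x t + a * t)) {x : V} {t : ℝ} (ht : 0 < t) :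
    envU (fun x t => w x t + a * t) x t = envU w x t + a * t := by
  apply le_antisymm
  · obtain ⟨q, hq⟩ := envU_spec hG hw (x := x) ht
    apply envU_le (q := q)
    intro y
    have := hq y
    linarith
  · obtain ⟨q, hq⟩ := envU_spec hG' hw' (x := x) ht
    have : envU w x t ≤ envU (fun x t => w x t + a * t) x t - a * t := by
      apply envU_le (q := q)
      intro y
      have := hq y
      linarith
    linarith

/-! ### limits of `Hm` -/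

theorem Hm_limit [FiniteDimensional ℝ V] {G : ℝ → ℝ} (hG : GOK G) {𝒰 : Ultrafilter ℕ}
    {wk : ℕ → V → ℝ → ℝ} {W : V → ℝ → ℝ} (hk : ∀ k, Grow G (wk k)) (h : LU 𝒰 wk W)
    (hW : Continuous (fun X : V × ℝ => W X.1 X.2))
    {xk : ℕ → V} {x : V} (hx : Tendsto xk (𝒰 : Filter ℕ) (𝓝 x)) {t s : ℝ} (hs : 0 < s)
    {γ : ℕ → ℝ} {γ₀ : ℝ} (hγ : Tendsto γ (𝒰 : Filter ℕ) (𝓝 γ₀))
    (hH : ∀ᶠ k in (𝒰 : Filter ℕ), Hm (wk k) (xk k) t s (γ k)) : Hm W x t s γ₀ := by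
  classical
  have hex : ∀ k, ∃ z, Hm (wk k) (xk k) t s (γ k) →
      wk k z (t - s) + ‖xk k - z‖ ^ 2 / (2 * s) ≤ wk k (xk k) t - γ k * s := by
    intro k
    by_cases hc : Hm (wk k) (xk k) t s (γ k)
    · obtain ⟨z, hz⟩ := hc
      exact ⟨z, fun _ => hz⟩
    · exact ⟨0, fun h => absurd h hc⟩
  choose z hz using hex
  have l1 : Tendsto (fun k => wk k (xk k) t) (𝒰 : Filter ℕ) (𝓝 (W x t)) :=
    h.tendsto hW hx tendsto_const_nhds
  have l2 : Tendsto (fun k => wk k (xk k) t - γ k * s) (𝒰 : Filter ℕ) (𝓝 (W x t - γ₀ * s)) :=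
    l1.sub (hγ.mul_const s)
  -- `z` bounded
  obtain ⟨C, hC0, hC⟩ := hG.bound (lam := 1 / (2 * s)) (by positivity)
    (W x t - γ₀ * s + 1) (‖x‖ + 1 + |t - s|)
  have hzb : ∀ᶠ k in (𝒰 : Filter ℕ), ‖z k‖ ≤ C + (‖x‖ + 1) := by
    filter_upwards [hH, l2.eventually (gt_mem_nhds (lt_add_one _)),
      (hx.norm).eventually (gt_mem_nhds (lt_add_one _))] with k h1 h2 h3
    have h4 := hz k h1
    have h5 := neg_le_of_abs_le (hk k (z k) (t - s))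
    have h6 : ‖z k‖ ≤ ‖xk k - z k‖ + ‖xk k‖ := by
      have := norm_sub_norm_le (z k) (xk k)
      rw [norm_sub_rev] at this
      linarith
    have h7 : G (‖z k‖ + |t - s|) ≤ G (‖xk k - z k‖ + (‖x‖ + 1 + |t - s|)) :=
      hG.mono _ _ (by linarith)
    have h8 := hC ‖xk k - z k‖ (norm_nonneg _) (by
      have e : 1 / (2 * s) * ‖xk k - z k‖ ^ 2 = ‖xk k - z k‖ ^ 2 / (2 * s) := by ring
      rw [e]
      linarith)
    linarith
  obtain ⟨z₀, hz₀⟩ := ultra_exists_lim 𝒰 hzb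
  refine ⟨z₀, ?_⟩
  have l3 : Tendsto (fun k => wk k (z k) (t - s) + ‖xk k - z k‖ ^ 2 / (2 * s)) (𝒰 : Filter ℕ)
      (𝓝 (W z₀ (t - s) + ‖x - z₀‖ ^ 2 / (2 * s))) :=
    (h.tendsto hW hz₀ tendsto_const_nhds).add (((hx.sub hz₀).norm.pow 2).div_const _)
  refine le_of_tendsto_of_tendsto l3 l2 ?_
  filter_upwards [hH] with k hk'
  exact hz k hk'

end Crest.Agent.R094.StageD
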