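import Mathlib
import Crest.Agent.R094.SolDefs

/-!
Row 94 (S0124), route 7921, step (e) (helper404).

Input: the maximality statement (M), one touching point at time `1` with nonnegative slope.
Output: touching points at all times `t ∈ (0,1)` on lines through one vertex `(Ystar, 0)`.
-/

set_option autoImplicit false

noncomputable section

open Filter Topology Set
open scoped RealInnerProductSpace

namespace Crest.Agent.R094.StageE

open Crest.Agent.R094.Sol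

variable {V : Type*} [NormedAddCommGroup V] [InnerProductSpace ℝ V]

/-- the weighted two-point functional of step (b) -/
def val (U w : V → ℝ → ℝ) (c : ℝ) (Y0 : V) (s t : ℝ) (x z : V) : ℝ :=
  U x t - w z (t - s) - ‖x - z‖ ^ 2 / (2 * s) - s * c / 2 * ‖x - (t / s) • (x - z) - Y0‖ ^ 2

/-! ### generalities -/

/-- near maximisers of a function bounded above -/
theorem exists_near_max {α : Type*} [Nonempty α] (φ : α → ℝ) (M ε : ℝ) (hφ : ∀ a, φ a ≤ M)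
    (hε : 0 < ε) : ∃ a, ∀ b, φ b ≤ φ a + ε := by
  have hbdd : BddAbove (range φ) := ⟨M, by rintro _ ⟨a, rfl⟩; exact hφ a⟩
  obtain ⟨a, ha⟩ := exists_lt_of_lt_ciSup (show (⨆ a, φ a) - ε < ⨆ a, φ a by linarith)
  exact ⟨a, fun b => by have := le_ciSup hbdd b; linarith⟩

/-- An eventually bounded sequence in a proper space converges along the hyperfilter. -/
theorem exists_lim [FiniteDimensional ℝ V] (F : Ultrafilter ℕ) (v : ℕ → V) (R : ℝ)
    (h : ∀ᶠ j in (F : Filter ℕ), ‖v j‖ ≤ R) : ∃ a, Tendsto v F (𝓝 a) := by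
  have : ProperSpace V := FiniteDimensional.proper ℝ V
  have hc : IsCompact (Metric.closedBall (0 : V) R) := isCompact_closedBall 0 R
  have hm : Metric.closedBall (0 : V) R ∈ Ultrafilter.map v F := by
    rw [Ultrafilter.mem_map]
    filter_upwards [h] with j hj
    simpa [Metric.mem_closedBall, dist_zero_right] using hj
  obtain ⟨a, -, ha⟩ := hc.ultrafilter_le_nhds' _ hm
  exact ⟨a, ha⟩

/-- expansion of a square -/
theorem sq_expand (a ξ : V) (s : ℝ) (hs : s ≠ 0) :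
    ‖a + ξ‖ ^ 2 / (2 * s) = ‖a‖ ^ 2 / (2 * s) + ⟪s⁻¹ • a, ξ⟫ + ‖ξ‖ ^ 2 / (2 * s) := by
  rw [norm_add_sq_real, inner_smul_left]
  simp only [RCLike.conj_to_real]
  field_simp

/-- **Lemma A.**  A near-supergradient with a quadratic error `|ξ|²/2s + e² s/2` of a function
`u` such that `u - |·|²/2t` is concave is a near-supergradient with error `e |ξ|`. -/
theorem upgrade (u : V → ℝ) (t s e : ℝ) (ht : 0 < t) (hs : 0 < s) (he : 0 < e)
    (hconc : ConcaveOn ℝ univ fun x => u x - ‖x‖ ^ 2 / (2 * t)) (x ν : V)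
    (h : ∀ ξ, u (x + ξ) ≤ u x + ⟪ν, ξ⟫ + ‖ξ‖ ^ 2 / (2 * s) + e ^ 2 * s / 2)
    (ξ : V) (hξ : s * e ≤ ‖ξ‖) :
    u (x + ξ) ≤ u x + ⟪ν, ξ⟫ + ‖ξ‖ ^ 2 / (2 * t) + e * ‖ξ‖ := by
  have hξ0 : 0 < ‖ξ‖ := lt_of_lt_of_le (by positivity) hξ
  set l : ℝ := s * e / ‖ξ‖ with hl
  have hl0 : 0 < l := by positivity
  have hl1 : l ≤ 1 := (div_le_one hξ0).2 hξ
  have h1 := hconc.2 (mem_univ x) (mem_univ (x + ξ)) (show (0 : ℝ) ≤ 1 - l by linarith) hl0.le
    (by ring)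
  have hx : (1 - l) • x + l • (x + ξ) = x + l • ξ := by
    rw [sub_smul, one_smul, smul_add]; abel
  rw [hx] at h1
  simp only [smul_eq_mul] at h1
  have h2 := h (l • ξ)
  rw [norm_smul, Real.norm_eq_abs, abs_of_pos hl0, inner_smul_right] at h2
  have h3 : (l * ‖ξ‖) = s * e := by rw [hl]; field_simp
  rw [h3] at h2
  have h4 : ‖x + l • ξ‖ ^ 2 = ‖x‖ ^ 2 + 2 * (l * ⟪x, ξ⟫) + (s * e) ^ 2 := by
    rw [norm_add_sq_real, inner_smul_right, norm_smul, Real.norm_eq_abs, abs_of_pos hl0, h3]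
  have h5 : ‖x + ξ‖ ^ 2 = ‖x‖ ^ 2 + 2 * ⟪x, ξ⟫ + ‖ξ‖ ^ 2 := norm_add_sq_real x ξ
  rw [h4, h5] at h1
  have h6 : s * e ^ 2 = l * (e * ‖ξ‖) := by rw [hl]; field_simp
  have h7 : (s * e) ^ 2 / (2 * s) = s * e ^ 2 / 2 := by field_simp
  rw [h7] at h2
  have h8 : 0 ≤ (s * e) ^ 2 / (2 * t) := by positivity
  have h9 : (‖x‖ ^ 2 + 2 * (l * ⟪x, ξ⟫) + (s * e) ^ 2) / (2 * t)
      = ‖x‖ ^ 2 / (2 * t) + l * (⟪x, ξ⟫ / t) + (s * e) ^ 2 / (2 * t) := by
    field_simp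
  have h10 : (‖x‖ ^ 2 + 2 * ⟪x, ξ⟫ + ‖ξ‖ ^ 2) / (2 * t)
      = ‖x‖ ^ 2 / (2 * t) + ⟪x, ξ⟫ / t + ‖ξ‖ ^ 2 / (2 * t) := by
    field_simp
  rw [h9, h10] at h1
  have h11 : l * (u (x + ξ) - u x) ≤ l * (⟪ν, ξ⟫ + ‖ξ‖ ^ 2 / (2 * t) + e * ‖ξ‖) := by
    nlinarith [h1, h2, h6, h8]
  have h12 := le_of_mul_le_mul_left h11 hl0
  linarith


/-- near-supergradients from (M) -/
theorem near_super (U W : V → ℝ → ℝ) (κ η δ t s : ℝ) (hs : 0 < s)
    (hM : ∀ x z : V, U x t - W z (t - s) - ‖x - z‖ ^ 2 / (2 * s) ≤ κ * t + η * s) (x z : V)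
    (h : W z (t - s) + ‖x - z‖ ^ 2 / (2 * s) ≤ U x t - κ * t + δ * s) (ξ : V) :
    U (x + ξ) t ≤ U x t + ⟪s⁻¹ • (x - z), ξ⟫ + ‖ξ‖ ^ 2 / (2 * s) + (η + δ) * s := by
  have h1 := hM (x + ξ) z
  rw [show x + ξ - z = (x - z) + ξ by abel, sq_expand _ _ _ hs.ne'] at h1
  linarith

/-- a vector whose near-supergradient estimate is tested against the unit sphere is bounded -/
theorem bound_unit (u : V → ℝ) (t s m : ℝ) (ht : 0 < t) (hs : 0 < s) (hs1 : s ≤ 1)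
    (hconc : ConcaveOn ℝ univ fun x => u x - ‖x‖ ^ 2 / (2 * t)) (x ν : V)
    (h : ∀ ξ, u (x + ξ) ≤ u x + ⟪ν, ξ⟫ + ‖ξ‖ ^ 2 / (2 * s) + s / 2)
    (hm : ∀ ξ : V, ‖ξ‖ ≤ 1 → m ≤ u (x + ξ)) :
    ‖ν‖ ≤ u x - m + 1 / (2 * t) + 1 := by
  rcases eq_or_ne ν 0 with h0 | h0
  · subst h0
    have := hm 0 (by simp)
    rw [add_zero] at this
    rw [norm_zero]
    have : 0 < 1 / (2 * t) := by positivity
    linarith
  · have hν : 0 < ‖ν‖ := norm_pos_iff.2 h0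
    set ξ : V := -(‖ν‖⁻¹ • ν) with hξ
    have hn : ‖ξ‖ = 1 := by
      rw [hξ, norm_neg, norm_smul, norm_inv, norm_norm, inv_mul_cancel₀ hν.ne']
    have h1 := upgrade u t s 1 ht hs one_pos hconc x ν (fun ζ => by
      have := h ζ; linarith) ξ (by rw [hn]; linarith)
    have h2 := hm ξ hn.le
    have h3 : ⟪ν, ξ⟫ = -‖ν‖ := by
      rw [hξ, inner_neg_right, inner_smul_right, real_inner_self_eq_norm_sq]
      field_simp
    rw [h3, hn] at h1
    linarith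

/-- a vector tested against `-t ν` is bounded -/
theorem bound_line (u : V → ℝ) (t s m C : ℝ) (ht : 0 < t) (hs : 0 < s) (hs1 : s ≤ 1)
    (hconc : ConcaveOn ℝ univ fun x => u x - ‖x‖ ^ 2 / (2 * t)) (Y ν : V)
    (h : ∀ ξ, u (Y + t • ν + ξ) ≤ u (Y + t • ν) + ⟪ν, ξ⟫ + ‖ξ‖ ^ 2 / (2 * s) + s / 2)
    (hm : m ≤ u Y) (hC : ∀ x, u x ≤ 1 / (8 * t) * ‖x‖ ^ 2 + C) :
    ‖ν‖ ≤ 5 + 1 / t + |4 * (‖Y‖ ^ 2 / (4 * t) + C - m) / t| := by
  have hab : 0 ≤ |4 * (‖Y‖ ^ 2 / (4 * t) + C - m) / t| := abs_nonneg _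
  have h1t : 0 < 1 / t := by positivity
  rcases lt_or_ge ‖t • ν‖ (s * 1) with h0 | h0
  · rw [norm_smul, Real.norm_eq_abs, abs_of_pos ht, mul_one] at h0
    have : ‖ν‖ < 1 / t := by
      rw [lt_div_iff₀ ht]; linarith [mul_comm t ‖ν‖]
    linarith
  · have h1 := upgrade u t s 1 ht hs one_pos hconc (Y + t • ν) ν (fun ζ => by
      have := h ζ; linarith) (-(t • ν)) (by rw [norm_neg]; exact h0)
    rw [show Y + t • ν + -(t • ν) = Y by abel, norm_neg, norm_smul, Real.norm_eq_abs,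
      abs_of_pos ht, inner_neg_right, inner_smul_right, real_inner_self_eq_norm_sq] at h1
    have h2 := hC (Y + t • ν)
    have h3 : ‖Y + t • ν‖ ^ 2 ≤ 2 * ‖Y‖ ^ 2 + 2 * (t * ‖ν‖) ^ 2 := by
      have h4 : ‖Y + t • ν‖ ≤ ‖Y‖ + t * ‖ν‖ := by
        refine (norm_add_le _ _).trans ?_
        rw [norm_smul, Real.norm_eq_abs, abs_of_pos ht]
      have h5 : ‖Y + t • ν‖ ^ 2 ≤ (‖Y‖ + t * ‖ν‖) ^ 2 :=
        pow_le_pow_left₀ (norm_nonneg _) h4 2
      nlinarith [sq_nonneg (‖Y‖ - t * ‖ν‖)]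
    have h6 : 1 / (8 * t) * ‖Y + t • ν‖ ^ 2 ≤ ‖Y‖ ^ 2 / (4 * t) + t * ‖ν‖ ^ 2 / 4 := by
      have h7 := mul_le_mul_of_nonneg_left h3 (show 0 ≤ 1 / (8 * t) by positivity)
      refine h7.trans (le_of_eq ?_)
      field_simp
      ring
    have h8 : (t * ‖ν‖) ^ 2 / (2 * t) = t * ‖ν‖ ^ 2 / 2 := by field_simp
    rw [h8] at h1
    -- `t ‖ν‖²/4 - t ‖ν‖ ≤ ‖Y‖²/(4t) + C - m`
    have h9 : t * (‖ν‖ ^ 2 - 4 * ‖ν‖) ≤ 4 * (‖Y‖ ^ 2 / (4 * t) + C - m) := by nlinarith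
    by_contra hcon
    push Not at hcon
    have h10 : 5 < ‖ν‖ := by linarith
    have h11 : ‖ν‖ ≤ ‖ν‖ ^ 2 - 4 * ‖ν‖ := by nlinarith
    have h12 : t * ‖ν‖ ≤ 4 * (‖Y‖ ^ 2 / (4 * t) + C - m) :=
      (mul_le_mul_of_nonneg_left h11 ht.le).trans h9
    have h13 : ‖ν‖ ≤ 4 * (‖Y‖ ^ 2 / (4 * t) + C - m) / t := by
      rw [le_div_iff₀ ht]; linarith
    have h14 := le_abs_self (4 * (‖Y‖ ^ 2 / (4 * t) + C - m) / t)
    linarith

set_option maxHeartbeats 2000000 in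
/-- **Step (e).** -/
theorem stageE [FiniteDimensional ℝ V] (W U : V → ℝ → ℝ) (κ : ℝ)
    (hW : Continuous fun p : V × ℝ => W p.1 p.2) (hG : Grow W)
    (hSup : ∀ (x : V) (t s s' : ℝ), 0 < s → s ≤ s' → ∀ z : V, ∃ z' : V,
      W z' (t - s') + ‖x - z'‖ ^ 2 / (2 * s') ≤
        W x t + s' / s * (W z (t - s) + ‖x - z‖ ^ 2 / (2 * s) - W x t))
    (hUl : ∀ t, 0 < t → ∀ x, W x t ≤ U x t) (hUu : ∀ t, 0 < t → ∀ x, U x t ≤ W x t + κ * t)
    (hUc : ∀ t, 0 < t → ConcaveOn ℝ univ fun x => U x t - ‖x‖ ^ 2 / (2 * t))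
    (hUcont : ∀ t, 0 < t → Continuous fun x => U x t)
    (hPC : ∀ (Y0 : V) (s t A B : ℝ), 0 < s → s ≤ t → t < 1 →
      (∀ x z, val U W (1 / 16) Y0 s t x z ≤ A) →
      (∀ x z, val U W (1 / 16) Y0 s (2 - t) x z ≤ B) →
      ∀ x z, val U W (1 / 16) Y0 s 1 x z ≤ (A + B) / 2)
    (hM : ∀ η : ℝ, 0 < η → ∃ ε0 : ℝ, 0 < ε0 ∧ ∀ t s : ℝ, 0 < t → 0 < s → s < ε0 * t → ∀ x z : V,
      U x t - W z (t - s) - ‖x - z‖ ^ 2 / (2 * s) ≤ κ * t + η * s)
    (x' : V) (htouch : U x' 1 = W x' 1 + κ)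
    (hh : ∀ s, 0 < s → ∃ z, W z (1 - s) + ‖x' - z‖ ^ 2 / (2 * s) ≤ W x' 1) :
    ∃ Y : V, ∀ t, 0 < t → t < 1 → ∃ ν : V,
      U (Y + t • ν) t = W (Y + t • ν) t + κ * t ∧
      (∀ s, 0 < s → ∃ z, W z (t - s) + ‖Y + t • ν - z‖ ^ 2 / (2 * s) ≤ W (Y + t • ν) t) ∧
      ∀ ξ, U (Y + t • ν + ξ) t ≤ U (Y + t • ν) t + ⟪ν, ξ⟫ + ‖ξ‖ ^ 2 / (2 * t) := by
  have hproper : ProperSpace V := FiniteDimensional.proper ℝ V
  set F : Ultrafilter ℕ := hyperfilter ℕ with hFdef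
  have hF : (F : Filter ℕ) ≤ atTop := Nat.hyperfilter_le_atTop
  set σ : ℕ → ℝ := fun j => 1 / ((j : ℝ) + 1) with hσ
  have hσ0 : ∀ j, 0 < σ j := fun j => by simp only [hσ]; positivity
  have hσ1 : ∀ j, σ j ≤ 1 := fun j => by
    simp only [hσ]
    rw [div_le_one (by positivity)]
    have : (0 : ℝ) ≤ j := Nat.cast_nonneg j
    linarith
  have hσlim : Tendsto σ F (𝓝 0) := tendsto_one_div_add_atTop_nhds_zero_nat.mono_left hF
  have hσev : ∀ ε : ℝ, 0 < ε → ∀ᶠ j in (F : Filter ℕ), σ j < ε := fun ε hε =>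
    hσlim.eventually_lt_const hε
  -- step 1: the points at time one
  choose z0 hz0 using fun j => hh (σ j) (hσ0 j)
  set ν0 : ℕ → V := fun j => (σ j)⁻¹ • (x' - z0 j) with hν0
  obtain ⟨m0, hm0⟩ : ∃ m0 : ℝ, ∀ ξ : V, ‖ξ‖ ≤ 1 → m0 ≤ U (x' + ξ) 1 := by
    have hc : IsCompact (Metric.closedBall x' 1) := isCompact_closedBall x' 1
    have hcont : ContinuousOn (fun x => W x 1) (Metric.closedBall x' 1) :=
      (hW.comp (continuous_id.prodMk continuous_const)).continuousOn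
    obtain ⟨m0, hm0⟩ := hc.bddBelow_image hcont
    refine ⟨m0, fun ξ hξ => ?_⟩
    refine le_trans (hm0 ⟨x' + ξ, ?_, rfl⟩) (hUl 1 one_pos _)
    rw [Metric.mem_closedBall, dist_eq_norm, add_sub_cancel_left]; exact hξ
  obtain ⟨ε1, hε1, hM1⟩ := hM (1 / 4) (by norm_num)
  have hν0b : ∀ᶠ j in (F : Filter ℕ), ‖ν0 j‖ ≤ U x' 1 - m0 + 1 / (2 * 1) + 1 := by
    filter_upwards [hσev ε1 hε1] with j hj
    apply bound_unit (fun x => U x 1) 1 (σ j) m0 one_pos (hσ0 j) (hσ1 j) (hUc 1 one_pos) x' (ν0 j)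
      _ hm0
    intro ξ
    have h1 := near_super U W κ (1 / 4) 0 1 (σ j) (hσ0 j)
      (hM1 1 (σ j) one_pos (hσ0 j) (by linarith)) x' (z0 j)
      (by have := hz0 j; rw [htouch]; linarith) ξ
    have h2 := hσ0 j
    simp only [hν0]
    nlinarith [h1]
  obtain ⟨νs, hνs⟩ := exists_lim F ν0 _ hν0b
  refine ⟨x' - νs, fun t ht ht1 => ?_⟩
  set Y : V := x' - νs with hY
  -- near maximisers of the weighted functional
  have hbd : ∀ j, σ j < ε1 * t → ∀ p : V × V,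
      val U W (1 / 16) Y (σ j) t p.1 p.2 ≤ κ * t + 1 / 4 * σ j := by
    intro j hj p
    have h1 := hM1 t (σ j) ht (hσ0 j) hj p.1 p.2
    have h2 : 0 ≤ σ j * (1 / 16) / 2 * ‖p.1 - (t / σ j) • (p.1 - p.2) - Y‖ ^ 2 := by
      have := hσ0 j; positivity
    unfold val
    linarith
  have hnear : ∀ j, ∃ p : V × V, σ j < ε1 * t → ∀ q : V × V,
      val U W (1 / 16) Y (σ j) t q.1 q.2 ≤ val U W (1 / 16) Y (σ j) t p.1 p.2 + σ j ^ 2 := by
    intro j
    by_cases hj : σ j < ε1 * t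
    · obtain ⟨p, hp⟩ := exists_near_max (fun q : V × V => val U W (1 / 16) Y (σ j) t q.1 q.2)
        _ (σ j ^ 2) (hbd j hj) (by have := hσ0 j; positivity)
      exact ⟨p, fun _ => hp⟩
    · exact ⟨0, fun h => absurd h hj⟩
  choose p hp using hnear
  set X : ℕ → V := fun j => (p j).1 with hX
  set Z : ℕ → V := fun j => (p j).2 with hZ
  set N : ℕ → V := fun j => (σ j)⁻¹ • (X j - Z j) with hN
  set L : ℕ → V := fun j => X j - (t / σ j) • (X j - Z j) with hL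
  have hLN : ∀ j, L j = X j - t • N j := by
    intro j; simp only [hL, hN]; rw [smul_smul, div_eq_mul_inv]
  have hXL : ∀ j, X j = L j + t • N j := by
    intro j; rw [hLN]; abel
  have hZX : ∀ j, Z j = X j - σ j • N j := by
    intro j; simp only [hN]
    rw [smul_smul, mul_inv_cancel₀ (hσ0 j).ne', one_smul]; abel
  -- claim 4: the near maximal value
  have hval : ∀ η : ℝ, 0 < η → ∀ᶠ j in (F : Filter ℕ),
      κ * t - σ j * η ≤ val U W (1 / 16) Y (σ j) t (X j) (Z j) := by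
    intro η hη
    obtain ⟨ε2, hε2, hM2⟩ := hM (η / 4) (by positivity)
    have hn : Tendsto (fun j => ‖νs - ν0 j‖ ^ 2) F (𝓝 0) := by
      have h1 : Tendsto (fun j => νs - ν0 j) F (𝓝 (νs - νs)) := tendsto_const_nhds.sub hνs
      rw [sub_self] at h1
      simpa using (h1.norm.pow 2)
    filter_upwards [hσev (ε1 * t) (by positivity), hσev (ε2 * (2 - t)) (by nlinarith),
      hσev (η / 4) (by positivity), hσev t ht, hn.eventually_lt_const (show (0 : ℝ) < η by exact hη)]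
      with j h1 h2 h3 h4 h5
    have hA := fun x z => hp j h1 (x, z)
    have hB : ∀ x z, val U W (1 / 16) Y (σ j) (2 - t) x z ≤ κ * (2 - t) + η / 4 * σ j := by
      intro x z
      have h6 := hM2 (2 - t) (σ j) (by linarith) (hσ0 j) h2 x z
      have h7 : 0 ≤ σ j * (1 / 16) / 2 * ‖x - ((2 - t) / σ j) • (x - z) - Y‖ ^ 2 := by
        have := hσ0 j; positivity
      unfold val
      linarith
    have h8 := hPC Y (σ j) t _ _ (hσ0 j) h4.le ht1 hA hB x' (z0 j)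
    have h9 : val U W (1 / 16) Y (σ j) 1 x' (z0 j) ≥ κ - σ j * (1 / 16) / 2 * ‖νs - ν0 j‖ ^ 2 := by
      unfold val
      have h10 : x' - (1 / σ j) • (x' - z0 j) - Y = νs - ν0 j := by
        simp only [hY, hν0, one_div]; abel
      rw [h10]
      have := hz0 j
      linarith
    have hs := hσ0 j
    have h11 : σ j * ‖νs - ν0 j‖ ^ 2 ≤ σ j * η := mul_le_mul_of_nonneg_left h5.le hs.le
    have h12 : σ j ^ 2 ≤ σ j * (η / 4) := by
      rw [sq]; exact mul_le_mul_of_nonneg_left h3.le hs.le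
    simp only [hX, hZ]
    nlinarith [h8, h9, h11, h12]
  -- claim 5
  have hLlim : Tendsto L F (𝓝 Y) := by
    rw [Metric.tendsto_nhds]
    intro ε hε
    obtain ⟨ε2, hε2, hM2⟩ := hM (ε ^ 2 / 128) (by positivity)
    filter_upwards [hval (ε ^ 2 / 128) (by positivity), hσev (ε2 * t) (by positivity)] with j h1 h2
    have h3 := hM2 t (σ j) ht (hσ0 j) h2 (X j) (Z j)
    have hs := hσ0 j
    unfold val at h1
    have h4 : σ j * ‖L j - Y‖ ^ 2 < σ j * ε ^ 2 := by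
      have h5 : σ j * (1 / 16) / 2 * ‖X j - (t / σ j) • (X j - Z j) - Y‖ ^ 2
          = σ j * ‖L j - Y‖ ^ 2 / 32 := by simp only [hL]; ring
      rw [h5] at h1
      have h6 : 0 < σ j * ε ^ 2 := by positivity
      nlinarith
    have h5 := lt_of_mul_lt_mul_left h4 hs.le
    rw [dist_eq_norm]
    exact lt_of_pow_lt_pow_left₀ 2 hε.le h5
  -- claim 6
  have hclose : ∀ η : ℝ, 0 < η → ∀ᶠ j in (F : Filter ℕ),
      W (Z j) (t - σ j) + ‖X j - Z j‖ ^ 2 / (2 * σ j) ≤ U (X j) t - κ * t + η * σ j := by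
    intro η hη
    filter_upwards [hval η hη] with j h1
    unfold val at h1
    have h7 : 0 ≤ σ j * (1 / 16) / 2 * ‖X j - (t / σ j) • (X j - Z j) - Y‖ ^ 2 := by
      have := hσ0 j; positivity
    linarith
  have hsuper : ∀ η : ℝ, 0 < η → ∀ᶠ j in (F : Filter ℕ), ∀ ξ,
      U (X j + ξ) t ≤ U (X j) t + ⟪N j, ξ⟫ + ‖ξ‖ ^ 2 / (2 * σ j) + η * σ j := by
    intro η hη
    obtain ⟨ε2, hε2, hM2⟩ := hM (η / 2) (by positivity)
    filter_upwards [hclose (η / 2) (by positivity), hσev (ε2 * t) (by positivity)] with j h1 h2 ξ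
    have h3 := near_super U W κ (η / 2) (η / 2) t (σ j) (hσ0 j)
      (hM2 t (σ j) ht (hσ0 j) h2) (X j) (Z j) h1 ξ
    simp only [hN]
    linarith
  -- claim 7: bounded velocities
  obtain ⟨C, hC⟩ := hG 1 (1 / (8 * t)) (by positivity)
  have hCt : ∀ x, U x t ≤ 1 / (8 * t) * ‖x‖ ^ 2 + (C + κ * t) := by
    intro x
    have h1 := hUu t ht x
    have h2 := (abs_le.1 (hC x t (by rw [abs_of_pos ht]; linarith))).2
    linarith
  obtain ⟨m1, hm1⟩ : ∃ m1 : ℝ, ∀ x : V, ‖x - Y‖ ≤ 1 → m1 ≤ U x t := by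
    have hc : IsCompact (Metric.closedBall Y 1) := isCompact_closedBall Y 1
    have hcont : ContinuousOn (fun x => W x t) (Metric.closedBall Y 1) :=
      (hW.comp (continuous_id.prodMk continuous_const)).continuousOn
    obtain ⟨m1, hm1⟩ := hc.bddBelow_image hcont
    refine ⟨m1, fun x hx => ?_⟩
    refine le_trans (hm1 ⟨x, ?_, rfl⟩) (hUl t ht _)
    rw [Metric.mem_closedBall, dist_eq_norm]; exact hx
  have hLn : Tendsto (fun j => ‖L j‖) F (𝓝 ‖Y‖) := hLlim.norm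
  have hNb : ∀ᶠ j in (F : Filter ℕ),
      ‖N j‖ ≤ 5 + 1 / t + (4 * ((‖Y‖ + 1) ^ 2 / (4 * t) + |C + κ * t - m1|) / t) := by
    have h1 : ∀ᶠ j in (F : Filter ℕ), ‖L j - Y‖ ≤ 1 := by
      have h2 : Tendsto (fun j => ‖L j - Y‖) F (𝓝 0) := by
        rw [← tendsto_iff_norm_sub_tendsto_zero]; exact hLlim
      exact (h2.eventually_lt_const one_pos).mono fun j hj => hj.le
    filter_upwards [h1, hsuper (1 / 2) (by norm_num)] with j h2 h3
    have h4 := bound_line (fun x => U x t) t (σ j) m1 (C + κ * t) ht (hσ0 j) (hσ1 j) (hUc t ht)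
      (L j) (N j) (fun ξ => by
        have := h3 ξ
        rw [hXL j] at this
        linarith) (hm1 _ h2) hCt
    refine h4.trans ?_
    have h5 : ‖L j‖ ≤ ‖Y‖ + 1 := by
      calc ‖L j‖ = ‖(L j - Y) + Y‖ := by rw [sub_add_cancel]
        _ ≤ ‖L j - Y‖ + ‖Y‖ := norm_add_le _ _
        _ ≤ _ := by linarith
    have h6 : ‖L j‖ ^ 2 / (4 * t) ≤ (‖Y‖ + 1) ^ 2 / (4 * t) := by
      apply div_le_div_of_nonneg_right _ (by positivity)
      exact pow_le_pow_left₀ (norm_nonneg _) h5 2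
    have h7 : |4 * (‖L j‖ ^ 2 / (4 * t) + (C + κ * t) - m1) / t|
        ≤ 4 * ((‖Y‖ + 1) ^ 2 / (4 * t) + |C + κ * t - m1|) / t := by
      rw [abs_div, abs_of_pos ht, abs_mul, abs_of_pos (show (0 : ℝ) < 4 by norm_num)]
      apply div_le_div_of_nonneg_right _ ht.le
      apply mul_le_mul_of_nonneg_left _ (by norm_num)
      calc |‖L j‖ ^ 2 / (4 * t) + (C + κ * t) - m1|
          = |‖L j‖ ^ 2 / (4 * t) + (C + κ * t - m1)| := by ring_nf
        _ ≤ |‖L j‖ ^ 2 / (4 * t)| + |C + κ * t - m1| := abs_add_le _ _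
        _ = ‖L j‖ ^ 2 / (4 * t) + |C + κ * t - m1| := by rw [abs_of_nonneg (by positivity)]
        _ ≤ _ := by linarith
    linarith
  obtain ⟨ν, hν⟩ := exists_lim F N _ hNb
  -- limits of the points
  have hXlim : Tendsto X F (𝓝 (Y + t • ν)) := by
    have h1 : Tendsto (fun j => L j + t • N j) F (𝓝 (Y + t • ν)) :=
      hLlim.add (hν.const_smul t)
    refine h1.congr fun j => (hXL j).symm
  have hZlim : Tendsto Z F (𝓝 (Y + t • ν)) := by
    have h1 : Tendsto (fun j => X j - σ j • N j) F (𝓝 (Y + t • ν - (0 : ℝ) • ν)) :=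
      hXlim.sub (hσlim.smul hν)
    rw [zero_smul, sub_zero] at h1
    refine h1.congr fun j => (hZX j).symm
  set x0 : V := Y + t • ν with hx0
  have hWX : Tendsto (fun j => W (X j) t) F (𝓝 (W x0 t)) :=
    (hW.tendsto (x0, t)).comp (hXlim.prodMk_nhds tendsto_const_nhds)
  have hWZ : Tendsto (fun j => W (Z j) (t - σ j)) F (𝓝 (W x0 t)) := by
    have h1 : Tendsto (fun j => t - σ j) F (𝓝 (t - 0)) := tendsto_const_nhds.sub hσlim
    rw [sub_zero] at h1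
    exact (hW.tendsto (x0, t)).comp (hZlim.prodMk_nhds h1)
  have hUX : Tendsto (fun j => U (X j) t) F (𝓝 (U x0 t)) := ((hUcont t ht).tendsto x0).comp hXlim
  refine ⟨ν, ?_, ?_, ?_⟩
  · -- touching
    apply le_antisymm (hUu t ht x0)
    have h1 : Tendsto (fun j => U (X j) t - κ * t + 1 * σ j) F (𝓝 (U x0 t - κ * t + 1 * 0)) :=
      (hUX.sub_const _).add (hσlim.const_mul 1)
    have h2 : W x0 t ≤ U x0 t - κ * t + 1 * 0 := by
      refine le_of_tendsto_of_tendsto hWZ h1 ?_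
      filter_upwards [hclose 1 one_pos] with j hj
      have : 0 ≤ ‖X j - Z j‖ ^ 2 / (2 * σ j) := by have := hσ0 j; positivity
      linarith
    linarith
  · -- nonnegative backward slope
    intro s hs
    have hex : ∀ j, ∃ z' : V, σ j ≤ s → W z' (t - s) + ‖X j - z'‖ ^ 2 / (2 * s) ≤
        W (X j) t + s / σ j * (W (Z j) (t - σ j) + ‖X j - Z j‖ ^ 2 / (2 * σ j) - W (X j) t) := by
      intro j
      by_cases hj : σ j ≤ s
      · obtain ⟨z', hz'⟩ := hSup (X j) t (σ j) s (hσ0 j) hj (Z j)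
        exact ⟨z', fun _ => hz'⟩
      · exact ⟨0, fun h => absurd h hj⟩
    choose z' hz' using hex
    have hz'' : ∀ η : ℝ, 0 < η → ∀ᶠ j in (F : Filter ℕ),
        W (z' j) (t - s) + ‖X j - z' j‖ ^ 2 / (2 * s) ≤ W (X j) t + η * s := by
      intro η hη
      filter_upwards [hclose η hη, hσev s hs] with j h1 h2
      refine (hz' j h2.le).trans ?_
      have h3 := hUu t ht (X j)
      have h4 : W (Z j) (t - σ j) + ‖X j - Z j‖ ^ 2 / (2 * σ j) - W (X j) t ≤ η * σ j := by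
        linarith
      have h5 : s / σ j * (W (Z j) (t - σ j) + ‖X j - Z j‖ ^ 2 / (2 * σ j) - W (X j) t)
          ≤ s / σ j * (η * σ j) :=
        mul_le_mul_of_nonneg_left h4 (div_nonneg hs.le (hσ0 j).le)
      have h6 : s / σ j * (η * σ j) = η * s := by
        have := (hσ0 j).ne'; field_simp
      linarith
    obtain ⟨C2, hC2⟩ := hG (|t| + s) (1 / (8 * s)) (by positivity)
    -- boundedness
    have hz'b : ∀ᶠ j in (F : Filter ℕ), ‖z' j‖ ≤
        (‖x0‖ + 1) + (1 + 4 * s * (W x0 t + 1 + s + (‖x0‖ + 1) ^ 2 / (4 * s) + C2)) := by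
      filter_upwards [hz'' 1 one_pos, hWX.eventually_lt_const (show W x0 t < W x0 t + 1 by linarith),
        hXlim.norm.eventually_lt_const (show ‖x0‖ < ‖x0‖ + 1 by linarith)] with j h1 h2 h3
      have h4 := (abs_le.1 (hC2 (z' j) (t - s) (by
        calc |t - s| ≤ |t| + |s| := abs_sub _ _
          _ = |t| + s := by rw [abs_of_pos hs]))).1
      set d := ‖X j - z' j‖ with hd
      have h5 : ‖z' j‖ ≤ ‖X j‖ + d := by
        calc ‖z' j‖ = ‖X j - (X j - z' j)‖ := by rw [sub_sub_cancel]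
          _ ≤ _ := norm_sub_le _ _
      have h6 : ‖z' j‖ ^ 2 ≤ 2 * (‖x0‖ + 1) ^ 2 + 2 * d ^ 2 := by
        have h7 : ‖z' j‖ ≤ (‖x0‖ + 1) + d := by linarith
        have h8 := pow_le_pow_left₀ (norm_nonneg _) h7 2
        nlinarith [sq_nonneg ((‖x0‖ + 1) - d)]
      have h9 : 1 / (8 * s) * ‖z' j‖ ^ 2 ≤ (‖x0‖ + 1) ^ 2 / (4 * s) + d ^ 2 / (4 * s) := by
        refine (mul_le_mul_of_nonneg_left h6 (by positivity)).trans (le_of_eq ?_)
        field_simp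
        ring
      have h10 : d ^ 2 / (2 * s) = d ^ 2 / (4 * s) + d ^ 2 / (4 * s) := by
        field_simp; ring
      have h11 : d ^ 2 / (4 * s) ≤ W x0 t + 1 + s + (‖x0‖ + 1) ^ 2 / (4 * s) + C2 := by
        rw [h10] at h1
        linarith
      rw [div_le_iff₀ (by positivity)] at h11
      have h12 : d ≤ 1 + d ^ 2 := by nlinarith [sq_nonneg (d - 1)]
      have h13 : ‖X j‖ ≤ ‖x0‖ + 1 := h3.le
      nlinarith [h5, h11, h12, h13]
    obtain ⟨zl, hzl⟩ := exists_lim F z' _ hz'b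
    refine ⟨zl, ?_⟩
    have hlim : Tendsto (fun j => W (z' j) (t - s) + ‖X j - z' j‖ ^ 2 / (2 * s)) F
        (𝓝 (W zl (t - s) + ‖x0 - zl‖ ^ 2 / (2 * s))) := by
      have h1 : Tendsto (fun j => W (z' j) (t - s)) F (𝓝 (W zl (t - s))) :=
        (hW.tendsto (zl, t - s)).comp (hzl.prodMk_nhds tendsto_const_nhds)
      exact h1.add (((hXlim.sub hzl).norm.pow 2).div_const _)
    have h2 : ∀ η : ℝ, 0 < η → W zl (t - s) + ‖x0 - zl‖ ^ 2 / (2 * s) ≤ W x0 t + η * s := by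
      intro η hη
      exact le_of_tendsto_of_tendsto hlim (hWX.add_const _) (hz'' η hη)
    apply le_of_forall_pos_le_add
    intro ε hε
    have h3 := h2 (ε / s) (by positivity)
    rwa [div_mul_cancel₀ _ hs.ne'] at h3
  · -- supergradient
    intro ξ
    rcases eq_or_ne ξ 0 with h0 | h0
    · subst h0; simp
    have hξ : 0 < ‖ξ‖ := norm_pos_iff.2 h0
    have key : ∀ e : ℝ, 0 < e →
        U (x0 + ξ) t ≤ U x0 t + ⟪ν, ξ⟫ + ‖ξ‖ ^ 2 / (2 * t) + e * ‖ξ‖ := by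
      intro e he
      have h1 : Tendsto (fun j => U (X j + ξ) t) F (𝓝 (U (x0 + ξ) t)) :=
        ((hUcont t ht).tendsto (x0 + ξ)).comp (hXlim.add_const ξ)
      have h2 : Tendsto (fun j => U (X j) t + ⟪N j, ξ⟫ + ‖ξ‖ ^ 2 / (2 * t) + e * ‖ξ‖) F
          (𝓝 (U x0 t + ⟪ν, ξ⟫ + ‖ξ‖ ^ 2 / (2 * t) + e * ‖ξ‖)) :=
        ((hUX.add (hν.inner tendsto_const_nhds)).add_const _).add_const _
      refine le_of_tendsto_of_tendsto h1 h2 ?_
      filter_upwards [hsuper (e ^ 2 / 2) (by positivity), hσev (‖ξ‖ / e) (by positivity)]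
        with j h3 h4
      apply upgrade (fun x => U x t) t (σ j) e ht (hσ0 j) he (hUc t ht) (X j) (N j) _ ξ
      · rw [lt_div_iff₀ he] at h4; exact h4.le
      · intro ζ
        have := h3 ζ
        linarith
    apply le_of_forall_pos_le_add
    intro ε hε
    have h3 := key (ε / ‖ξ‖) (by positivity)
    rwa [div_mul_cancel₀ _ hξ.ne'] at h3

end Crest.Agent.R094.StageE
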