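import Crest.Agent.R094.Iface
import Crest.Agent.R094.EnvBridge
import Crest.Agent.R094.SolBasic
import Crest.Agent.R094.StageE
import Crest.Agent.R094.Rigid2

/-!
Row 94 (S0124), route 7921: `StageE_stmt` and `AffineOfNoDefect_stmt` of the frozen interface
(helper404).
-/

set_option autoImplicit false

noncomputable section

open Filter Topology Set
open scoped RealInnerProductSpace

namespace Crest.Agent.R094.GKE

open Sol GK

variable {V : Type*} [NormedAddCommGroup V] [InnerProductSpace ℝ V]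

/-! ### the envelope of the interface is `UEnv` -/

theorem env_eq_UEnv (σ : ℝ) (f : V → ℝ) (x : V) : env σ f x = Env.UEnv σ f x := by
  unfold env Sol.infc Env.UEnv
  exact iInf_congr fun y => by rw [Env.supc_eq_Qs]

theorem slice_cont {w : V → ℝ → ℝ} (h : IsSol w) (t : ℝ) : Continuous fun y => w y t :=
  h.cont.comp (continuous_id.prodMk continuous_const)

theorem slice_subQ {w : V → ℝ → ℝ} (h : IsSol w) (t : ℝ) : Env.SubQ fun y => w y t :=
  Env.Grow.subQ h.grow t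

theorem le_Uf {w : V → ℝ → ℝ} (h : IsSol w) {t : ℝ} (ht : 0 < t) (x : V) : w x t ≤ Uf w x t := by
  unfold Uf
  rw [env_eq_UEnv]
  exact Env.self_le_UEnv (slice_subQ h t) ht x

theorem env_concave {w : V → ℝ → ℝ} (h : IsSol w) (t : ℝ) {σ : ℝ} (hσ : 0 < σ) :
    ConcaveOn ℝ univ fun x => env σ (fun y => w y t) x - ‖x‖ ^ 2 / (2 * σ) := by
  have h1 := Env.UEnv_concave (slice_subQ h t) hσ
  refine h1.congr fun x _ => ?_
  rw [env_eq_UEnv]

theorem env_cont [FiniteDimensional ℝ V] {w : V → ℝ → ℝ} (h : IsSol w) (t : ℝ) {σ : ℝ}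
    (hσ : 0 < σ) : Continuous fun x => env σ (fun y => w y t) x := by
  have h1 := Env.continuous_UEnv (slice_cont h t) (slice_subQ h t) hσ
  exact h1.congr fun x => (env_eq_UEnv σ _ x).symm

/-! ### Stage E -/

theorem val_eq (U w : V → ℝ → ℝ) (c : ℝ) (Y₀ : V) (s t : ℝ) (x z : V) :
    StageE.val U w c Y₀ s t x z = val U w c Y₀ s t x z := by
  unfold StageE.val val Phi
  ring

/-- (404, StageE) -/
theorem stageE [FiniteDimensional ℝ V] (hPC : PropC_stmt V) (hVA : VfAttained_stmt V)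
    (hEnv : EnvSub_stmt V) : StageE_stmt V := by
  intro K κ hκ hkap W x' hW hM htouch hh
  have hsol := hW.sol
  obtain ⟨Y, hY⟩ := StageE.stageE W (Uf W) κ hsol.cont hsol.grow
    (by
      intro x t s s' hs hss z
      have hs' : 0 < s' := lt_of_lt_of_le hs hss
      obtain ⟨z', hz'⟩ := exists_B hsol.cont hsol.grow hs' x t
      refine ⟨z', ?_⟩
      rw [← hz']
      have h1 := hsol.sup x t s s' hs hss
      have h2 := B_le hsol.grow hs x z t
      have h3 : s / s' * B s' W x t ≤ s / s' * (W x t + s' / s *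
          (W z (t - s) + ‖x - z‖ ^ 2 / (2 * s) - W x t)) := by
        have h4 : s / s' * (W x t + s' / s * (W z (t - s) + ‖x - z‖ ^ 2 / (2 * s) - W x t))
            = s / s' * W x t + (W z (t - s) + ‖x - z‖ ^ 2 / (2 * s) - W x t) := by
          field_simp
        rw [h4]
        linarith
      exact le_of_mul_le_mul_left h3 (by positivity))
    (fun t ht x => le_Uf hsol ht x)
    (fun t ht x => hkap W hW x t t ht)
    (fun t ht => env_concave hsol t ht)
    (fun t ht => env_cont hsol t ht)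
    (by
      intro Y0 s t A B hs hst ht1 hA hB x z
      have ht : 0 < t := lt_of_lt_of_le hs hst
      have hc : (0 : ℝ) < 1 / 16 := by norm_num
      have h1 := hPC (Uf W) W (hEnv K W hW) hsol (1 / 16) Y0 s 1 (1 - t) hc hs (by linarith)
        (by linarith) (by linarith) (by nlinarith)
      rw [show (1 : ℝ) - (1 - t) = t by ring, show (1 : ℝ) + (1 - t) = 2 - t by ring] at h1
      have h2 : Vf (Uf W) W (1 / 16) Y0 s t ≤ A := by
        apply ciSup_le
        intro q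
        rw [← val_eq]; exact hA q.1 q.2
      have h3 : Vf (Uf W) W (1 / 16) Y0 s (2 - t) ≤ B := by
        apply ciSup_le
        intro q
        rw [← val_eq]; exact hB q.1 q.2
      have h4 := le_ciSup (hVA K W hW (1 / 16) Y0 s 1 hc hs one_pos).1 (x, z)
      have h5 : val (Uf W) W (1 / 16) Y0 s 1 x z ≤ Vf (Uf W) W (1 / 16) Y0 s 1 := h4
      rw [val_eq]
      linarith)
    (fun η hη => by
      obtain ⟨ε₀, hε₀, h⟩ := hM η hη
      exact ⟨ε₀, hε₀, fun t s ht hs hst x z => h t ht s hs hst x z⟩)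
    x' htouch
    (fun s hs => by
      obtain ⟨z, hz⟩ := exists_B hsol.cont hsol.grow hs x' 1
      exact ⟨z, by rw [← hz]; exact hh s hs⟩)
  refine ⟨Y, fun t ht ht1 => ?_⟩
  obtain ⟨ν, h1, h2, h3⟩ := hY t ht ht1
  refine ⟨ν, h1, h3, fun σ hσ => ?_⟩
  obtain ⟨z, hz⟩ := h2 σ hσ
  exact (B_le hsol.grow hσ _ z t).trans hz

/-! ### no defect -/

/-- a function with `f - ‖·‖²/2σ` concave for all `σ > 0` is concave -/
theorem concave_of_semi {f : V → ℝ}
    (h : ∀ σ : ℝ, 0 < σ → ConcaveOn ℝ univ fun x => f x - ‖x‖ ^ 2 / (2 * σ)) :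
    ConcaveOn ℝ univ f := by
  refine ⟨convex_univ, ?_⟩
  intro x _ y _ a b ha hb hab
  simp only [smul_eq_mul]
  apply Rigid2.le_of_forall_large (c := a * (‖x‖ ^ 2 / 2) + b * (‖y‖ ^ 2 / 2)) (S₀ := 0)
  intro S hS
  have h1 := (h S hS).2 (mem_univ x) (mem_univ y) ha hb hab
  simp only [smul_eq_mul] at h1
  have h2 : 0 ≤ ‖a • x + b • y‖ ^ 2 / (2 * S) := by positivity
  have h3 : (a * (‖x‖ ^ 2 / 2) + b * (‖y‖ ^ 2 / 2)) / S
      = a * (‖x‖ ^ 2 / (2 * S)) + b * (‖y‖ ^ 2 / (2 * S)) := by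
    field_simp
  rw [h3]
  linarith

/-- growth of members of the flat class -/
theorem flat_growth {K : ℝ} (hK : 0 < K) {w : V → ℝ → ℝ} (h : Flat K w) :
    ∃ C : ℝ, ∀ x t, |w x t| ≤ C * (1 + ‖x‖ + |t|) ^ (3 / 2 : ℝ) := by
  obtain ⟨p, b, hpb⟩ := h 0 0 1 one_pos
  refine ⟨|w 0 0| + ‖p‖ + ‖p‖ ^ 2 + |b| + K * (1 + ‖p‖) ^ (3 / 2 : ℝ), fun x t => ?_⟩
  have h1 := hpb (x - t • p) t
  rw [zero_add, zero_add, add_sub_cancel, div_one] at h1
  set G : ℝ := 1 + ‖x‖ + |t| with hG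
  have hG1 : 1 ≤ G := by
    have := norm_nonneg x; have := abs_nonneg t; linarith
  have hx : ‖x‖ ≤ G := by have := abs_nonneg t; linarith
  have ht : |t| ≤ G := by have := norm_nonneg x; linarith
  have hGG : G ≤ G ^ (3 / 2 : ℝ) := by
    calc G = G ^ (1 : ℝ) := (Real.rpow_one G).symm
      _ ≤ _ := Real.rpow_le_rpow_of_exponent_le hG1 (by norm_num)
  have hG0 : 0 ≤ G ^ (3 / 2 : ℝ) := by positivity
  have hG1' : 1 ≤ G ^ (3 / 2 : ℝ) := hG1.trans hGG
  have h2 : ‖x - t • p‖ ≤ ‖x‖ + |t| * ‖p‖ := by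
    refine (norm_sub_le _ _).trans ?_
    rw [norm_smul, Real.norm_eq_abs]
  have h3 : (1 + (‖x - t • p‖ + |t|)) ^ (3 / 2 : ℝ) ≤ (1 + ‖p‖) ^ (3 / 2 : ℝ) * G ^ (3 / 2 : ℝ) := by
    rw [← Real.mul_rpow (by positivity) (by positivity)]
    apply Real.rpow_le_rpow (by positivity) _ (by norm_num)
    have h4 : |t| * ‖p‖ ≤ G * ‖p‖ := mul_le_mul_of_nonneg_right ht (norm_nonneg p)
    nlinarith
  have h4 : |inner ℝ p (x - t • p)| ≤ (‖p‖ + ‖p‖ ^ 2) * G := by
    refine (abs_real_inner_le_norm _ _).trans ?_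
    have h5 : ‖p‖ * ‖x - t • p‖ ≤ ‖p‖ * (‖x‖ + |t| * ‖p‖) :=
      mul_le_mul_of_nonneg_left h2 (norm_nonneg p)
    have h6 : ‖p‖ * ‖x‖ ≤ ‖p‖ * G := mul_le_mul_of_nonneg_left hx (norm_nonneg p)
    have h7 : ‖p‖ ^ 2 * |t| ≤ ‖p‖ ^ 2 * G := mul_le_mul_of_nonneg_left ht (by positivity)
    nlinarith
  have h5 : |b * t| ≤ |b| * G := by
    rw [abs_mul]; exact mul_le_mul_of_nonneg_left ht (abs_nonneg b)
  have h6 : |w x t| ≤ |w x t - w 0 0 - inner ℝ p (x - t • p) - b * t| + |w 0 0| +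
      |inner ℝ p (x - t • p)| + |b * t| := by
    have e : w x t = (w x t - w 0 0 - inner ℝ p (x - t • p) - b * t) + w 0 0 +
      inner ℝ p (x - t • p) + b * t := by ring
    calc |w x t| = |(w x t - w 0 0 - inner ℝ p (x - t • p) - b * t) + w 0 0 +
      inner ℝ p (x - t • p) + b * t| := by rw [← e]
      _ ≤ _ := by
        refine (abs_add_le _ _).trans ?_
        gcongr
        refine (abs_add_le _ _).trans ?_
        gcongr
        exact abs_add_le _ _
  have h7 : K * 1 * (1 + (‖x - t • p‖ + |t|)) ^ (3 / 2 : ℝ)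
      ≤ K * ((1 + ‖p‖) ^ (3 / 2 : ℝ) * G ^ (3 / 2 : ℝ)) := by
    rw [mul_one]; exact mul_le_mul_of_nonneg_left h3 hK.le
  have h8 : |w 0 0| ≤ |w 0 0| * G ^ (3 / 2 : ℝ) := by
    nlinarith [abs_nonneg (w 0 0)]
  have h9 : (‖p‖ + ‖p‖ ^ 2) * G ≤ (‖p‖ + ‖p‖ ^ 2) * G ^ (3 / 2 : ℝ) :=
    mul_le_mul_of_nonneg_left hGG (by positivity)
  have h10 : |b| * G ≤ |b| * G ^ (3 / 2 : ℝ) := mul_le_mul_of_nonneg_left hGG (abs_nonneg b)
  have h11 : |w x t| ≤ K * ((1 + ‖p‖) ^ (3 / 2 : ℝ) * G ^ (3 / 2 : ℝ)) +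
      |w 0 0| * G ^ (3 / 2 : ℝ) + (‖p‖ + ‖p‖ ^ 2) * G ^ (3 / 2 : ℝ) + |b| * G ^ (3 / 2 : ℝ) := by
    linarith
  refine h11.trans (le_of_eq ?_)
  ring

/-- pointwise form of (Sub) -/
theorem sub_pointwise {w : V → ℝ → ℝ} (h : IsSol w) (x : V) (t s s' : ℝ) (hs : 0 < s) (hss : s < s')
    (A : ℝ) (hA : ∀ y, w y (t + s') - ‖x - y‖ ^ 2 / (2 * s') ≤ A) (y : V) :
    w y (t + s) - ‖x - y‖ ^ 2 / (2 * s) ≤ (1 - s / s') * w x t + s / s' * A := by
  have h1 := le_T h.grow hs x y t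
  have h2 := h.sub x t s s' hs hss.le
  have h3 : T s' w x t ≤ A := T_le hA
  have h4 : 0 ≤ s / s' := div_nonneg hs.le (hs.trans hss).le
  have h5 := mul_le_mul_of_nonneg_left h3 h4
  linarith

/-- pointwise form of (Sup) -/
theorem sup_pointwise {w : V → ℝ → ℝ} (h : IsSol w) (x : V) (t s s' : ℝ) (hs : 0 < s) (hss : s < s')
    (A : ℝ) (hA : ∀ y, A ≤ w y (t - s') + ‖x - y‖ ^ 2 / (2 * s')) (y : V) :
    (1 - s / s') * w x t + s / s' * A ≤ w y (t - s) + ‖x - y‖ ^ 2 / (2 * s) := by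
  have h1 := B_le h.grow hs x y t
  have h2 := h.sup x t s s' hs hss.le
  have h3 : A ≤ B s' w x t := le_B hA
  have h4 : 0 ≤ s / s' := div_nonneg hs.le (hs.trans hss).le
  have h5 := mul_le_mul_of_nonneg_left h3 h4
  linarith

/-- (404, a3) -/
theorem affineOfNoDefect [FiniteDimensional ℝ V] (hRev : ClsRev_stmt V) :
    AffineOfNoDefect_stmt V := by
  intro K hno w hw
  have hconc : ∀ w : V → ℝ → ℝ, Cls K w → ∀ t, ConcaveOn ℝ univ fun x => w x t := by
    intro w hw t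
    apply concave_of_semi
    intro σ hσ
    refine (env_concave hw.sol t hσ).congr fun x _ => ?_
    simp only
    rw [hno w hw x t σ hσ]
  refine Rigid2.affine_of_slices w ?_ (hconc w hw) (flat_growth hw.pos hw.flat)
    (fun x t s s' hs hss A hA y => sub_pointwise hw.sol x t s s' hs hss A hA y)
    (fun x t s s' hs hss A hA y => sup_pointwise hw.sol x t s s' hs hss A hA y)
  intro t
  have h1 := hconc (rev w) (hRev K w hw) (-t)
  have h2 := h1.neg
  refine h2.congr fun x _ => ?_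
  simp [rev]

end Crest.Agent.R094.GKE

namespace Crest.Agent.R094.GK

variable {V : Type*} [NormedAddCommGroup V] [InnerProductSpace ℝ V] [FiniteDimensional ℝ V]

/-- (404, StageE) -/
theorem stageE_iface (hPC : PropC_stmt V) (hVA : VfAttained_stmt V) (hEnv : EnvSub_stmt V) :
    StageE_stmt V := GKE.stageE hPC hVA hEnv

/-- (404, a3) -/
theorem affineOfNoDefect (hRev : ClsRev_stmt V) : AffineOfNoDefect_stmt V :=
  GKE.affineOfNoDefect hRev

end Crest.Agent.R094.GK
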