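import Crest.Agent.R094.Iface
import Crest.Agent.R094.EnvK
import Crest.Agent.R094.ClsInv
import Crest.Agent.R094.SolSlope
import Crest.Agent.R094.Rigid

/-!
# Row 94: blow-ups at points with finite `h` are affine (BU), and step (f) of note 7921
-/

set_option autoImplicit false

noncomputable section

open Filter Topology Set
open scoped RealInnerProductSpace

namespace Crest.Agent.R094.StageF

open Crest.Agent.R094.Sol

set_option linter.unusedSectionVars false
set_option linter.style.longLine false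

variable {V : Type*} [NormedAddCommGroup V] [InnerProductSpace ℝ V]

/-- rescaled function around `(Y,0)` with scale `l` and flat slopes `p, b` -/
def Nr (W : V → ℝ → ℝ) (Y : V) (l : ℝ) (p : V) (b : ℝ) (x : V) (t : ℝ) : ℝ :=
  (W (Y + l • (x + t • p)) (l * t) - W Y 0 - l * ⟪p, x⟫ - l * b * t) / l

lemma Nr_zero (W : V → ℝ → ℝ) (Y : V) (l : ℝ) (p : V) (b : ℝ) :
    Nr W Y l p b 0 0 = 0 := by
  simp [Nr]

/-- exact transformation of the one-step functional -/
lemma Nr_step (W : V → ℝ → ℝ) (Y : V) (l : ℝ) (hl : 0 < l) (p : V) (b : ℝ)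
    (x y : V) (t s : ℝ) (hs : 0 < s) :
    Nr W Y l p b y (t + s) - ‖x - y‖ ^ 2 / (2 * s) - Nr W Y l p b x t
      = (W (Y + l • (y + (t + s) • p)) (l * t + l * s)
          - ‖(Y + l • (x + t • p)) - (Y + l • (y + (t + s) • p))‖ ^ 2 / (2 * (l * s))
          - W (Y + l • (x + t • p)) (l * t)) / l - s * (b - ‖p‖ ^ 2 / 2) := by
  have e1 : (Y + l • (x + t • p)) - (Y + l • (y + (t + s) • p)) = l • ((x - y) - s • p) := by
    simp only [smul_add, smul_sub, add_smul, smul_smul, mul_comm l]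
    abel
  have e2 : l * (t + s) = l * t + l * s := by ring
  have e3 : ‖l • (x - y - s • p)‖ ^ 2
      = l ^ 2 * (‖x - y‖ ^ 2 - 2 * s * (⟪p, x⟫ - ⟪p, y⟫) + s ^ 2 * ‖p‖ ^ 2) := by
    rw [norm_smul, mul_pow, Real.norm_eq_abs, sq_abs, norm_sub_sq_real (x - y) (s • p),
      norm_smul, mul_pow, Real.norm_eq_abs, sq_abs, real_inner_smul_right, inner_sub_left,
      real_inner_comm p x, real_inner_comm p y]
    ring
  rw [Nr, Nr, e1, e2, e3]
  field_simp
  ring

/-- bounded sequences converge along ultrafilters (finite dimension) -/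
lemma exists_ulim [FiniteDimensional ℝ V] {ι : Type*} (𝓤 : Ultrafilter ι) (y : ι → V) (C : ℝ)
    (h : ∀ᶠ i in (𝓤 : Filter ι), ‖y i‖ ≤ C) : ∃ y0 : V, Tendsto y 𝓤 (𝓝 y0) := by
  have : IsCompact (Metric.closedBall (0 : V) C) := isCompact_closedBall _ _
  obtain ⟨y0, -, hy0⟩ := this.ultrafilter_le_nhds' (𝓤.map y) (by
    change ∀ᶠ i in (𝓤 : Filter ι), y i ∈ Metric.closedBall (0 : V) C
    filter_upwards [h] with i hi
    simpa using hi)
  exact ⟨y0, hy0⟩

lemma exists_ulim_real {ι : Type*} (𝓤 : Ultrafilter ι) (y : ι → ℝ) (C : ℝ)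
    (h : ∀ᶠ i in (𝓤 : Filter ι), |y i| ≤ C) : ∃ y0 : ℝ, Tendsto y 𝓤 (𝓝 y0) := by
  have : IsCompact (Metric.closedBall (0 : ℝ) C) := isCompact_closedBall _ _
  obtain ⟨y0, -, hy0⟩ := this.ultrafilter_le_nhds' (𝓤.map y) (by
    change ∀ᶠ i in (𝓤 : Filter ι), y i ∈ Metric.closedBall (0 : ℝ) C
    filter_upwards [h] with i hi
    simpa using hi)
  exact ⟨y0, hy0⟩

section BU

variable [FiniteDimensional ℝ V]

/-- the common limit value of the slopes -/
lemma exists_H (W : V → ℝ → ℝ) (hW : IsSol W) (Y : V) (t c : ℝ)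
    (hc : ∀ s : ℝ, 0 < s → c ≤ hm s W Y t) :
    ∃ H : ℝ, (∀ s : ℝ, 0 < s → H ≤ hp s W Y t) ∧ (∀ s : ℝ, 0 < s → H ≤ hm s W Y t) ∧
      (∀ ε : ℝ, 0 < ε → ∃ s0 : ℝ, 0 < s0 ∧ hp s0 W Y t < H + ε) ∧
      (∀ ε : ℝ, 0 < ε → ∃ s0 : ℝ, 0 < s0 ∧ hm s0 W Y t < H + ε) := by
  set S : Set ℝ := (fun s => hp s W Y t) '' Ioi 0 with hS
  have hcp : ∀ s : ℝ, 0 < s → c ≤ hp s W Y t := ((Sol.le_hp_iff_le_hm hW (x := Y) (t := t) (c := c))).2 hc
  have hbdd : BddBelow S := ⟨c, by rintro _ ⟨s, hs, rfl⟩; exact hcp s hs⟩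
  have hne : S.Nonempty := ⟨_, 1, by simp, rfl⟩
  have h1 : ∀ s : ℝ, 0 < s → sInf S ≤ hp s W Y t := fun s hs => csInf_le hbdd ⟨s, hs, rfl⟩
  have h3 : ∀ ε : ℝ, 0 < ε → ∃ s0 : ℝ, 0 < s0 ∧ hp s0 W Y t < sInf S + ε := by
    intro ε hε
    obtain ⟨_, ⟨s0, hs0, rfl⟩, h⟩ := exists_lt_of_csInf_lt hne (show sInf S < sInf S + ε by linarith)
    exact ⟨s0, hs0, h⟩
  refine ⟨sInf S, h1, ((Sol.le_hp_iff_le_hm hW (x := Y) (t := t))).1 h1, h3, ?_⟩
  intro ε hε
  by_contra hcon
  push Not at hcon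
  have := ((Sol.le_hp_iff_le_hm hW (x := Y) (t := t) (c := sInf S + ε))).2 hcon
  obtain ⟨s0, hs0, h⟩ := h3 ε hε
  linarith [this s0 hs0]

theorem bu_affine {ι : Type*} (𝓤 : Ultrafilter ι) (W : V → ℝ → ℝ) (hW : IsSol W) (Y : V) (c : ℝ)
    (hc : ∀ s : ℝ, 0 < s → c ≤ hm s W Y 0)
    (l : ι → ℝ) (hl : ∀ i, 0 < l i) (hl0 : Tendsto l 𝓤 (𝓝 0)) (p : ι → V) (b : ι → ℝ)
    (grow : ∀ R ε : ℝ, 0 < ε → ∃ C : ℝ, ∀ i (x : V) (t : ℝ), |t| ≤ R →
      |Nr W Y (l i) (p i) (b i) x t| ≤ ε * ‖x‖ ^ 2 + C)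
    (Wt : V → ℝ → ℝ)
    (hcc : ∀ (X : ι → V) (x : V) (t : ℝ), Tendsto X 𝓤 (𝓝 x) →
      Tendsto (fun i => Nr W Y (l i) (p i) (b i) (X i) t) 𝓤 (𝓝 (Wt x t))) :
    ∃ (v : V) (β : ℝ), ∀ x t, Wt x t = ⟪v, x⟫ + β * t := by
  obtain ⟨H, hHp, hHm, hHp', hHm'⟩ := exists_H W hW Y 0 c hc
  have hW0 : Wt 0 0 = 0 := by
    have h1 := hcc (fun _ => 0) 0 0 tendsto_const_nhds
    simp only [Nr_zero] at h1
    exact tendsto_nhds_unique h1 tendsto_const_nhds |>.symm ▸ rfl
  -- `l • p → 0`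
  obtain ⟨C1, hC1⟩ := grow 0 1 one_pos
  have hlp : Tendsto (fun i => l i • p i) 𝓤 (𝓝 0) := by
    rw [Metric.tendsto_nhds]
    intro ε hε
    have hc0 : ContinuousAt (fun x : V => W x 0) Y :=
      (hW.cont.comp (continuous_id.prodMk continuous_const)).continuousAt
    rw [Metric.continuousAt_iff] at hc0
    obtain ⟨δ, hδ, hδ'⟩ := hc0 (ε / 3) (by positivity)
    have e1 : ∀ᶠ i in (𝓤 : Filter ι), l i < δ := hl0.eventually (gt_mem_nhds hδ)
    have e2 : ∀ᶠ i in (𝓤 : Filter ι), l i * (1 + C1) < ε / 3 := by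
      have : Tendsto (fun i => l i * (1 + C1)) 𝓤 (𝓝 (0 * (1 + C1))) := hl0.mul_const _
      rw [zero_mul] at this
      exact this.eventually (gt_mem_nhds (by positivity))
    filter_upwards [e1, e2] with i h1 h2
    rw [dist_zero_right, norm_smul, Real.norm_eq_abs, abs_of_pos (hl i)]
    by_cases hp : p i = 0
    · rw [hp]; simpa using hε
    have hpn : 0 < ‖p i‖ := norm_pos_iff.2 hp
    set u : V := (‖p i‖)⁻¹ • p i with hu
    have hun : ‖u‖ = 1 := by
      rw [hu, norm_smul, norm_inv, norm_norm]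
      field_simp
    have hui : ⟪p i, u⟫ = ‖p i‖ := by
      rw [hu, real_inner_smul_right, real_inner_self_eq_norm_sq]
      field_simp
    have h3 := hC1 i u 0 (by simp)
    rw [Nr, zero_smul, add_zero, mul_zero, mul_zero, sub_zero, hui, hun,
      abs_div, abs_of_pos (hl i), div_le_iff₀ (hl i)] at h3
    have h4 := hδ' (x := Y + l i • u) (by
      rw [dist_eq_norm, add_sub_cancel_left, norm_smul, hun, Real.norm_eq_abs, abs_of_pos (hl i)]
      simpa using h1)
    rw [Real.dist_eq] at h4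
    have h5 := abs_le.1 h3
    have h6 := abs_lt.1 h4
    nlinarith [h5.1, h5.2, h6.1, h6.2]
  -- the points converge to `(Y, 0)`
  have hpt : ∀ (x : V) (t : ℝ),
      Tendsto (fun i => ((Y + l i • (x + t • p i), l i * t) : V × ℝ)) 𝓤 (𝓝 (Y, 0)) := by
    intro x t
    have a1 : Tendsto (fun i => Y + (l i • x + t • (l i • p i))) 𝓤 (𝓝 (Y + ((0:ℝ) • x + t • (0 : V)))) :=
      tendsto_const_nhds.add ((hl0.smul_const x).add (hlp.const_smul t))
    have a2 : Tendsto (fun i => l i * t) 𝓤 (𝓝 (0 * t)) := hl0.mul_const t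
    simp only [zero_smul, smul_zero, add_zero, zero_mul] at a1 a2
    refine (a1.congr fun i => ?_).prodMk_nhds a2
    rw [smul_add, smul_comm (l i) t]
  have hupper : ∀ (x : V) (t s ε : ℝ), 0 < s → 0 < ε →
      ∀ᶠ i in (𝓤 : Filter ι), hp (l i * s) W (Y + l i • (x + t • p i)) (l i * t) ≤ H + ε := by
    intro x t s ε hs hε
    obtain ⟨s0, hs0, hs0'⟩ := hHp' ε hε
    have hct : Continuous (fun q : V × ℝ => hp s0 W q.1 q.2) := by
      exact Sol.continuous_hp hW.cont hW.grow hs0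
    have b1 := (hct.tendsto (Y, 0)).comp (hpt x t)
    have b2 := b1.eventually (gt_mem_nhds hs0')
    have b3 : ∀ᶠ i in (𝓤 : Filter ι), l i * s < s0 := by
      have : Tendsto (fun i => l i * s) 𝓤 (𝓝 (0 * s)) := hl0.mul_const s
      rw [zero_mul] at this
      exact this.eventually (gt_mem_nhds hs0)
    filter_upwards [b2, b3] with i h1 h2
    have := hW.sub.hp_mono (mul_pos (hl i) hs) h2.le (Y + l i • (x + t • p i)) (l i * t)
    simp only [Function.comp] at h1
    linarith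
  -- the slopes at the base point
  obtain ⟨h, hhi⟩ : ∃ h : ι → ℝ, ∀ i, h i = b i - ‖p i‖ ^ 2 / 2 :=
    ⟨fun i => b i - ‖p i‖ ^ 2 / 2, fun i => rfl⟩
  have step : ∀ i (x y : V) (t s : ℝ), 0 < s →
      Nr W Y (l i) (p i) (b i) y (t + s) - ‖x - y‖ ^ 2 / (2 * s) - Nr W Y (l i) (p i) (b i) x t
        ≤ s * hp (l i * s) W (Y + l i • (x + t • p i)) (l i * t) - s * h i := by
    intro i x y t s hs
    rw [Nr_step W Y (l i) (hl i) (p i) (b i) x y t s hs, ← hhi]
    have := Sol.le_T hW.grow (mul_pos (hl i) hs) (Y + l i • (x + t • p i))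
      (Y + l i • (y + (t + s) • p i)) (l i * t)
    have e : s * hp (l i * s) W (Y + l i • (x + t • p i)) (l i * t)
        = (T (l i * s) W (Y + l i • (x + t • p i)) (l i * t) - W (Y + l i • (x + t • p i)) (l i * t))
          / l i := by
      unfold hp
      have := (hl i).ne'
      field_simp
    rw [e]
    have := div_le_div_of_nonneg_right (sub_le_sub_right this (W (Y + l i • (x + t • p i)) (l i * t)))
      (hl i).le
    linarith
  -- attained forward at the origin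
  have fwd : ∀ i (s : ℝ), 0 < s → ∃ y : V,
      Nr W Y (l i) (p i) (b i) y s - ‖y‖ ^ 2 / (2 * s) = s * hp (l i * s) W Y 0 - s * h i := by
    intro i s hs
    obtain ⟨y', hy'⟩ := Sol.exists_T hW.cont hW.grow (mul_pos (hl i) hs) Y 0
    set y : V := (l i)⁻¹ • (y' - Y) - s • p i with hy
    have hyy : Y + l i • (y + s • p i) = y' := by
      rw [hy, sub_add_cancel, smul_smul, mul_inv_cancel₀ (hl i).ne', one_smul]; abel
    refine ⟨y, ?_⟩
    have := Nr_step W Y (l i) (hl i) (p i) (b i) 0 y 0 s hs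
    rw [← hhi, Nr_zero, zero_add, zero_sub, norm_neg, sub_zero] at this
    rw [this]
    simp only [zero_smul, add_zero, smul_zero, mul_zero, zero_add]
    rw [hyy]
    rw [zero_add] at hy'
    rw [← hy']
    unfold hp
    have := (hl i).ne'
    field_simp
  have bwd : ∀ i (s : ℝ), 0 < s → ∃ z : V,
      Nr W Y (l i) (p i) (b i) z (-s) + ‖z‖ ^ 2 / (2 * s) = -(s * hm (l i * s) W Y 0 - s * h i) := by
    intro i s hs
    obtain ⟨z', hz'⟩ := Sol.exists_B hW.cont hW.grow (mul_pos (hl i) hs) Y 0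
    set z : V := (l i)⁻¹ • (z' - Y) + s • p i with hz
    have hzz : Y + l i • (z + (-s) • p i) = z' := by
      rw [hz, neg_smul, add_neg_cancel_right, smul_smul, mul_inv_cancel₀ (hl i).ne', one_smul]; abel
    refine ⟨z, ?_⟩
    have := Nr_step W Y (l i) (hl i) (p i) (b i) z 0 (-s) s hs
    rw [← hhi, neg_add_cancel, Nr_zero, sub_zero] at this
    have e0 : l i * -s + l i * s = 0 := by ring
    rw [e0, hzz] at this
    simp only [zero_smul, add_zero, smul_zero] at this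
    have e1 : l i * -s = 0 - l i * s := by ring
    rw [e1] at this
    rw [norm_sub_rev z' Y] at this
    have e2 : Nr W Y (l i) (p i) (b i) z (-s) + ‖z‖ ^ 2 / (2 * s)
        = -((W Y 0 - ‖Y - z'‖ ^ 2 / (2 * (l i * s)) - W z' (0 - l i * s)) / l i
            - s * h i) := by
      linarith
    rw [e2]
    have e3 : W Y 0 - ‖Y - z'‖ ^ 2 / (2 * (l i * s)) - W z' (0 - l i * s)
        = W Y 0 - B (l i * s) W Y 0 := by linarith
    rw [e3]
    unfold hm
    have := (hl i).ne'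
    field_simp
  -- limits of slopes at the base point
  have hplim : ∀ s : ℝ, 0 < s → Tendsto (fun i => hp (l i * s) W Y 0) 𝓤 (𝓝 H) := by
    intro s hs
    rw [Metric.tendsto_nhds]
    intro ε hε
    have := hupper 0 0 s (ε / 2) hs (by positivity)
    filter_upwards [this] with i hi
    simp only [zero_smul, add_zero, smul_zero, mul_zero] at hi
    rw [Real.dist_eq, abs_lt]
    constructor
    · linarith [hHp (l i * s) (mul_pos (hl i) hs)]
    · linarith
  have hmlim : ∀ s : ℝ, 0 < s → Tendsto (fun i => hm (l i * s) W Y 0) 𝓤 (𝓝 H) := by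
    intro s hs
    rw [Metric.tendsto_nhds]
    intro ε hε
    obtain ⟨s0, hs0, hs0'⟩ := hHm' ε hε
    have b3 : ∀ᶠ i in (𝓤 : Filter ι), l i * s < s0 := by
      have : Tendsto (fun i => l i * s) 𝓤 (𝓝 (0 * s)) := hl0.mul_const s
      rw [zero_mul] at this
      exact this.eventually (gt_mem_nhds hs0)
    filter_upwards [b3] with i hi
    have := hW.sup.hm_mono (mul_pos (hl i) hs) hi.le Y 0
    rw [Real.dist_eq, abs_lt]
    constructor
    · linarith [hHm (l i * s) (mul_pos (hl i) hs)]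
    · linarith
  -- `h` converges
  obtain ⟨h0, hh0⟩ : ∃ h0 : ℝ, Tendsto h 𝓤 (𝓝 h0) := by
    obtain ⟨C, hC⟩ := grow 1 (1 / 2) (by norm_num)
    apply exists_ulim_real 𝓤 h (|H| + 1 + |C|)
    have := (hplim 1 one_pos).eventually (Metric.ball_mem_nhds H one_pos)
    filter_upwards [this] with i hi
    rw [Real.dist_eq] at hi
    obtain ⟨y, hy⟩ := fwd i 1 one_pos
    have h1 := step i 0 0 0 1 one_pos
    simp only [zero_add, sub_self, norm_zero, zero_smul, smul_zero, add_zero, mul_zero,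
      Nr_zero, one_mul, mul_one] at h1 hy
    have h2 := abs_le.1 (hC i y 1 (by norm_num))
    have h3 := abs_le.1 (hC i 0 1 (by norm_num))
    simp only [norm_zero] at h3
    have h4 := abs_lt.1 hi
    have h5 := le_abs_self H
    have h6 := neg_abs_le H
    have h7 := le_abs_self C
    simp only [mul_one] at h4
    rw [abs_le]
    constructor
    · nlinarith [h2.1, h2.2]
    · nlinarith [h3.1, h3.2]
  -- now apply the rigidity lemma
  suffices hmain : ∃ v : V, ∀ (x : V) (t : ℝ),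
      Wt x t = Wt 0 0 + ⟪v, x⟫ + (H - h0 - ‖v‖ ^ 2 / 2) * t by
    obtain ⟨v, hv⟩ := hmain
    exact ⟨v, _, fun x t => by rw [hv x t, hW0, zero_add]⟩
  refine Rigid.affine_of_rigid Wt (H - h0) ?_ ?_ ?_
  · intro x y t s hs
    have key : ∀ ε : ℝ, 0 < ε → Wt y (t + s) - ‖x - y‖ ^ 2 / (2 * s) - Wt x t
        ≤ s * (H + ε) - s * h0 := by
      intro ε hε
      have l1 : Tendsto (fun i => Nr W Y (l i) (p i) (b i) y (t + s) - ‖x - y‖ ^ 2 / (2 * s)
          - Nr W Y (l i) (p i) (b i) x t) 𝓤 (𝓝 (Wt y (t + s) - ‖x - y‖ ^ 2 / (2 * s) - Wt x t)) :=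
        ((hcc (fun _ => y) y (t + s) tendsto_const_nhds).sub_const _).sub
          (hcc (fun _ => x) x t tendsto_const_nhds)
      have l2 : Tendsto (fun i => s * (H + ε) - s * h i) 𝓤 (𝓝 (s * (H + ε) - s * h0)) :=
        tendsto_const_nhds.sub (hh0.const_mul s)
      refine le_of_tendsto_of_tendsto l1 l2 ?_
      filter_upwards [hupper x t s ε hs hε] with i hi
      have := step i x y t s hs
      nlinarith
    have : Wt y (t + s) - ‖x - y‖ ^ 2 / (2 * s) - Wt x t ≤ s * H - s * h0 := by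
      apply le_of_forall_pos_le_add
      intro ε hε
      have := key (ε / s) (by positivity)
      have e : s * (H + ε / s) = s * H + ε := by field_simp
      rw [e] at this
      linarith
    linarith
  · intro s hs
    choose y hy using fun i => fwd i s hs
    obtain ⟨C, hC⟩ := grow s (1 / (4 * s)) (by positivity)
    obtain ⟨y0, hy0⟩ : ∃ y0 : V, Tendsto y 𝓤 (𝓝 y0) := by
      apply exists_ulim 𝓤 y (4 * s * (2 * |C|) + 1)
      refine Eventually.of_forall fun i => ?_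
      have h1 := step i 0 0 0 s hs
      simp only [zero_add, sub_self, norm_zero, zero_smul, smul_zero, add_zero, mul_zero,
        Nr_zero, sub_zero] at h1
      have h2 := abs_le.1 (hC i (y i) s (by rw [abs_of_pos hs]))
      have h3 := abs_le.1 (hC i 0 s (by rw [abs_of_pos hs]))
      have h4 := hy i
      have z1 : (0:ℝ) ^ 2 / (2 * s) = 0 := by simp
      have z2 : 1 / (4 * s) * (0:ℝ) ^ 2 = 0 := by simp
      simp only [norm_zero] at h3
      rw [z1] at h1
      rw [z2] at h3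
      have h5 : ‖y i‖ ^ 2 / (2 * s) - 1 / (4 * s) * ‖y i‖ ^ 2 ≤ 2 * C := by
        nlinarith [h1, h2.2, h3.1, h4]
      have h6 : ‖y i‖ ^ 2 / (2 * s) - 1 / (4 * s) * ‖y i‖ ^ 2 = ‖y i‖ ^ 2 / (4 * s) := by
        field_simp; ring
      rw [h6, div_le_iff₀ (by positivity)] at h5
      have h7 : ‖y i‖ ^ 2 ≤ 4 * s * (2 * |C|) := by
        have := le_abs_self C
        nlinarith
      nlinarith [norm_nonneg (y i), sq_nonneg (‖y i‖ - 1)]
    refine ⟨y0, ?_⟩
    have l1 := (hcc y y0 s hy0).sub ((hy0.norm.pow 2).div_const (2 * s))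
    have l2 : Tendsto (fun i => s * hp (l i * s) W Y 0 - s * h i) 𝓤 (𝓝 (s * H - s * h0)) :=
      ((hplim s hs).const_mul s).sub (hh0.const_mul s)
    have := tendsto_nhds_unique (l1.congr hy) l2
    rw [hW0]
    linarith
  · intro s hs
    choose z hz using fun i => bwd i s hs
    obtain ⟨C, hC⟩ := grow s (1 / (4 * s)) (by positivity)
    obtain ⟨z0, hz0⟩ : ∃ z0 : V, Tendsto z 𝓤 (𝓝 z0) := by
      apply exists_ulim 𝓤 z (4 * s * (2 * |C|) + 1)
      refine Eventually.of_forall fun i => ?_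
      have h1 := step i 0 0 (-s) s hs
      rw [neg_add_cancel, Nr_zero, sub_self, norm_zero] at h1
      have h4 := hz i
      have h2 := abs_le.1 (hC i (z i) (-s) (by rw [abs_neg, abs_of_pos hs]))
      have h3 := abs_le.1 (hC i 0 (-s) (by rw [abs_neg, abs_of_pos hs]))
      simp only [norm_zero] at h3
      have z1 : (0:ℝ) ^ 2 / (2 * s) = 0 := by simp
      have z2 : 1 / (4 * s) * (0:ℝ) ^ 2 = 0 := by simp
      rw [z1] at h1
      rw [z2] at h3
      -- compare with the point 0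
      have hB : B (l i * s) W Y 0 ≤ W (Y + l i • ((0 : V) + (-s) • p i)) (0 - l i * s)
          + ‖Y - (Y + l i • ((0 : V) + (-s) • p i))‖ ^ 2 / (2 * (l i * s)) :=
        Sol.B_le hW.grow (mul_pos (hl i) hs) Y _ 0
      have h8 := Nr_step W Y (l i) (hl i) (p i) (b i) 0 0 (-s) s hs
      rw [← hhi, neg_add_cancel, Nr_zero, sub_self, norm_zero, z1] at h8
      have e0 : l i * -s + l i * s = 0 := by ring
      have e1 : l i * -s = 0 - l i * s := by ring
      rw [e0, e1] at h8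
      simp only [zero_smul, add_zero, smul_zero] at h8
      rw [norm_sub_rev] at h8
      have h9 : -(Nr W Y (l i) (p i) (b i) 0 (-s)) ≤ s * hm (l i * s) W Y 0 - s * h i := by
        have e5 : s * hm (l i * s) W Y 0 = (W Y 0 - B (l i * s) W Y 0) / l i := by
          unfold hm
          have := (hl i).ne'
          field_simp
        rw [e5]
        have e6 := div_le_div_of_nonneg_right (sub_le_sub_left hB (W Y 0)) (hl i).le
        have e7 : (W Y 0 - (W (Y + l i • ((0 : V) + (-s) • p i)) (0 - l i * s)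
          + ‖Y - (Y + l i • ((0 : V) + (-s) • p i))‖ ^ 2 / (2 * (l i * s)))) / l i
          = (W Y 0 - ‖Y - (Y + l i • ((0 : V) + (-s) • p i))‖ ^ 2 / (2 * (l i * s))
          - W (Y + l i • ((0 : V) + (-s) • p i)) (0 - l i * s)) / l i := by
          congr 1; ring
        rw [e7] at e6
        have : -(Nr W Y (l i) (p i) (b i) 0 (-s)) =
          (W Y 0 - ‖Y - (Y + l i • ((0 : V) + (-s) • p i))‖ ^ 2 / (2 * (l i * s))
          - W (Y + l i • ((0 : V) + (-s) • p i)) (0 - l i * s)) / l i - s * h i := by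
          linarith
        rw [this]
        linarith
      have h5 : ‖z i‖ ^ 2 / (2 * s) - 1 / (4 * s) * ‖z i‖ ^ 2 ≤ 2 * C := by
        nlinarith [h9, h2.1, h3.2, h4]
      have h6 : ‖z i‖ ^ 2 / (2 * s) - 1 / (4 * s) * ‖z i‖ ^ 2 = ‖z i‖ ^ 2 / (4 * s) := by
        field_simp; ring
      rw [h6, div_le_iff₀ (by positivity)] at h5
      have h7 : ‖z i‖ ^ 2 ≤ 4 * s * (2 * |C|) := by
        have := le_abs_self C
        nlinarith
      nlinarith [norm_nonneg (z i), sq_nonneg (‖z i‖ - 1)]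
    refine ⟨z0, ?_⟩
    have l1 := (hcc z z0 (-s) hz0).add ((hz0.norm.pow 2).div_const (2 * s))
    have l2 : Tendsto (fun i => -(s * hm (l i * s) W Y 0 - s * h i)) 𝓤 (𝓝 (-(s * H - s * h0))) :=
      (((hmlim s hs).const_mul s).sub (hh0.const_mul s)).neg
    have := tendsto_nhds_unique (l1.congr hz) l2
    rw [hW0]
    linarith


/-! ### step (f) -/

open GK in
lemma nrmz_eq_Nr (w : V → ℝ → ℝ) (Y : V) (l : ℝ) (p : V) (b : ℝ) :
    nrmz w Y 0 l p b = Nr w Y l p b := by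
  funext x t
  simp only [nrmz, Nr, zero_add]

open GK in
lemma Uf_le_of [FiniteDimensional ℝ V] {w : V → ℝ → ℝ} (hw : IsSol w) {x q : V} {t a : ℝ}
    (ht : 0 < t) (h : ∀ y, w y t ≤ a + ⟪q, y - x⟫ + ‖y - x‖ ^ 2 / (2 * t)) : GK.Uf w x t ≤ a := by
  rw [Uf_eq, ← envU_eq_env (slice_cont hw.cont t) (slice_subQ hw.grow t) ht]
  apply EnvU.Uf_le_of_majorant (q := q)
  intro y
  linarith [h y]

end BU

open GK in
set_option maxHeartbeats 2000000 in
theorem stageF [FiniteDimensional ℝ V] (hCpt : Compact_stmt V) : StageF_stmt V := by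
  rintro K κ hκ - W hW ⟨Y, hν⟩
  have hS := hW.sol
  set l : ℕ → ℝ := fun k => 1 / ((k : ℝ) + 2) with hldef
  have hl : ∀ k, 0 < l k := fun k => by simp only [hldef]; positivity
  have hl1 : ∀ k, l k < 1 := fun k => by
    simp only [hldef]
    rw [div_lt_one (by positivity)]
    have : (0:ℝ) ≤ k := by positivity
    linarith
  have hl0' : Tendsto l atTop (𝓝 0) := by
    have : Tendsto (fun k : ℕ => (k : ℝ) + 2) atTop atTop :=
      tendsto_atTop_add_const_right _ _ tendsto_natCast_atTop_atTop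
    exact tendsto_const_nhds.div_atTop this
  have hl0 : Tendsto l (hyperfilter ℕ) (𝓝 0) := hl0'.mono_left (by
    rw [← Nat.cofinite_eq_atTop]; exact hyperfilter_le_cofinite)
  choose ν hν1 hν2 hν3 using fun k => hν (l k) (hl k) (hl1 k)
  choose p b hfd using fun k => hW.flat Y 0 (l k) (hl k)
  obtain ⟨Wt, hWt, -, hJC⟩ := hCpt (hyperfilter ℕ) K K (fun k => nrmz W Y 0 (l k) (p k) (b k))
    (Eventually.of_forall fun k => ClsNrmz K W hW Y 0 (l k) (p k) (b k) (hl k))
    (Eventually.of_forall fun k => nrm_nrmz (hl k) (hfd k))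
  have hg : ∀ R ε : ℝ, 0 < ε → ∃ C : ℝ, ∀ k (x : V) (t : ℝ), |t| ≤ R →
      |Nr W Y (l k) (p k) (b k) x t| ≤ ε * ‖x‖ ^ 2 + C := by
    intro R ε hε
    obtain ⟨C, -, hC⟩ := nrm_growth (V := V) K R ε hε
    refine ⟨C, fun k x t ht => ?_⟩
    rw [← nrmz_eq_Nr]
    exact hC _ (nrm_nrmz (hl k) (hfd k)) x t ht
  have hcc : ∀ (X : ℕ → V) (x : V) (t : ℝ), Tendsto X (hyperfilter ℕ) (𝓝 x) →
      Tendsto (fun k => Nr W Y (l k) (p k) (b k) (X k) t) (hyperfilter ℕ) (𝓝 (Wt x t)) := by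
    intro X x t hX
    have := hJC X (fun _ => t) x t hX tendsto_const_nhds
    simpa only [nrmz_eq_Nr] using this
  -- the global one-sided bound
  have hsup : ∀ k y, W y (l k) ≤ W (Y + l k • ν k) (l k) + κ * l k + ⟪ν k, y - (Y + l k • ν k)⟫
        + ‖y - (Y + l k • ν k)‖ ^ 2 / (2 * l k) := by
    intro k y
    have h1 := hν2 k (y - (Y + l k • ν k))
    simp only [add_sub_cancel] at h1
    rw [hν1 k] at h1
    exact (le_Uf hS.grow (hl k) y).trans h1
  -- the touching points converge to `Y`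
  have hxY : Tendsto (fun k => Y + l k • ν k) (hyperfilter ℕ) (𝓝 Y) := by
    obtain ⟨C, hCC⟩ := hS.grow 1 (1 / 8) (by norm_num)
    have hb : ∀ k, ‖l k • ν k‖ ^ 2 ≤ l k * (4 * (‖Y‖ ^ 2 + 2 * C + κ)) := by
      intro k
      have h1 := hsup k Y
      have e1 : Y - (Y + l k • ν k) = -(l k • ν k) := by abel
      have e2 : ⟪ν k, -(l k • ν k)⟫ = -(‖l k • ν k‖ ^ 2 / l k) := by
        rw [inner_neg_right, real_inner_smul_right, real_inner_self_eq_norm_sq, norm_smul, mul_pow,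
          Real.norm_eq_abs, sq_abs]
        have := (hl k).ne'
        field_simp
      rw [e1, e2, norm_neg] at h1
      have h2 := abs_le.1 (hCC (Y + l k • ν k) (l k) (by rw [abs_of_pos (hl k)]; exact (hl1 k).le))
      have h3 := abs_le.1 (hCC Y (l k) (by rw [abs_of_pos (hl k)]; exact (hl1 k).le))
      have h4 : ‖Y + l k • ν k‖ ^ 2 ≤ 2 * ‖Y‖ ^ 2 + 2 * ‖l k • ν k‖ ^ 2 := by
        have h5 := norm_add_le Y (l k • ν k)
        have h6 : ‖Y + l k • ν k‖ ^ 2 ≤ (‖Y‖ + ‖l k • ν k‖) ^ 2 := by gcongr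
        nlinarith [sq_nonneg (‖Y‖ - ‖l k • ν k‖)]
      set r := ‖l k • ν k‖ ^ 2 with hr
      have hr0 : 0 ≤ r := by positivity
      have e3 : r / (2 * l k) = r / l k / 2 := by field_simp
      rw [e3] at h1
      have h7 : κ * l k ≤ κ := by nlinarith [hl1 k]
      have h8 : r / l k / 2 ≤ r / 4 + (3 / 8 * ‖Y‖ ^ 2 + 2 * C + κ) := by
        nlinarith [h2.2, h3.1]
      have h9 : r ≤ r / l k := by
        rw [le_div_iff₀ (hl k)]
        nlinarith [hl1 k]
      have h10 : r / l k ≤ 4 * (3 / 8 * ‖Y‖ ^ 2 + 2 * C + κ) := by linarith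
      rw [div_le_iff₀ (hl k)] at h10
      nlinarith [hl k, sq_nonneg ‖Y‖, mul_nonneg (hl k).le (sq_nonneg ‖Y‖)]
    have hb2 : Tendsto (fun k => ‖l k • ν k‖ ^ 2) (hyperfilter ℕ) (𝓝 0) := by
      have : Tendsto (fun k => l k * (4 * (‖Y‖ ^ 2 + 2 * C + κ))) (hyperfilter ℕ) (𝓝 0) := by
        have := hl0.mul_const (4 * (‖Y‖ ^ 2 + 2 * C + κ))
        rwa [zero_mul] at this
      exact squeeze_zero (fun k => by positivity) hb this
    have hb3 : Tendsto (fun k => ‖l k • ν k‖) (hyperfilter ℕ) (𝓝 0) := by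
      have := hb2.sqrt
      simpa using this
    have hb4 : Tendsto (fun k => l k • ν k) (hyperfilter ℕ) (𝓝 0) :=
      tendsto_zero_iff_norm_tendsto_zero.2 hb3
    simpa using hb4.const_add Y
  -- slopes at `(Y,0)` are nonnegative
  have hhm : ∀ s : ℝ, 0 < s → 0 ≤ hm s W Y 0 := by
    intro s hs
    have l1 := tendsto_B hS.cont hS.grow hs (tendsto_const_nhds (x := s)) hxY hl0
    have l2 := tendsto_w hS.cont hxY hl0
    have h1 := le_of_tendsto_of_tendsto l1 l2 (Eventually.of_forall fun k => hν3 k s hs)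
    unfold hm
    apply div_nonneg _ hs.le
    linarith
  obtain ⟨v, β, hv⟩ := bu_affine (hyperfilter ℕ) W hS Y 0 hhm l hl hl0 p b hg Wt hcc
  -- scaled touching points
  have hscale : ∀ k (y : V), Nr W Y (l k) (p k) (b k) ((l k)⁻¹ • (y - Y) - p k) 1
      = (W y (l k) - W Y 0 - ⟪p k, y - Y⟫ + l k * ‖p k‖ ^ 2 - l k * b k) / l k := by
    intro k y
    rw [Nr]
    have e1 : Y + l k • ((l k)⁻¹ • (y - Y) - p k + (1:ℝ) • p k) = y := by
      rw [one_smul, sub_add_cancel, smul_smul, mul_inv_cancel₀ (hl k).ne', one_smul]; abel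
    rw [e1, mul_one, inner_sub_right, real_inner_smul_right, real_inner_self_eq_norm_sq]
    have := (hl k).ne'
    field_simp
    ring
  obtain ⟨C, hCC⟩ := hg 1 (1 / 8) (by norm_num)
  have hgr : ∀ k (x : V), |Nr W Y (l k) (p k) (b k) x 1| ≤ 1 / 8 * ‖x‖ ^ 2 + C := fun k x =>
    hCC k x 1 (by norm_num)
  have hx' : ∀ k, (l k)⁻¹ • ((Y + l k • ν k) - Y) - p k = ν k - p k := by
    intro k
    rw [add_sub_cancel_left, smul_smul, inv_mul_cancel₀ (hl k).ne', one_smul]
  -- one-sided bound in scaled coordinates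
  have hbound : ∀ k, ‖ν k - p k‖ ^ 2 ≤ 8 * C + 8 * κ := by
    intro k
    have h1 := hsup k (Y + l k • p k)
    have h2 := hscale k (Y + l k • p k)
    have h3 := hscale k (Y + l k • ν k)
    rw [hx'] at h3
    rw [add_sub_cancel_left, smul_smul, inv_mul_cancel₀ (hl k).ne', one_smul, sub_self] at h2
    have h4 := abs_le.1 (hgr k 0)
    have h5 := abs_le.1 (hgr k (ν k - p k))
    rw [norm_zero] at h4
    have e1 : Y + l k • p k - (Y + l k • ν k) = -(l k • (ν k - p k)) := by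
      rw [smul_sub]; abel
    rw [e1, inner_neg_right, real_inner_smul_right, norm_neg, norm_smul, mul_pow,
      Real.norm_eq_abs, sq_abs] at h1
    rw [h2] at h4
    rw [h3] at h5
    rw [add_sub_cancel_left, real_inner_smul_right] at h3 h5
    rw [real_inner_smul_right, real_inner_self_eq_norm_sq] at h4
    rw [le_div_iff₀ (hl k), div_le_iff₀ (hl k)] at h4 h5
    have e2 : l k ^ 2 * ‖ν k - p k‖ ^ 2 / (2 * l k) = l k * ‖ν k - p k‖ ^ 2 / 2 := by
      have := (hl k).ne'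
      field_simp
    rw [e2] at h1
    have e3 : ⟪ν k, ν k - p k⟫ = ‖ν k - p k‖ ^ 2 + ⟪p k, ν k⟫ - ‖p k‖ ^ 2 := by
      rw [norm_sub_sq_real, inner_sub_right, real_inner_self_eq_norm_sq, real_inner_comm (p k) (ν k)]
      ring
    rw [e3] at h1
    have hC0 : 0 ≤ l k * C := by
      apply mul_nonneg (hl k).le
      have := (abs_nonneg _).trans (hgr k 0)
      simpa using this
    have hκl : 0 ≤ l k * κ := mul_nonneg (hl k).le hκ.le
    have h6 : l k * ‖ν k - p k‖ ^ 2 ≤ l k * (8 * C + 8 * κ) := by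
      nlinarith [h4.1, h5.2, h1]
    exact le_of_mul_le_mul_left h6 (hl k)
  have hbound' : ∀ k, ‖ν k - p k‖ ≤ 8 * C + 8 * κ + 1 := by
    intro k
    nlinarith [hbound k, sq_nonneg (‖ν k - p k‖ - 1), norm_nonneg (ν k - p k)]
  -- the limit is affine
  set δ : ℝ := κ / 4 with hδ
  have hδ0 : 0 < δ := by positivity
  set M : ℝ := 8 * C + 8 * κ with hM
  set R : ℝ := max (8 * C + 8 * κ + 1) (16 * (‖v‖ + 1) + 8 * (|C| + |β| + M)) with hR
  have h1 := hJC.unif hWt.sol.cont (t := fun _ => 1) tendsto_const_nhds R δ hδ0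
  simp only [nrmz_eq_Nr] at h1
  obtain ⟨k, hk, hkR, hkb⟩ : ∃ k, (∀ x, ‖x‖ ≤ R →
      |Nr W Y (l k) (p k) (b k) x 1 - Wt x 1| < δ) ∧ 1 ≤ R ∧ ‖ν k - p k‖ ≤ R := by
    obtain ⟨k, hk⟩ := h1.exists
    refine ⟨k, hk, ?_, (hbound' k).trans (le_max_left _ _)⟩
    have hC0 : 0 ≤ C := by
      have := (abs_nonneg _).trans (hgr 0 0)
      simpa using this
    have : 1 ≤ 8 * C + 8 * κ + 1 := by nlinarith
    exact this.trans (le_max_left _ _)
  -- one-sided estimate everywhere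
  have hall : ∀ η : V, Nr W Y (l k) (p k) (b k) η 1 ≤ Wt η 1 + δ + ‖η - (ν k - p k)‖ ^ 2 / 2 := by
    intro η
    by_cases hη : ‖η‖ ≤ R
    · have := (abs_lt.1 (hk η hη)).2
      have : 0 ≤ ‖η - (ν k - p k)‖ ^ 2 / 2 := by positivity
      linarith
    · push Not at hη
      have g1 := (abs_le.1 (hgr k η)).2
      have g2 := hv η 1
      have g3 : -(‖v‖ * ‖η‖) ≤ ⟪v, η⟫ := by
        have := abs_real_inner_le_norm v η
        exact (abs_le.1 this).1
      have g4 : -|β| ≤ β := neg_abs_le β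
      have g5 : ‖η‖ ^ 2 / 2 - ‖ν k - p k‖ ^ 2 ≤ ‖η - (ν k - p k)‖ ^ 2 := by
        have h5 : ‖η‖ ≤ ‖η - (ν k - p k)‖ + ‖ν k - p k‖ := by
          calc ‖η‖ = ‖(η - (ν k - p k)) + (ν k - p k)‖ := by congr 1; abel
            _ ≤ _ := norm_add_le _ _
        have h6 : ‖η‖ ^ 2 ≤ (‖η - (ν k - p k)‖ + ‖ν k - p k‖) ^ 2 := by gcongr
        nlinarith [sq_nonneg (‖η - (ν k - p k)‖ - ‖ν k - p k‖)]
      have g6 := hbound k
      have g7 : 16 * (‖v‖ + 1) + 8 * (|C| + |β| + M) < ‖η‖ := (le_max_right _ _).trans_lt hη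
      have g8 := le_abs_self C
      have g9 : 0 ≤ M := (sq_nonneg ‖ν k - p k‖).trans (hbound k)
      have g10 := norm_nonneg v
      have g11 := abs_nonneg C
      have g12 := abs_nonneg β
      -- ‖η‖²/8 ≥ ‖v‖‖η‖ + C + |β| + M/2
      have g13 : ‖v‖ * ‖η‖ + |C| + |β| + M / 2 ≤ ‖η‖ ^ 2 / 8 := by
        have g14 : 1 ≤ ‖η‖ := by nlinarith
        have g15 : (16 * (‖v‖ + 1) + 8 * (|C| + |β| + M)) * ‖η‖ ≤ ‖η‖ ^ 2 := by nlinarith
        have g16 : 8 * (|C| + |β| + M) * 1 ≤ 8 * (|C| + |β| + M) * ‖η‖ := by gcongr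
        have g17 : 0 ≤ ‖v‖ * ‖η‖ := by positivity
        nlinarith
      rw [hM] at g13
      nlinarith
  have hle : Uf W (Y + l k • ν k) (l k) ≤
      l k * (Wt (ν k - p k) 1 + δ) + W Y 0 + l k * ⟪p k, ν k - p k⟫ + l k * b k := by
    apply Uf_le_of hS (q := v + p k) (hl k)
    intro y
    have g1 := hall ((l k)⁻¹ • (y - Y) - p k)
    rw [hscale k y, div_le_iff₀ (hl k)] at g1
    have g2 : (l k)⁻¹ • (y - Y) - p k - (ν k - p k) = (l k)⁻¹ • (y - (Y + l k • ν k)) := by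
      have : ν k = (l k)⁻¹ • (l k • ν k) := by
        rw [smul_smul, inv_mul_cancel₀ (hl k).ne', one_smul]
      rw [sub_sub_sub_cancel_right]
      conv_lhs => rw [this]
      rw [← smul_sub]
      congr 1
      abel
    have g3 : Wt ((l k)⁻¹ • (y - Y) - p k) 1
        = Wt (ν k - p k) 1 + ⟪v, y - (Y + l k • ν k)⟫ / l k := by
      have : (l k)⁻¹ • (y - Y) - p k = (ν k - p k) + (l k)⁻¹ • (y - (Y + l k • ν k)) := by
        rw [← g2]; abel
      rw [hv, hv, this, inner_add_right, real_inner_smul_right]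
      ring
    rw [g2, g3, norm_smul, mul_pow, norm_inv, Real.norm_eq_abs, abs_of_pos (hl k)] at g1
    have g4 : (Wt (ν k - p k) 1 + ⟪v, y - (Y + l k • ν k)⟫ / l k + δ
        + (l k)⁻¹ ^ 2 * ‖y - (Y + l k • ν k)‖ ^ 2 / 2) * l k
        = l k * (Wt (ν k - p k) 1 + δ) + ⟪v, y - (Y + l k • ν k)⟫
          + ‖y - (Y + l k • ν k)‖ ^ 2 / (2 * l k) := by
      have := (hl k).ne'
      field_simp
      ring
    rw [g4] at g1
    have g5 : ⟪p k, y - Y⟫ = ⟪p k, y - (Y + l k • ν k)⟫ + l k * ⟪p k, ν k⟫ := by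
      have : y - Y = (y - (Y + l k • ν k)) + l k • ν k := by abel
      rw [this, inner_add_right, real_inner_smul_right]
    have g6 : ⟪p k, ν k - p k⟫ = ⟪p k, ν k⟫ - ‖p k‖ ^ 2 := by
      rw [inner_sub_right, real_inner_self_eq_norm_sq]
    rw [inner_add_left, g6]
    rw [g5] at g1
    linarith
  rw [hν1 k] at hle
  have h3 := hscale k (Y + l k • ν k)
  rw [hx', add_sub_cancel_left, real_inner_smul_right] at h3
  have h4 := (abs_lt.1 (hk (ν k - p k) hkb)).1
  rw [h3] at h4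
  have h5 : ⟪p k, ν k - p k⟫ = ⟪p k, ν k⟫ - ‖p k‖ ^ 2 := by
    rw [inner_sub_right, real_inner_self_eq_norm_sq]
  rw [h5] at hle
  have h6 : (Wt (ν k - p k) 1 - δ) * l k ≤ W (Y + l k • ν k) (l k) - W Y 0 - l k * ⟪p k, ν k⟫
      + l k * ‖p k‖ ^ 2 - l k * b k := by
    rw [← le_div_iff₀ (hl k)]
    linarith
  have h7 : κ * l k ≤ 2 * δ * l k := by nlinarith
  have h8 := le_of_mul_le_mul_right h7 (hl k)
  rw [hδ] at h8
  linarith

end Crest.Agent.R094.StageF

namespace Crest.Agent.R094.GK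

variable {V : Type*} [NormedAddCommGroup V] [InnerProductSpace ℝ V]

theorem StageF [FiniteDimensional ℝ V] (hCpt : Compact_stmt V) : StageF_stmt V :=
  Crest.Agent.R094.StageF.stageF hCpt

end Crest.Agent.R094.GK
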