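import Crest.Agent.R094.StageCLow
import Crest.Agent.R094.StageD
import Crest.Agent.R094.StageEGK
import Crest.Agent.R094.StageF
import Crest.Agent.R094.FlatCpt
import Crest.Agent.R094.ClsInv

/-! Row 94 (S0124): assembly of Theorem L (every member of the flat class is affine). -/

set_option autoImplicit false

namespace Crest.Agent.R094.GK

variable (V : Type*) [NormedAddCommGroup V] [InnerProductSpace ℝ V] [FiniteDimensional ℝ V]

/-- Theorem L -/
theorem theoremL : Liouville V :=
  liouville_of_stages
    (Extremal FlatCpt.compact ClsNrmz)
    (affineOfNoDefect ClsRev)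
    (StageD.stageD CLow.stageC ClsNrmz FlatCpt.compact)
    (stageE_iface propC CUpB.VfAttained EnvSub)
    (StageF FlatCpt.compact)

end Crest.Agent.R094.GK
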