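import Crest.Agent.R094.EnvK

/-!
Row 94, route 7921: `VfAttained_stmt` (owner helper524): the supremum defining `Vf` is attained and at
a maximiser the momentum is a semiconcave supergradient.
-/

set_option autoImplicit false
set_option linter.unusedSectionVars false

namespace Crest.Agent.R094.GK

open Sol Set Filter Topology

variable {V : Type*} [NormedAddCommGroup V] [InnerProductSpace ℝ V]

/-- coercivity of `Phi` -/
theorem Phi_coer {c : ℝ} (hc : 0 < c) (Y₀ : V) {s : ℝ} (hs : 0 < s) (t : ℝ) :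
    ∃ a C : ℝ, 0 < a ∧ 0 ≤ C ∧ ∀ x z : V, a * (‖x‖ ^ 2 + ‖z‖ ^ 2) ≤ Phi c Y₀ s t x z + C := by
  set r : ℝ := t / s with hr
  set M : ℝ := 12 / (s * c) + 6 * s * (r ^ 2 + (r - 1) ^ 2) with hM
  have hsc : 0 < s * c := by positivity
  have hM0 : 0 < M := by positivity
  refine ⟨1 / M, 6 * ‖Y₀‖ ^ 2 / M, by positivity, by positivity, fun x z => ?_⟩
  have hmain : ‖x‖ ^ 2 + ‖z‖ ^ 2 ≤ M * Phi c Y₀ s t x z + 6 * ‖Y₀‖ ^ 2 := by
    unfold Phi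
    rw [← hr]
    set d : V := x - z with hd
    set Z : V := x - r • d - Y₀ with hZ
    have ex : x = Z + r • d + Y₀ := by rw [hZ]; abel
    have ez : z = Z + (r - 1) • d + Y₀ := by
      rw [hZ, sub_smul, one_smul, hd]; abel
    have tri : ∀ a b e : V, ‖a + b + e‖ ^ 2 ≤ 3 * (‖a‖ ^ 2 + ‖b‖ ^ 2 + ‖e‖ ^ 2) := by
      intro a b e
      have h1 : ‖a + b + e‖ ≤ ‖a‖ + ‖b‖ + ‖e‖ := norm_add₃_le
      have h2 := norm_nonneg (a + b + e)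
      nlinarith [sq_nonneg (‖a‖ - ‖b‖), sq_nonneg (‖b‖ - ‖e‖), sq_nonneg (‖a‖ - ‖e‖)]
    have h1 : ‖x‖ ^ 2 ≤ 3 * (‖Z‖ ^ 2 + r ^ 2 * ‖d‖ ^ 2 + ‖Y₀‖ ^ 2) := by
      have := tri Z (r • d) Y₀
      rw [← ex, norm_smul, mul_pow, Real.norm_eq_abs, sq_abs] at this
      exact this
    have h2 : ‖z‖ ^ 2 ≤ 3 * (‖Z‖ ^ 2 + (r - 1) ^ 2 * ‖d‖ ^ 2 + ‖Y₀‖ ^ 2) := by
      have := tri Z ((r - 1) • d) Y₀
      rw [← ez, norm_smul, mul_pow, Real.norm_eq_abs, sq_abs] at this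
      exact this
    have h3 : 3 * (r ^ 2 + (r - 1) ^ 2) * ‖d‖ ^ 2 ≤ M * (‖d‖ ^ 2 / (2 * s)) := by
      have : M * (‖d‖ ^ 2 / (2 * s)) - 3 * (r ^ 2 + (r - 1) ^ 2) * ‖d‖ ^ 2
          = 12 / (s * c) * (‖d‖ ^ 2 / (2 * s)) := by
        rw [hM]; field_simp; ring
      have : 0 ≤ 12 / (s * c) * (‖d‖ ^ 2 / (2 * s)) := by positivity
      linarith
    have h4 : 6 * ‖Z‖ ^ 2 ≤ M * (s * c / 2 * ‖Z‖ ^ 2) := by
      have : M * (s * c / 2 * ‖Z‖ ^ 2) - 6 * ‖Z‖ ^ 2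
          = 6 * s * (r ^ 2 + (r - 1) ^ 2) * (s * c / 2 * ‖Z‖ ^ 2) := by
        rw [hM]; field_simp; ring
      have : 0 ≤ 6 * s * (r ^ 2 + (r - 1) ^ 2) * (s * c / 2 * ‖Z‖ ^ 2) := by positivity
      linarith
    nlinarith
  rw [one_div, inv_mul_le_iff₀ hM0]
  have : M * (Phi c Y₀ s t x z + 6 * ‖Y₀‖ ^ 2 / M) = M * Phi c Y₀ s t x z + 6 * ‖Y₀‖ ^ 2 := by
    field_simp
  rw [this]
  exact hmain

theorem Phi_add {c : ℝ} (Y₀ : V) {s : ℝ} (hs : 0 < s) (t : ℝ) (x z ξ : V) :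
    Phi c Y₀ s t (x + ξ) z = Phi c Y₀ s t x z
      + inner ℝ ((1 / s) • (x - z) - (c * (t - s)) • (x - (t / s) • (x - z) - Y₀)) ξ
      + (1 / (2 * s) + s * c / 2 * (1 - t / s) ^ 2) * ‖ξ‖ ^ 2 := by
  unfold Phi
  have e1 : x + ξ - z = (x - z) + ξ := by abel
  have e2 : x + ξ - (t / s) • (x + ξ - z) - Y₀ =
      (x - (t / s) • (x - z) - Y₀) + (1 - t / s) • ξ := by
    rw [e1, smul_add, sub_smul, one_smul]; abel
  set d : V := x - z with hd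
  set Z : V := x - (t / s) • d - Y₀ with hZ
  have e3 : inner ℝ ((1 / s) • d - (c * (t - s)) • Z) ξ
      = 1 / s * inner ℝ d ξ - c * (t - s) * inner ℝ Z ξ := by
    rw [inner_sub_left, inner_smul_left, inner_smul_left]
    simp only [conj_trivial]
  rw [e3, e2, e1, norm_add_sq_real, norm_add_sq_real, norm_smul, mul_pow, Real.norm_eq_abs, sq_abs,
    inner_smul_right]
  field_simp
  ring

variable [FiniteDimensional ℝ V]

/-- a `C^{1,1}`-from-above supergradient of the envelope is a semiconcave supergradient -/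
theorem supGrad_of_quad {w : V → ℝ → ℝ} (hw : IsSol w) {t : ℝ} (ht : 0 < t) {x q : V} {A : ℝ}
    (h : ∀ ξ, Uf w (x + ξ) t ≤ Uf w x t + inner ℝ q ξ + A * ‖ξ‖ ^ 2) :
    SupGrad t (fun y => Uf w y t) x q := by
  intro ξ
  show Uf w (x + ξ) t ≤ Uf w x t + inner ℝ q ξ + ‖ξ‖ ^ 2 / (2 * t)
  have hcc := (concaveOn_env (slice_subQ hw.grow t) ht).2
  have key : ∀ l : ℝ, 0 < l → l ≤ 1 →
      Uf w (x + ξ) t ≤ Uf w x t + inner ℝ q ξ + ‖ξ‖ ^ 2 / (2 * t) + l * (|A| * ‖ξ‖ ^ 2) := by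
    intro l hl hl1
    have h1 := hcc (mem_univ x) (mem_univ (x + ξ)) (sub_nonneg.mpr hl1) hl.le (by ring)
    have e1 : (1 - l) • x + l • (x + ξ) = x + l • ξ := by
      rw [sub_smul, smul_add, one_smul]; abel
    rw [e1] at h1
    simp only [smul_eq_mul] at h1
    have h2 := h (l • ξ)
    rw [inner_smul_right, norm_smul, Real.norm_eq_abs, mul_pow, sq_abs] at h2
    have e2 : Uf w (x + l • ξ) t = env t (fun y => w y t) (x + l • ξ) := rfl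
    have e3 : Uf w x t = env t (fun y => w y t) x := rfl
    have e4 : Uf w (x + ξ) t = env t (fun y => w y t) (x + ξ) := rfl
    rw [← e2, ← e3, ← e4] at h1
    have n1 : ‖x + l • ξ‖ ^ 2 = ‖x‖ ^ 2 + 2 * (l * inner ℝ x ξ) + l ^ 2 * ‖ξ‖ ^ 2 := by
      rw [norm_add_sq_real, inner_smul_right, norm_smul, Real.norm_eq_abs, mul_pow, sq_abs]
    have n2 : ‖x + ξ‖ ^ 2 = ‖x‖ ^ 2 + 2 * inner ℝ x ξ + ‖ξ‖ ^ 2 := norm_add_sq_real x ξ
    rw [n1, n2] at h1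
    have h3 : l * (Uf w (x + ξ) t - Uf w x t) ≤
        l * (inner ℝ q ξ + (1 - l) * (‖ξ‖ ^ 2 / (2 * t)) + A * l * ‖ξ‖ ^ 2) := by
      have : (1 - l) * (Uf w x t - ‖x‖ ^ 2 / (2 * t)) + l * (Uf w (x + ξ) t -
          (‖x‖ ^ 2 + 2 * inner ℝ x ξ + ‖ξ‖ ^ 2) / (2 * t)) =
          Uf w x t + l * (Uf w (x + ξ) t - Uf w x t) - (‖x‖ ^ 2 + 2 * (l * inner ℝ x ξ)
            + l * ‖ξ‖ ^ 2) / (2 * t) := by ring
      rw [this] at h1
      have e5 : (‖x‖ ^ 2 + 2 * (l * inner ℝ x ξ) + l * ‖ξ‖ ^ 2) / (2 * t) -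
          (‖x‖ ^ 2 + 2 * (l * inner ℝ x ξ) + l ^ 2 * ‖ξ‖ ^ 2) / (2 * t) =
          l * ((1 - l) * (‖ξ‖ ^ 2 / (2 * t))) := by ring
      nlinarith
    have h4 := le_of_mul_le_mul_left h3 hl
    have h5 : (1 - l) * (‖ξ‖ ^ 2 / (2 * t)) ≤ ‖ξ‖ ^ 2 / (2 * t) := by
      have : 0 ≤ ‖ξ‖ ^ 2 / (2 * t) := by positivity
      nlinarith
    have h6 : A * l * ‖ξ‖ ^ 2 ≤ l * (|A| * ‖ξ‖ ^ 2) := by
      have : A * (l * ‖ξ‖ ^ 2) ≤ |A| * (l * ‖ξ‖ ^ 2) :=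
        mul_le_mul_of_nonneg_right (le_abs_self A) (by positivity)
      linarith
    linarith
  have hB : 0 ≤ |A| * ‖ξ‖ ^ 2 := by positivity
  refine le_of_forall_pos_le_add fun ε hε => ?_
  have hl0 : 0 < min 1 (ε / (|A| * ‖ξ‖ ^ 2 + 1)) := by positivity
  have h1 := key _ hl0 (min_le_left _ _)
  have h2 : min 1 (ε / (|A| * ‖ξ‖ ^ 2 + 1)) * (|A| * ‖ξ‖ ^ 2) ≤ ε := by
    calc min 1 (ε / (|A| * ‖ξ‖ ^ 2 + 1)) * (|A| * ‖ξ‖ ^ 2)
        ≤ ε / (|A| * ‖ξ‖ ^ 2 + 1) * (|A| * ‖ξ‖ ^ 2) :=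
          mul_le_mul_of_nonneg_right (min_le_right _ _) hB
      _ ≤ ε := by
          rw [div_mul_eq_mul_div, div_le_iff₀ (by positivity)]
          nlinarith
  linarith

theorem val_cont {w : V → ℝ → ℝ} (hw : IsSol w) {c : ℝ} (Y₀ : V) (s : ℝ) {t : ℝ} (ht : 0 < t) :
    Continuous fun q : V × V => val (Uf w) w c Y₀ s t q.1 q.2 := by
  have h1 : Continuous fun q : V × V => Uf w q.1 t :=
    (continuous_env (slice_cont hw.cont t) (slice_subQ hw.grow t) ht).comp continuous_fst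
  have h2 : Continuous fun q : V × V => w q.2 (t - s) :=
    (slice_cont hw.cont (t - s)).comp continuous_snd
  have h3 : Continuous fun q : V × V => Phi c Y₀ s t q.1 q.2 := by
    unfold Phi
    fun_prop
  exact (h1.sub h2).sub h3

/-- coercive upper bound for `val` -/
theorem val_coer {w : V → ℝ → ℝ} (hw : IsSol w) {c : ℝ} (hc : 0 < c) (Y₀ : V) {s t : ℝ}
    (hs : 0 < s) (ht : 0 < t) : ∃ a C : ℝ, 0 < a ∧ 0 ≤ C ∧
      ∀ x z : V, val (Uf w) w c Y₀ s t x z ≤ C - a * (‖x‖ ^ 2 + ‖z‖ ^ 2) := by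
  obtain ⟨a, C, ha, hC, hP⟩ := Phi_coer hc Y₀ hs t
  obtain ⟨C₁, h1⟩ := Uf_grow hw t (a / 2) (by positivity)
  obtain ⟨C₂, h2⟩ := hw.grow |t - s| (a / 2) (by positivity)
  refine ⟨a / 2, |C + C₁ + C₂|, by positivity, abs_nonneg _, fun x z => ?_⟩
  have e1 := (abs_le.mp (h1 x t ht le_rfl)).2
  have e2 := (abs_le.mp (h2 z (t - s) le_rfl)).1
  have e3 := hP x z
  have e4 := le_abs_self (C + C₁ + C₂)
  unfold val
  linarith

theorem val_bdd {w : V → ℝ → ℝ} (hw : IsSol w) {c : ℝ} (hc : 0 < c) (Y₀ : V) {s t : ℝ}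
    (hs : 0 < s) (ht : 0 < t) :
    BddAbove (Set.range fun q : V × V => val (Uf w) w c Y₀ s t q.1 q.2) := by
  obtain ⟨a, C, ha, hC, h⟩ := val_coer hw hc Y₀ hs ht
  refine ⟨C, ?_⟩
  rintro _ ⟨q, rfl⟩
  have := h q.1 q.2
  have : 0 ≤ a * (‖q.1‖ ^ 2 + ‖q.2‖ ^ 2) := by positivity
  simp only
  linarith

theorem exists_val_max {w : V → ℝ → ℝ} (hw : IsSol w) {c : ℝ} (hc : 0 < c) (Y₀ : V) {s t : ℝ}
    (hs : 0 < s) (ht : 0 < t) : ∃ x z : V, ∀ x' z' : V,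
      val (Uf w) w c Y₀ s t x' z' ≤ val (Uf w) w c Y₀ s t x z := by
  obtain ⟨a, C, ha, hC, h⟩ := val_coer hw hc Y₀ hs ht
  have : ProperSpace V := FiniteDimensional.proper_real V
  have hcont := val_cont hw (c := c) Y₀ s ht
  have hev : ∀ᶠ q : V × V in cocompact (V × V),
      val (Uf w) w c Y₀ s t q.1 q.2 ≤ val (Uf w) w c Y₀ s t (0 : V × V).1 (0 : V × V).2 := by
    set v₀ : ℝ := val (Uf w) w c Y₀ s t (0 : V × V).1 (0 : V × V).2 with hv₀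
    have ht1 := (tendsto_norm_cocompact_atTop (E := V × V)).eventually
      (eventually_ge_atTop (max 1 ((C + |v₀|) / a)))
    filter_upwards [ht1] with q hq
    have hq1 : 1 ≤ ‖q‖ := (le_max_left _ _).trans hq
    have hq2 : (C + |v₀|) / a ≤ ‖q‖ := (le_max_right _ _).trans hq
    rw [div_le_iff₀ ha] at hq2
    have hqn : ‖q‖ ^ 2 ≤ ‖q.1‖ ^ 2 + ‖q.2‖ ^ 2 := by
      rw [Prod.norm_def]
      rcases max_choice ‖q.1‖ ‖q.2‖ with hm | hm <;> rw [hm] <;>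
        nlinarith [sq_nonneg ‖q.1‖, sq_nonneg ‖q.2‖]
    have := h q.1 q.2
    have h5 : ‖q‖ * a ≤ a * (‖q.1‖ ^ 2 + ‖q.2‖ ^ 2) := by
      have : ‖q‖ ≤ ‖q‖ ^ 2 := by nlinarith
      nlinarith
    have h6 := neg_abs_le v₀
    linarith
  obtain ⟨q, hq⟩ := hcont.exists_forall_ge' (0 : V × V) hev
  exact ⟨q.1, q.2, fun x' z' => hq (x', z')⟩

/-- at a maximiser the momentum is a semiconcave supergradient -/
theorem supGrad_of_max {w : V → ℝ → ℝ} (hw : IsSol w) {c : ℝ} {Y₀ : V} {s t : ℝ}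
    (hs : 0 < s) (ht : 0 < t) {x z : V} (h : ∀ x' : V,
      val (Uf w) w c Y₀ s t x' z ≤ val (Uf w) w c Y₀ s t x z) :
    SupGrad t (fun y => Uf w y t) x
      ((1 / s) • (x - z) - (c * (t - s)) • (x - (t / s) • (x - z) - Y₀)) := by
  refine supGrad_of_quad hw ht (A := 1 / (2 * s) + s * c / 2 * (1 - t / s) ^ 2) fun ξ => ?_
  have h1 := h (x + ξ)
  unfold val at h1
  rw [Phi_add Y₀ hs t x z ξ] at h1
  linarith

theorem val_le_Vf {w : V → ℝ → ℝ} (hw : IsSol w) {c : ℝ} (hc : 0 < c) (Y₀ : V) {s t : ℝ}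
    (hs : 0 < s) (ht : 0 < t) (x z : V) :
    val (Uf w) w c Y₀ s t x z ≤ Vf (Uf w) w c Y₀ s t :=
  le_ciSup (val_bdd hw hc Y₀ hs ht) (x, z)

theorem Vf_le {U w : V → ℝ → ℝ} {c : ℝ} {Y₀ : V} {s t A : ℝ}
    (h : ∀ x z, val U w c Y₀ s t x z ≤ A) : Vf U w c Y₀ s t ≤ A :=
  ciSup_le fun q => h q.1 q.2

/-- (524) the supremum `Vf` is attained, and at a maximiser `q` is a supergradient -/
theorem VfAttained : VfAttained_stmt V := by
  intro K w hw c Y₀ s t hc hs ht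
  refine ⟨val_bdd hw.sol hc Y₀ hs ht, ?_⟩
  obtain ⟨x, z, hmax⟩ := exists_val_max hw.sol hc Y₀ hs ht
  refine ⟨x, z, ?_, supGrad_of_max hw.sol hs ht fun x' => hmax x' z⟩
  apply le_antisymm
  · exact ciSup_le fun q => hmax q.1 q.2
  · exact le_ciSup (val_bdd hw.sol hc Y₀ hs ht) (x, z)

end Crest.Agent.R094.GK
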